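import Vale.Agent.P057RH.Inf

/-! Replacing factors that depend on the face by factors that depend only on its classes. -/

set_option linter.all false

open Finset Function Filter Topology
open scoped BigOperators

namespace Vale.Agent.P057RH

noncomputable section

open Classical

variable {C N V : Type} [Fintype C] [DecidableEq C] [Fintype N] [DecidableEq N] [DecidableEq V]

/-- move the vertices in the classes of P to t -/
def clp (P : Finset C) (t : C → N) (φ : Fc C N) : Fc C N :=
  fun i => if i ∈ P then (φ i).map fun _ => t i else φ i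

/-- move all vertices to t -/
def col (t : C → N) (φ : Fc C N) : Fc C N := fun i => (φ i).map fun _ => t i

theorem sp_col (t : C → N) (φ : Fc C N) : sp (col t φ) = sp φ := by
  ext i; simp [sp, col]

theorem col_eq (t : C → N) (φ : Fc C N) : col t φ = res (fun i => some (t i)) (sp φ) := by
  funext i
  simp only [col, res, mem_sp]
  cases φ i <;> simp

theorem rect_col {A : C → Finset N} {t : C → N} (ht : ∀ i, (A i).Nonempty → t i ∈ A i)
    {φ : Fc C N} (h : rect A φ) : rect A (col t φ) := fun i l e => by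
  obtain ⟨m, h1, h2⟩ := Option.map_eq_some_iff.1 e
  exact h2 ▸ ht i ⟨m, h i m h1⟩

variable {ν : Finset C → Vw C V → ℝ} {v0 : V}

theorem col_step [Fintype V] [Nonempty N] (hν : ∀ S u, 0 ≤ ν S u) (A : C → Finset N)
    {h : Fc C N → Vw C V → ℝ} (hh : ∀ φ u, 0 ≤ h φ u) (i : C) :
    ∃ l, ((A i).Nonempty → l ∈ A i) ∧
      La ν v0 (rect A) h ≤ La ν v0 (rect A) fun φ => h (clp {i} (fun _ => l) φ) := by
  obtain ⟨B, hB⟩ : ∃ B : N → (Fm C N i → V) → ℝ, ∀ l x, B l x = bs i (fun ψ u => if rect A ψ.1 then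
      ν (insert i (sp ψ.1)) u * h (update ψ.1 i (some l)) u else dl v0 u) x := ⟨_, fun _ _ => rfl⟩
  have B0 : ∀ l x, 0 ≤ B l x := fun l x => by
    rw [hB]
    refine bs_nonneg i (fun ψ u => ?_) x
    split_ifs
    exacts [mul_nonneg (hν _ _) (hh _ _), dl_nonneg _ _]
  have w0 := fr_nonneg i (fam_nonneg (v0 := v0) hν (rect A) hh)
  have e1 : La ν v0 (rect A) h = ∑ x, fr i (fam ν v0 (rect A) h) x * ∏ l ∈ A i, B l x := by
    rw [La, lam_fac i]
    simp only [prod_bs_rect, hB]
  have e2 : ∀ l, (La ν v0 (rect A) fun φ => h (clp {i} (fun _ => l) φ)) =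
      ∑ x, fr i (fam ν v0 (rect A) h) x * B l x ^ (A i).card := fun l => by
    rw [La, lam_fac i]
    refine sum_congr rfl fun x _ => ?_
    rw [prod_bs_rect, ← prod_const]
    congr 1
    · refine prod_congr rfl fun ψ _ => ?_
      have : clp {i} (fun _ => l) ψ.1 = ψ.1 := funext fun j => by
        unfold clp
        split_ifs with k
        · rw [mem_singleton.1 k, ψ.2]; rfl
        · rfl
      simp only [fam, this]
    · refine prod_congr rfl fun m _ => ?_
      have : ∀ ψ : Fm C N i, clp {i} (fun _ => l) (update ψ.1 i (some m)) =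
          update ψ.1 i (some l) := fun ψ => funext fun j => by
        by_cases k : j = i
        · subst k; simp [clp]
        · simp [clp, k]
      simp only [hB, this]
  rcases (A i).eq_empty_or_nonempty with k | k
  · refine ⟨Classical.arbitrary N, fun n => absurd k n.ne_empty, le_of_eq ?_⟩
    rw [e1, e2, k]
    simp
  · obtain ⟨l, hl, hm⟩ := exists_max_image (A i)
      (fun l => ∑ x, fr i (fam ν v0 (rect A) h) x * B l x ^ (A i).card) k
    refine ⟨l, fun _ => hl, ?_⟩
    have s0 : ∀ l, 0 ≤ ∑ x, fr i (fam ν v0 (rect A) h) x * B l x ^ (A i).card := fun l =>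
      sum_nonneg fun x _ => mul_nonneg (w0 x) (pow_nonneg (B0 l x) _)
    rw [e1, e2]
    refine le_of_pow_le_pow_left₀ k.card_ne_zero (s0 l) ((hol_eq (A i) k _ w0 B B0).trans ?_)
    rw [← prod_const]
    exact prod_le_prod (fun m _ => s0 m) hm

theorem col_ind [Fintype V] [Nonempty N] (hν : ∀ S u, 0 ≤ ν S u) (A : C → Finset N)
    {h : Fc C N → Vw C V → ℝ} (hh : ∀ φ u, 0 ≤ h φ u) (P : Finset C) :
    ∃ t : C → N, (∀ i ∈ P, (A i).Nonempty → t i ∈ A i) ∧
      La ν v0 (rect A) h ≤ La ν v0 (rect A) fun φ => h (clp P t φ) := by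
  induction P using Finset.induction_on with
  | empty => exact ⟨fun _ => Classical.arbitrary N, by simp, le_of_eq (by congr 1)⟩
  | insert i P hi ih =>
    obtain ⟨t, h1, h2⟩ := ih
    obtain ⟨l, h3, h4⟩ := col_step (v0 := v0) hν A (h := fun φ => h (clp P t φ))
      (fun _ _ => hh _ _) i
    refine ⟨update t i l, fun j hj => ?_, h2.trans (h4.trans (le_of_eq ?_))⟩
    · by_cases k : j = i
      · subst k; simpa using h3
      · simpa [k] using h1 j ((mem_insert.1 hj).resolve_left k)
    · congr 1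
      funext φ
      congr 1
      funext j
      by_cases k : j = i
      · subst k; simp [clp, hi]
      · simp [clp, k]

theorem col_fin [Fintype V] [Nonempty N] (hν : ∀ S u, 0 ≤ ν S u) (A : C → Finset N)
    {h : Fc C N → Vw C V → ℝ} (hh : ∀ φ u, 0 ≤ h φ u) :
    ∃ t : C → N, (∀ i, (A i).Nonempty → t i ∈ A i) ∧
      La ν v0 (rect A) h ≤ La ν v0 (rect A) fun φ => h (col t φ) := by
  obtain ⟨t, h1, h2⟩ := col_ind (v0 := v0) hν A hh univ
  refine ⟨t, fun i => h1 i (mem_univ i), h2.trans (le_of_eq ?_)⟩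
  congr 1
  funext φ
  congr 1
  funext j
  simp [clp, col]

/-- one choice of vertices is at least as good as the given inhomogeneous family -/
theorem col_t [Nonempty N] (hν : ∀ S u, 0 ≤ ν S u) (A : C → Finset N)
    {h : Fc C N → Vw C V → ℝ} (hh : ∀ φ u, 0 ≤ h φ u) (hs : Summable (tm ν v0 (rect A) h))
    (hs' : ∀ t : C → N, Summable (tm ν v0 (rect A) fun φ => h (col t φ))) :
    ∃ t : C → N, (∀ i, (A i).Nonempty → t i ∈ A i) ∧
      Lt ν v0 (rect A) h ≤ Lt ν v0 (rect A) fun φ => h (col t φ) := by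
  have ne : (univ.filter fun t : C → N => ∀ i, (A i).Nonempty → t i ∈ A i).Nonempty := by
    refine ⟨fun i => if k : (A i).Nonempty then k.choose else Classical.arbitrary N, ?_⟩
    simp only [mem_filter, mem_univ, true_and]
    exact fun i k => by rw [dif_pos k]; exact k.choose_spec
  obtain ⟨t, ht, hm⟩ := exists_max_image _ (fun t : C → N => Lt ν v0 (rect A) fun φ => h (col t φ)) ne
  refine ⟨t, (mem_filter.1 ht).2, le_of_tendsto' (tend_la hs) fun s => ?_⟩
  obtain ⟨t', h1, h2⟩ := col_fin (v0 := t0 v0 s) (ν := tr v0 s ν) (fun _ _ => hν _ _) A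
    (h := tr v0 s h) fun _ _ => hh _ _
  exact h2.trans ((la_tr_le hν (h := fun φ => h (col t' φ)) (fun _ _ => hh _ _) (hs' t') s).trans
    (hm t' (mem_filter.2 ⟨mem_univ _, h1⟩)))

end

end Vale.Agent.P057RH
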