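import Vale.Agent.P057RH.Br
import Vale.Agent.P057RH.Col
import Vale.Agent.P057ST.Cos

/-! Passing to one coset and one centre, the same on all faces. -/

set_option linter.all false

open Matrix Finset Function
open scoped BigOperators Real Kronecker
open Vale.Agent.P267.H775 Vale.Agent.P057G Vale.Agent.P057MA Vale.Agent.P057PC Vale.Agent.P057ST

namespace Vale.Agent.P057RH

noncomputable section

section gen

variable {W κ : Type*} [Fintype κ] [DecidableEq κ]

/-- the centres are triangular -/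
def Trs (S : MS W κ) : Prop :=
  ∀ i z z', (∀ j, S.lv j < S.lv i → z j = z' j) → S.p z i = S.p z' i

/-- the centres of the subsystem on q -/
def pq (S : MS W κ) (q : Finset κ) (x : q → ℤ) (i : q) : ℝ := S.p (toR (put q x 0)) i

theorem Trs.tri {S : MS W κ} (h : Trs S) (q : Finset κ) : Tri (fun i : q => S.lv i) (pq S q) :=
  fun i x x' k => h i _ _ fun j hj => by
    by_cases m : j ∈ q
    · rw [toR_apply, toR_apply, put_pos _ _ m, put_pos _ _ m, k ⟨j, m⟩ hj]
    · rw [toR_apply, toR_apply, put_neg _ _ m, put_neg _ _ m]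

theorem wt_ng (S : MS W κ) (q : Finset κ) (x : q → ℤ) :
    S.wt q (put q x 0) / vl S.G q = ng (blk S.G q) (toR x - pq S q x) := by
  rw [MS.wt_put_zero, ng, vl]
  congr 2
  funext i
  simp only [MS.ps, Pi.sub_apply, toR_apply, put_coe, pq]

/-- sums in indicator form and in subtype form -/
theorem wt_er (S : MS W κ) (q : Finset κ) (F : (κ → ℤ) → ℝ) :
    ∑' z, S.wt q z / vl S.G q * F z = Er (blk S.G q) (pq S q) fun x => F (put q x 0) := by
  rw [← tsum_put q fun z i hi hz => by rw [MS.wt_eq_zero hi hz, zero_div, zero_mul]]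
  simp only [wt_ng, Er]

theorem mass_ms (S : MS W κ) (q : Finset κ) : S.mass q = ms (blk S.G q) (pq S q) := by
  rw [← er_one, ← wt_er S q fun _ => 1, MS.mass, ← tsum_div_const]
  simp only [mul_one]

theorem Trs.summable {S : MS W κ} (h : Trs S) (hG : S.G.PosDef) (q : Finset κ) :
    Summable (S.wt q) := by
  have hinj : Injective fun x : q → ℤ => put q x (0 : κ → ℤ) := fun x x' h => funext fun i => by
    simpa only [put_coe] using congrFun h i
  refine (hinj.summable_iff fun z hz => ?_).1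
    (((summable_ng (h.tri q) (posDef_blk hG q)).mul_right (vl S.G q)).congr fun x => ?_)
  · by_contra h0
    refine hz ⟨fun i => z i, funext fun i => ?_⟩
    by_cases m : i ∈ q
    · exact put_pos _ _ m
    · by_contra h1
      exact h0 (MS.wt_eq_zero m fun e => h1 ((put_neg _ _ m).trans e.symm))
  · rw [← wt_ng, div_mul_cancel₀ _ (vl_pos hG q).ne']; rfl

end gen

variable {C N ι : Type} [Fintype C] [DecidableEq C] [Fintype N] [DecidableEq N] [Fintype ι]
  [DecidableEq ι]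

/-- the same faces with another Gram matrix and other centres -/
abbrev sy (S : MS C ι) (H : Matrix ι ι ℝ) (p : (ι → ℝ) → ι → ℝ) : MS C ι := ⟨S.fc, S.lv, H, p⟩

/-- the blow-up with centres that depend on the face -/
def het (S : MS C ι) (c0 : N) (P : Fc C N → (ι → ℝ) → ι → ℝ) : MS (C × N) (BI S.fc c0) :=
  ⟨(blow S c0).fc, (blow S c0).lv, (blow S c0).G,
    fun z a => P (fa a) (lz S.fc c0 z (fa a)) a.1.1⟩

variable {c0 : N} {S : MS C ι} {q : Finset ι} {K : Fc C N → Prop}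

theorem pd_blow (h : S.G.PosDef) (c0 : N) : (blow S c0).G.PosDef := by
  have h1 := (h.kronecker (PosDef.one (n := C → N) (R := ℝ))).submatrix
    (e := fun a : BI S.fc c0 => a.1) Subtype.val_injective
  have h2 : (blow S c0).G = (S.G ⊗ₖ (1 : Matrix (C → N) (C → N) ℝ)).submatrix
      (fun a : BI S.fc c0 => a.1) fun a : BI S.fc c0 => a.1 := by
    ext a b
    simp [blow, one_apply]
  rw [h2]
  exact h1

theorem toR_lz (z : BI S.fc c0 → ℤ) (φ : Fc C N) :
    toR (lz S.fc c0 z φ) = lz S.fc c0 (toR z) φ := by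
  funext k
  simp only [toR_apply, lz]
  split_ifs <;> simp

theorem tm_one (ν : Finset C → Vw C (ι → ℤ) → ℝ) (g : Fc C N → Vw C (ι → ℤ) → ℝ) :
    tm (fun _ _ => 1) 0 K (fun φ u => ν (sp φ) u * g φ u) = tm ν 0 K g := by
  funext a
  simp only [tm, fam, one_mul]

open Classical in
theorem tm_het (hG : S.G.PosDef) (ho : ∀ i j, S.G i j ≠ 0 → S.fc i = S.fc j)
    (P : Fc C N → (ι → ℝ) → ι → ℝ) (g : Fc C N → Vw C (ι → ℤ) → ℝ) (z : BI S.fc c0 → ℤ) :
    tm (fun _ _ => 1) 0 K (fun φ u => nu (sy S S.G (P φ)) q (sp φ) u * g φ u) (cf S.fc c0 z) =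
      (het S c0 P).wt (qk S.fc c0 q K) z / vl (het S c0 P).G (qk S.fc c0 q K) *
        ∏ φ, if K φ then g φ (ex S.fc (sp φ) (lz S.fc c0 z φ)) else 1 := by
  have hv : ∀ φ : Fc C N, vw (cf S.fc c0 z) φ univ = cf S.fc c0 z φ := fun φ => by
    rw [vw, res_univ']
  have L : Lk (sy S S.G 0) := ⟨hG, ho, fun _ _ _ _ => rfl⟩
  by_cases hz : ∀ a ∉ qk S.fc c0 q K, z a = 0
  · rw [MS.wt, if_pos hz, blocks (G := (het S c0 P).G) (pd_blow hG c0) L.orth_blow,
      ← prod_mul_distrib]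
    refine prod_congr rfl fun φ _ => ?_
    have h2 := (supp_iff z).1 hz φ
    by_cases hφ : K φ
    · have hG : ∀ i ∈ qf S.fc q (sp φ), ∀ j ∈ qf S.fc q (sp φ),
          (het S c0 P).G (cp S.fc c0 (ch c0 φ) i) (cp S.fc c0 (ch c0 φ) j) = S.G i j :=
        fun i hi j hj => if_pos (funext fun v => by
          simp only [cp, (mem_qf.1 hi).2, (mem_qf.1 hj).2])
      rw [fam, if_pos hφ, if_pos hφ, one_mul, nu, hv, if_pos (h2.1 hφ), uz_vw, vw_cf,
        qk_face φ hφ, vl_image (cp_inj _ _ _) hG, gs, gs, qq_msk_image (cp_inj _ _ _) hG]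
      congr 6
      refine msk_congr fun k hk => ?_
      have e := (mem_qf.1 hk).2
      have e2 : fa (cp S.fc c0 (ch c0 φ) k) = φ := fa_eq.2 ⟨e, rfl⟩
      simp only [MS.ps, Function.comp, Pi.sub_apply, het, e2, toR_lz]
      congr 1
      simp only [toR_apply, lz, if_pos e.subset]
    · have e : (qk S.fc c0 q K).filter (fun a => fa a = φ) = ∅ :=
        filter_eq_empty_iff.2 fun a ha e => hφ (e ▸ (mem_qk.1 ha).2)
      have e2 : ∀ u, msk (∅ : Finset (BI S.fc c0)) u = 0 := fun u =>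
        funext fun i => msk_neg _ (notMem_empty i)
      rw [fam, if_neg hφ, if_neg hφ, dl, hv, if_pos (h2.2 hφ), e, e2, gs_zero, vl_empty]
      simp
  · rw [MS.wt, if_neg hz, zero_div, zero_mul]
    obtain ⟨φ, hφ⟩ := not_forall.1 (mt (supp_iff z).2 hz)
    refine prod_eq_zero (mem_univ φ) ?_
    by_cases hK : K φ
    · rw [fam, if_pos hK, nu, hv, if_neg fun m => hφ ⟨fun _ => m, fun n => absurd hK n⟩]
      simp
    · rw [fam, if_neg hK, dl, hv, if_neg fun m => hφ ⟨fun n => absurd n hK, fun _ => m⟩]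

theorem range_het (c0 : N) (H : Matrix ι ι ℝ) (P : Fc C N → (ι → ℝ) → ι → ℝ)
    (g : Fc C N → Vw C (ι → ℤ) → ℝ) (a : Fc C N → ι → ℤ)
    (ha : tm (fun _ _ => 1) 0 K (fun φ u => nu (sy S H (P φ)) q (sp φ) u * g φ u) a ≠ 0) :
    a ∈ Set.range (cf S.fc c0) := by
  refine ⟨fun b => a (fa b) b.1.1, funext fun φ => funext fun k => ?_⟩
  unfold cf
  split_ifs with e
  · beta_reduce
    rw [(fa_eq.2 ⟨e, rfl⟩ : fa (cp S.fc c0 (ch c0 φ) k) = φ)]; rfl
  · have h1 := prod_ne_zero_iff.1 ha φ (mem_univ φ)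
    have hv : vw a φ univ = a φ := by rw [vw, res_univ']
    by_contra h0
    by_cases hK : K φ
    · rw [fam, if_pos hK, nu, hv, if_neg fun m => h0 (m k fun n => e (mem_qf.1 n).2).symm] at h1
      simp at h1
    · rw [fam, if_neg hK, dl, hv, if_neg fun m => h0 (congrFun m k).symm] at h1
      exact h1 rfl

theorem trs_het {P : Fc C N → (ι → ℝ) → ι → ℝ} (hP : ∀ φ, Trs (sy S S.G (P φ))) (c0 : N) :
    Trs (het S c0 P) := fun a z z' h => hP (fa a) a.1.1 _ _ fun j hj => by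
  unfold lz
  split_ifs
  exacts [h _ hj, rfl]

theorem trs_blow (h : Trs S) (c0 : N) : Trs (blow S c0) :=
  fun a z z' k => h a.1.1 _ _ fun j hj => k _ hj

open Classical in
theorem abs_fac {M : ℝ} {g : Fc C N → ℝ} (hg : ∀ φ, |g φ| ≤ M) :
    |∏ φ, if K φ then g φ else 1| ≤ max M 1 ^ Fintype.card (Fc C N) := by
  rw [abs_prod, ← card_univ, ← prod_const]
  refine prod_le_prod (fun _ _ => abs_nonneg _) fun φ _ => ?_
  split_ifs
  exacts [(hg φ).trans (le_max_left _ _), by simp]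

theorem summable_het (hG : S.G.PosDef) (ho : ∀ i j, S.G i j ≠ 0 → S.fc i = S.fc j) (c0 : N)
    {P : Fc C N → (ι → ℝ) → ι → ℝ} (hP : ∀ φ, Trs (sy S S.G (P φ)))
    {g : Fc C N → Vw C (ι → ℤ) → ℝ} {M : ℝ} (hg : ∀ φ u, |g φ u| ≤ M) :
    Summable (tm (fun _ _ => 1) 0 K fun φ u => nu (sy S S.G (P φ)) q (sp φ) u * g φ u) := by
  refine ((cf_inj (c0 := c0)).summable_iff fun a ha => ?_).1
    (Summable.congr ?_ fun z => (tm_het hG ho P g z).symm)
  · by_contra h0
    exact ha (range_het c0 _ P g a h0)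
  · exact summable_mul_real (((trs_het hP c0).summable (pd_blow hG c0) _).div_const _)
      (fun z => div_nonneg (MS.wt_nonneg _ _) (vl_pos (pd_blow hG c0) _).le)
      fun z => abs_fac fun φ => hg _ _

open Classical in
theorem lt_het (hG : S.G.PosDef) (ho : ∀ i j, S.G i j ≠ 0 → S.fc i = S.fc j) (c0 : N)
    (P : Fc C N → (ι → ℝ) → ι → ℝ) (g : Fc C N → Vw C (ι → ℤ) → ℝ) :
    Lt (fun _ _ => 1) 0 K (fun φ u => nu (sy S S.G (P φ)) q (sp φ) u * g φ u) =
      Er (blk (blow S c0).G (qk S.fc c0 q K)) (pq (het S c0 P) (qk S.fc c0 q K)) fun x =>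
        ∏ φ, if K φ then g φ (ex S.fc (sp φ) (lz S.fc c0 (put (qk S.fc c0 q K) x 0) φ)) else 1 := by
  rw [Lt, ← cf_inj.tsum_eq fun a ha => range_het c0 _ P g a ha]
  exact (tsum_congr fun z => tm_het hG ho P g z).trans (wt_er (het S c0 P) _ _)

/-- every bounded test is summable on a triangular local system -/
theorem Lk.summable_tm (h : Lk S) (ht : Trs S) [Nonempty N] {g : Fc C N → Vw C (ι → ℤ) → ℝ} {M : ℝ}
    (hg : ∀ φ u, |g φ u| ≤ M) : Summable (tm (nu S q) 0 K g) := by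
  rw [← tm_one]
  exact summable_het h.pd h.orth (Classical.arbitrary N) (P := fun _ => S.p) (fun _ => ht) hg

/-- the centres on a coset, shifted by c -/
def pcs (S : MS C ι) (d r : ι → ℤ) (c : ι → ℝ) (z : ι → ℝ) (k : ι) : ℝ :=
  (S.p (toR r + toR d * z) k - r k) / d k + c k

/-- keep the coordinates on subfaces of T -/
def fcm {α : Type} [Zero α] (fc : ι → Finset C) (T : Finset C) (r : ι → α) : ι → α :=
  fun k => if fc k ⊆ T then r k else 0

theorem trs_pcs (h : Trs S) (H : Matrix ι ι ℝ) (d r : ι → ℤ) (c : ι → ℝ) :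
    Trs (sy S H (pcs S d r c)) := fun i z z' k => by
  change pcs S d r c z i = pcs S d r c z' i
  unfold pcs
  rw [h i (toR r + toR d * z) (toR r + toR d * z') fun j hj => by simp [k j hj]]

theorem Lk.pcs (h : Lk S) {H : Matrix ι ι ℝ} (hH : H.PosDef)
    (ho : ∀ i j, H i j ≠ 0 → S.fc i = S.fc j) (d r : ι → ℤ) (c : ι → ℝ) :
    Lk (sy S H (pcs S d r c)) := ⟨hH, ho, fun i z z' k => by
  change P057RH.pcs S d r c z i = P057RH.pcs S d r c z' i
  unfold P057RH.pcs
  rw [h.loc i (toR r + toR d * z) (toR r + toR d * z') fun j hj => by simp [k j hj]]⟩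

theorem lz_col {α : Type} [Zero α] (R : BI S.fc c0 → α) (t : C → N) (φ : Fc C N) :
    lz S.fc c0 R (col t φ) = fcm S.fc (sp φ) fun k => R (cp S.fc c0 t k) := by
  funext k
  simp only [lz, fcm, sp_col]
  split_ifs with e
  · refine congrArg R (cp_congr fun v hv => ?_)
    obtain ⟨l, hl⟩ := Option.ne_none_iff_exists'.1 (mem_sp'.1 (e hv))
    simp [ch, col, hl]
  · rfl

theorem Lk.nu_fcm (h : Lk S) (H : Matrix ι ι ℝ) (d r : ι → ℤ) (c : ι → ℝ) (T : Finset C)
    (u : Vw C (ι → ℤ)) : nu (sy S H (P057RH.pcs S d (fcm S.fc T r) (fcm S.fc T c))) q T u =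
      nu (sy S H (P057RH.pcs S d r c)) q T u := by
  unfold nu
  congr 3
  refine msk_congr fun k hk => ?_
  have e := (mem_qf.1 hk).2.subset
  simp only [MS.ps, Pi.sub_apply, P057RH.pcs, fcm, if_pos e]
  congr 4
  exact h.loc _ _ _ fun j hj => by simp [fcm, hj.trans e]

/-- one coset and one centre, the same on all faces, do at least as well -/
theorem hom [Nonempty N] (h : Lk S) (ht : Trs S) (q : Finset ι) {d : ι → ℤ} (hd : ∀ k, d k ≠ 0)
    {H : Matrix ι ι ℝ} (ho : ∀ i j, H i j ≠ 0 → S.fc i = S.fc j) (hR : (H - dil d S.G).PosDef)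
    (A : C → Finset N) {g : Fc C N → (ι → ℤ) → ℝ} {M : ℝ} (hg : ∀ φ y, 0 ≤ g φ y ∧ g φ y ≤ M) :
    ∃ (t : C → N) (r : ι → ℤ) (c : ι → ℝ), (∀ i, (A i).Nonempty → t i ∈ A i) ∧
      (∀ k ∉ q, r k = 0) ∧ Lt (nu S q) 0 (rect A) (fun φ u => g φ (uz S.fc u)) ≤
        Lt (nu (sy S H (pcs S d r c)) q) 0 (rect A) fun φ u =>
          g (col t φ) (fcm S.fc (sp φ) r + d * uz S.fc u) := by
  classical
  obtain ⟨c0⟩ := id ‹Nonempty N›
  have hH : H.PosDef := by simpa using hR.add (posDef_dil hd h.pd)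
  have ga : ∀ φ y, |g φ y| ≤ M := fun φ y => by rw [abs_of_nonneg (hg φ y).1]; exact (hg φ y).2
  have ul : ∀ (z : BI S.fc c0 → ℤ) φ, uz S.fc (ex S.fc (sp φ) (lz S.fc c0 z φ)) = lz S.fc c0 z φ :=
    fun z φ => by rw [← vw_cf, uz_vw]
  obtain ⟨Q, hQ⟩ : ∃ Q, Q = qk S.fc c0 q (rect A) := ⟨_, rfl⟩
  have t1 := (trs_het (P := fun _ => S.p) (fun _ => ht) c0).tri Q
  have p1 := posDef_blk (pd_blow h.pd c0) Q
  have d1 : ∀ a : Q, d a.1.1.1 ≠ 0 := fun a => hd _
  obtain ⟨R, k1⟩ := exists_cos t1 p1 d1 (f := fun x =>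
    ∏ φ, if rect A φ then g φ (lz S.fc c0 (put Q x 0) φ) else 1) fun z => abs_fac fun φ => ga _ _
  have p2 : (blk (blow (sy S H 0) c0).G Q - dil (fun a : Q => d a.1.1.1) (blk (blow S c0).G Q)).PosDef := by
    convert posDef_blk (pd_blow (S := sy S (H - dil d S.G) 0) hR c0) Q using 1
    ext a b
    simp only [blk, blow, Matrix.sub_apply, dil_apply, submatrix_apply, of_apply]
    split_ifs <;> simp
  obtain ⟨Z, k2⟩ := exists_mix (tri_pc t1 _ R (toR R)) (posDef_dil d1 p1) p2 (f := fun x =>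
    ∏ φ, if rect A φ then g φ (lz S.fc c0 (put Q (R + (fun a : Q => d a.1.1.1) * x) 0) φ) else 1)
    fun z => abs_fac fun φ => ga _ _
  have e1 : ∀ (x : Q → ℤ) φ, lz S.fc c0 (put Q (R + (fun a : Q => d a.1.1.1) * x) 0) φ =
      lz S.fc c0 (put Q R 0) φ + d * lz S.fc c0 (put Q x 0) φ := fun x φ => funext fun k => by
    simp only [lz, Pi.add_apply, Pi.mul_apply, put]
    split_ifs <;> simp [cp]
  obtain ⟨P, hP⟩ : ∃ P : Fc C N → (ι → ℝ) → ι → ℝ, ∀ φ, P φ =
    pcs S d (lz S.fc c0 (put Q R 0) φ) (lz S.fc c0 (put Q Z 0) φ) := ⟨_, fun _ => rfl⟩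
  have tP : ∀ φ, Trs (sy S H (P φ)) := fun φ => hP φ ▸ trs_pcs ht H _ _ _
  obtain ⟨t, k3, k4⟩ := col_t (ν := fun _ _ => 1) (v0 := (0 : ι → ℤ)) (fun _ _ => zero_le_one) A
    (h := fun φ u => nu (sy S H (P φ)) q (sp φ) u * g φ (lz S.fc c0 (put Q R 0) φ + d * uz S.fc u))
    (fun φ u => mul_nonneg (nu_nonneg (S := sy S H _) hH _ _ _) (hg _ _).1)
    (summable_het (S := sy S H 0) hH ho c0 tP fun _ _ => ga _ _) fun t => by
      simp only [sp_col]
      exact summable_het (S := sy S H 0) hH ho c0 (fun φ => tP (col t φ)) fun _ _ => ga _ _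
  refine ⟨t, fun k => put Q R 0 (cp S.fc c0 t k), fun k => put Q Z 0 (cp S.fc c0 t k), k3,
    fun k hk => put_neg _ _ fun m => hk (mem_qk.1 (hQ ▸ m)).1, ?_⟩
  rw [Lt, ← tm_one, ← Lt, lt_het (S := S) h.pd h.orth c0 (fun _ => S.p), ← hQ]
  simp only [ul]
  refine (k1.trans (k2.trans (le_of_eq ?_))).trans (k4.trans (le_of_eq ?_))
  · rw [lt_het (S := sy S H 0) hH ho c0 P, ← hQ]
    simp only [ul, e1]
    congr 1
    funext x a
    have e := (sp_fa a.1).symm.subset
    have e2 := (fa_eq.1 (rfl : fa a.1 = _)).2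
    simp only [pc, pq, het, hP, pcs, Pi.add_apply, ← toR_lz, e1, lz, if_pos e, e2, put_coe, toR_apply]
    congr 4
    funext k
    simp only [toR_apply, Pi.add_apply, Pi.mul_apply]
    push_cast
    rfl
  · conv_rhs => rw [Lt, ← tm_one, ← Lt]
    simp only [sp_col, hP, lz_col, h.nu_fcm]

/-- the same for grid sums of one function -/
theorem hom_gt [Nonempty N] (h : Lk S) (ht : Trs S) (q : Finset ι) {d : ι → ℤ} (hd : ∀ k, d k ≠ 0)
    {H : Matrix ι ι ℝ} (ho : ∀ i j, H i j ≠ 0 → S.fc i = S.fc j) (hR : (H - dil d S.G).PosDef)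
    (A : C → Finset N) (T : Finset C) (o : N) {f : (ι → ℤ) → ℝ} {M : ℝ}
    (hf : ∀ y, 0 ≤ f y ∧ f y ≤ M) :
    ∃ (r : ι → ℤ) (c : ι → ℝ), (∀ k ∉ q, r k = 0) ∧
      gt (nu S q) 0 A T o (fun _ u => f (uz S.fc u)) ≤
        gt (nu (sy S H (pcs S d r c)) q) 0 A T o fun _ u => f (fcm S.fc T r + d * uz S.fc u) := by
  obtain ⟨t, r, c, -, h1, h2⟩ := hom h ht q hd ho hR A (M := max M 1)
    (g := fun φ y => if sp φ = T then f y else 1) fun φ y => by
      split_ifs
      exacts [⟨(hf y).1, (hf y).2.trans (le_max_left _ _)⟩, ⟨zero_le_one, le_max_right _ _⟩]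
  refine ⟨r, c, h1, h2.trans (le_of_eq ?_)⟩
  unfold gt cel
  congr 1
  funext φ u
  rw [sp_col]
  split_ifs with e
  · rw [e]
  · rfl

end

end Vale.Agent.P057RH
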