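import Vale.Agent.P057RH.Inf
import Vale.Agent.P057MA.Blow
import Vale.Agent.P057G.Ms7

/-! Blow-ups of Gaussian systems as systems of variables on the faces of a complex. -/

set_option linter.all false

open Matrix Finset Function
open scoped BigOperators Real Kronecker
open Vale.Agent.P267.H775 Vale.Agent.P057G Vale.Agent.P057MA

namespace Vale.Agent.P057RH

noncomputable section

section blocks

variable {ι β : Type*} [DecidableEq ι] [Fintype ι] [DecidableEq β] {G : Matrix ι ι ℝ} {f : ι → β}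

theorem blocks_fin (hG : G.PosDef) (hf : ∀ i j, G i j ≠ 0 → f i = f j) (q : Finset ι)
    (u : ι → ℝ) (s : Finset β) :
    gs G (msk (q.filter fun i => f i ∈ s) u) / vl G (q.filter fun i => f i ∈ s) =
      ∏ b ∈ s, gs G (msk (q.filter fun i => f i = b) u) / vl G (q.filter fun i => f i = b) := by
  induction s using Finset.induction_on with
  | empty =>
    have e : (q.filter fun i => f i ∈ (∅ : Finset β)) = ∅ := by simp
    have e2 : msk (∅ : Finset ι) u = 0 := funext fun i => msk_neg _ (notMem_empty i)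
    rw [e, e2, gs_zero, vl_empty, prod_empty, div_one]
  | insert b s hb ih =>
    have hr : Sat G (univ.filter fun i => f i = b) := fun i j hi hj => by
      by_contra h
      simp only [mem_filter, mem_univ, true_and] at hi hj
      exact hj ((hf i j h).symm.trans hi)
    have e1 : (q.filter fun i => f i ∈ insert b s) ∩ (univ.filter fun i => f i = b) =
        q.filter fun i => f i = b := by
      ext i; simp only [mem_inter, mem_filter, mem_univ, true_and, mem_insert]; tauto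
    have e2 : (q.filter fun i => f i ∈ insert b s) \ (univ.filter fun i => f i = b) =
        q.filter fun i => f i ∈ s := by
      ext i
      simp only [Finset.mem_sdiff, mem_filter, mem_univ, true_and, mem_insert]
      exact ⟨fun h => ⟨h.1.1, h.1.2.resolve_left h.2⟩,
        fun h => ⟨⟨h.1, Or.inr h.2⟩, fun e => hb (e ▸ h.2)⟩⟩
    rw [gs_msk_split hG.1 hr, vl_split hG hr, e1, e2, prod_insert hb, ← ih, div_mul_div_comm]

theorem blocks [Fintype β] (hG : G.PosDef) (hf : ∀ i j, G i j ≠ 0 → f i = f j) (q : Finset ι)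
    (u : ι → ℝ) : gs G (msk q u) / vl G q =
      ∏ b, gs G (msk (q.filter fun i => f i = b) u) / vl G (q.filter fun i => f i = b) := by
  rw [← blocks_fin hG hf q u univ]
  simp only [mem_univ, filter_true]

end blocks

variable {C N ι : Type} [Fintype C] [DecidableEq C] [Fintype N] [DecidableEq N] [Fintype ι]
  [DecidableEq ι]

/-- a local system: blocks on faces, centres depending on subfaces -/
structure Lk (S : MS C ι) : Prop where
  pd : S.G.PosDef
  orth : ∀ i j, S.G i j ≠ 0 → S.fc i = S.fc j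
  loc : ∀ i z z', (∀ j, S.fc j ⊆ S.fc i → z j = z' j) → S.p z i = S.p z' i

theorem Lk.of_ok {S : MS C ι} (h : S.Ok) : Lk S :=
  ⟨h.pd, fun i j k => (h.orth i j k).1, fun i z z' k => h.loc i z z' fun j hj => k j hj.1⟩

/-- the local configuration of a view -/
def uz {α : Type} (fc : ι → Finset C) (u : Vw C (ι → α)) : ι → α := fun k => u (fc k) k

/-- the view of a local configuration from a face with classes T -/
def ex (fc : ι → Finset C) (T : Finset C) (y : ι → ℤ) : Vw C (ι → ℤ) :=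
  fun T' k => if fc k = T ∩ T' then y k else 0

/-- the indices of q on the face T -/
def qf (fc : ι → Finset C) (q : Finset ι) (T : Finset C) : Finset ι := q.filter fun k => fc k = T

/-- the normalised local weights -/
def nu (S : MS C ι) (q : Finset ι) (T : Finset C) (u : Vw C (ι → ℤ)) : ℝ :=
  if ∀ k ∉ qf S.fc q T, u univ k = 0 then
    gs S.G (msk (qf S.fc q T) (S.ps (uz S.fc u))) / vl S.G (qf S.fc q T) else 0

/-- the face of an index of the blow-up -/
def fa {fc : ι → Finset C} {c0 : N} (a : BI fc c0) : Fc C N :=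
  fun v => if v ∈ fc a.1.1 then some (a.1.2 v) else none

/-- the copies chosen by a face -/
def ch (c0 : N) (φ : Fc C N) : C → N := fun v => (φ v).getD c0

/-- the local configuration seen from a face -/
def lz {α : Type} [Zero α] (fc : ι → Finset C) (c0 : N) (z : BI fc c0 → α) (φ : Fc C N) : ι → α :=
  fun k => if fc k ⊆ sp φ then z (cp fc c0 (ch c0 φ) k) else 0

/-- the configuration on faces -/
def cf (fc : ι → Finset C) (c0 : N) (z : BI fc c0 → ℤ) (φ : Fc C N) : ι → ℤ :=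
  fun k => if fc k = sp φ then z (cp fc c0 (ch c0 φ) k) else 0

open Classical in
/-- the indices of the blow-up over q on the faces of K -/
def qk (fc : ι → Finset C) (c0 : N) (q : Finset ι) (K : Fc C N → Prop) : Finset (BI fc c0) :=
  univ.filter fun a => a.1.1 ∈ q ∧ K (fa a)

variable {fc : ι → Finset C} {c0 : N} {S : MS C ι} {q : Finset ι} {K : Fc C N → Prop}

theorem mem_qk {a : BI fc c0} : a ∈ qk fc c0 q K ↔ a.1.1 ∈ q ∧ K (fa a) := by simp [qk]

theorem mem_qf {T : Finset C} {k : ι} : k ∈ qf fc q T ↔ k ∈ q ∧ fc k = T := mem_filter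

theorem mem_sp' {φ : Fc C N} {v : C} : v ∈ sp φ ↔ φ v ≠ none := by simp [sp]

theorem sp_fa (a : BI fc c0) : sp (fa a) = fc a.1.1 := by
  ext v; rw [mem_sp']; unfold fa; split_ifs with h <;> simp [h]

theorem sp_res' (φ : Fc C N) (T : Finset C) : sp (res φ T) = sp φ ∩ T := by
  ext v; rw [mem_inter, mem_sp', mem_sp']; unfold res; split_ifs with h <;> simp [h]

theorem cp_fa (a : BI fc c0) {k : ι} (hk : fc k ⊆ fc a.1.1) :
    cp fc c0 (ch c0 (fa a)) k = cp fc c0 a.1.2 k :=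
  cp_congr fun v hv => by simp [ch, fa, hk hv]

theorem fa_cp (φ : Fc C N) {k : ι} (hk : fc k ⊆ sp φ) :
    fa (cp fc c0 (ch c0 φ) k) = res φ (fc k) := by
  funext v
  change (if v ∈ fc k then some ((cp fc c0 (ch c0 φ) k).1.2 v) else none) = if v ∈ fc k then _ else _
  split_ifs with h
  · obtain ⟨l, hl⟩ := Option.ne_none_iff_exists'.1 (mem_sp'.1 (hk h))
    rw [cp_snd _ h, ch, hl]; rfl
  · rfl

theorem res_sp' (φ : Fc C N) : res φ (sp φ) = φ := by
  funext v; unfold res; split_ifs with h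
  · rfl
  · exact (not_not.1 (mt mem_sp'.2 h)).symm

theorem fa_eq {a : BI fc c0} {φ : Fc C N} :
    fa a = φ ↔ fc a.1.1 = sp φ ∧ cp fc c0 (ch c0 φ) a.1.1 = a := by
  refine ⟨fun h => h ▸ ⟨(sp_fa a).symm, (cp_fa a subset_rfl).trans (cp_self a)⟩, fun h => ?_⟩
  rw [← h.2, fa_cp φ h.1.subset, h.1, res_sp']

theorem vw_cf (z : BI fc c0 → ℤ) (φ : Fc C N) : vw (cf fc c0 z) φ = ex fc (sp φ) (lz fc c0 z φ) := by
  funext T k
  simp only [vw, cf, ex, lz, sp_res']
  split_ifs with h1 h2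
  · refine congrArg z (cp_congr fun v hv => ?_)
    simp [ch, res, (mem_inter.1 (h1 ▸ hv)).2]
  · exact absurd (h1 ▸ inter_subset_left) h2
  · rfl

theorem uz_ex (T : Finset C) (y : ι → ℤ) (k : ι) :
    uz fc (ex fc T y) k = if fc k ⊆ T then y k else 0 :=
  if_congr ⟨fun h => h ▸ inter_subset_left, fun h => (inter_eq_right.2 h).symm⟩ rfl rfl

theorem uz_vw (z : BI fc c0 → ℤ) (φ : Fc C N) : uz fc (vw (cf fc c0 z) φ) = lz fc c0 z φ := by
  funext k
  rw [vw_cf, uz_ex, lz]
  split_ifs <;> rfl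

theorem cf_fa (z : BI fc c0 → ℤ) (a : BI fc c0) : cf fc c0 z (fa a) a.1.1 = z a := by
  rw [cf, if_pos (sp_fa a).symm, (fa_eq.1 rfl).2]

theorem cf_inj : Injective (cf fc c0) := fun z z' h => funext fun a => by
  rw [← cf_fa z a, h, cf_fa]

theorem nu_nonneg (hS : S.G.PosDef) (q : Finset ι) (T : Finset C) (u : Vw C (ι → ℤ)) :
    0 ≤ nu S q T u := by
  unfold nu; split_ifs
  exacts [div_nonneg (gs_pos _ _).le (vl_pos hS _).le, le_rfl]

theorem Lk.pd_blow (h : Lk S) (c0 : N) : (blow S c0).G.PosDef := by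
  have h1 := (h.pd.kronecker (PosDef.one (n := C → N) (R := ℝ))).submatrix
    (e := fun a : BI S.fc c0 => a.1) Subtype.val_injective
  have h2 : (blow S c0).G = (S.G ⊗ₖ (1 : Matrix (C → N) (C → N) ℝ)).submatrix
      (fun a : BI S.fc c0 => a.1) fun a : BI S.fc c0 => a.1 := by
    ext a b
    simp [blow, one_apply]
  rw [h2]
  exact h1

theorem Lk.orth_blow (h : Lk S) (a b : BI S.fc c0) (hab : (blow S c0).G a b ≠ 0) : fa a = fa b := by
  have h1 : a.1.2 = b.1.2 := by
    by_contra h1; exact hab (if_neg h1)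
  have h2 := h.orth a.1.1 b.1.1 fun h0 => hab (by simp [blow, h0])
  funext v
  simp only [fa, h1, h2]

theorem qk_face (φ : Fc C N) (hφ : K φ) : (qk fc c0 q K).filter (fun a => fa a = φ) =
    (qf fc q (sp φ)).image (cp fc c0 (ch c0 φ)) := by
  ext a
  simp only [mem_filter, mem_qk, mem_image, mem_qf]
  refine ⟨fun h => ⟨a.1.1, ⟨h.1.1, (fa_eq.1 h.2).1⟩, (fa_eq.1 h.2).2⟩, ?_⟩
  rintro ⟨k, ⟨h1, h2⟩, rfl⟩
  have e : fa (cp fc c0 (ch c0 φ) k) = φ := fa_eq.2 ⟨h2, rfl⟩
  exact ⟨⟨h1, e.symm ▸ hφ⟩, e⟩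

theorem Lk.block (h : Lk S) (z : BI S.fc c0 → ℤ) (φ : Fc C N) (hφ : K φ) :
    gs (blow S c0).G (msk ((qk S.fc c0 q K).filter fun a => fa a = φ) ((blow S c0).ps z)) /
      vl (blow S c0).G ((qk S.fc c0 q K).filter fun a => fa a = φ) =
    gs S.G (msk (qf S.fc q (sp φ)) (S.ps (lz S.fc c0 z φ))) / vl S.G (qf S.fc q (sp φ)) := by
  have hG : ∀ i ∈ qf S.fc q (sp φ), ∀ j ∈ qf S.fc q (sp φ),
      (blow S c0).G (cp S.fc c0 (ch c0 φ) i) (cp S.fc c0 (ch c0 φ) j) = S.G i j :=
    fun i hi j hj => if_pos (funext fun v => by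
      simp only [cp, (mem_qf.1 hi).2, (mem_qf.1 hj).2])
  rw [qk_face φ hφ, vl_image (cp_inj _ _ _) hG, gs, qq_msk_image (cp_inj _ _ _) hG, gs]
  congr 5
  refine msk_congr fun k hk => ?_
  have e := (mem_qf.1 hk).2
  simp only [MS.ps, Function.comp, Pi.sub_apply, toR_apply, lz, if_pos e.subset]
  congr 1
  refine h.loc _ _ _ fun j hj => ?_
  simp only [Function.comp, toR_apply, lz, if_pos (hj.trans e.subset)]
  exact congrArg (fun a => (z a : ℝ)) (cp_congr fun v hv => cp_snd _ (hj hv))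

theorem supp_iff (z : BI fc c0 → ℤ) : (∀ a ∉ qk fc c0 q K, z a = 0) ↔
    ∀ φ, (K φ → ∀ k ∉ qf fc q (sp φ), cf fc c0 z φ k = 0) ∧ (¬ K φ → cf fc c0 z φ = 0) := by
  refine ⟨fun h φ => ⟨fun _ k hk => ?_, fun hφ => funext fun k => ?_⟩, fun h a ha => ?_⟩
  · unfold cf; split_ifs with e
    exacts [h _ fun m => hk (mem_qf.2 ⟨(mem_qk.1 m).1, e⟩), rfl]
  · unfold cf; split_ifs with e
    exacts [h _ fun m => hφ ((fa_eq.2 ⟨e, rfl⟩ : fa (cp fc c0 (ch c0 φ) k) = φ) ▸ (mem_qk.1 m).2), rfl]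
  · rw [← cf_fa z a]
    by_cases hK : K (fa a)
    · exact (h _).1 hK _ fun m => ha (mem_qk.2 ⟨(mem_qf.1 m).1, hK⟩)
    · exact congrFun ((h _).2 hK) _

theorem res_univ' (φ : Fc C N) : res φ univ = φ := by funext v; simp [res]

open Classical in
theorem Lk.tm_cf {𝕜 : Type} [RCLike 𝕜] (h : Lk S) (g : Fc C N → Vw C (ι → ℤ) → 𝕜)
    (z : BI S.fc c0 → ℤ) : tm (fun T u => (nu S q T u : 𝕜)) 0 K g (cf S.fc c0 z) =
      (((blow S c0).wt (qk S.fc c0 q K) z / vl (blow S c0).G (qk S.fc c0 q K) : ℝ) : 𝕜) *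
        ∏ φ, if K φ then g φ (ex S.fc (sp φ) (lz S.fc c0 z φ)) else 1 := by
  have hv : ∀ φ : Fc C N, vw (cf S.fc c0 z) φ univ = cf S.fc c0 z φ := fun φ => by
    rw [vw, res_univ']
  by_cases hz : ∀ a ∉ qk S.fc c0 q K, z a = 0
  · rw [MS.wt, if_pos hz, blocks (h.pd_blow c0) h.orth_blow, RCLike.ofReal_prod, ← prod_mul_distrib]
    refine prod_congr rfl fun φ _ => ?_
    have h2 := (supp_iff z).1 hz φ
    by_cases hφ : K φ
    · rw [fam, if_pos hφ, if_pos hφ, h.block z φ hφ, nu, hv, if_pos (h2.1 hφ), uz_vw, vw_cf]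
    · have e : (qk S.fc c0 q K).filter (fun a => fa a = φ) = ∅ :=
        filter_eq_empty_iff.2 fun a ha e => hφ (e ▸ (mem_qk.1 ha).2)
      have e2 : ∀ u, msk (∅ : Finset (BI S.fc c0)) u = 0 := fun u =>
        funext fun i => msk_neg _ (notMem_empty i)
      rw [fam, if_neg hφ, if_neg hφ, dl, hv, if_pos (h2.2 hφ), e, e2, gs_zero, vl_empty]
      simp
  · rw [MS.wt, if_neg hz, zero_div, RCLike.ofReal_zero, zero_mul]
    obtain ⟨φ, hφ⟩ := not_forall.1 (mt (supp_iff z).2 hz)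
    refine prod_eq_zero (mem_univ φ) ?_
    by_cases hK : K φ
    · rw [fam, if_pos hK, nu, hv, if_neg fun m => hφ ⟨fun _ => m, fun n => absurd hK n⟩]
      simp
    · rw [fam, if_neg hK, dl, hv, if_neg fun m => hφ ⟨fun n => absurd n hK, fun _ => m⟩]

theorem tm_range {𝕜 : Type} [RCLike 𝕜] (c0 : N) (g : Fc C N → Vw C (ι → ℤ) → 𝕜)
    (a : Fc C N → ι → ℤ) (ha : tm (fun T u => (nu S q T u : 𝕜)) 0 K g a ≠ 0) :
    a ∈ Set.range (cf S.fc c0) := by
  refine ⟨fun b => a (fa b) b.1.1, funext fun φ => funext fun k => ?_⟩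
  unfold cf
  split_ifs with e
  · beta_reduce
    rw [(fa_eq.2 ⟨e, rfl⟩ : fa (cp S.fc c0 (ch c0 φ) k) = φ)]; rfl
  · have h1 := prod_ne_zero_iff.1 ha φ (mem_univ φ)
    have hv : vw a φ univ = a φ := by rw [vw, res_univ']
    by_contra h0
    by_cases hK : K φ
    · rw [fam, if_pos hK, nu, hv, if_neg fun m => h0 (m k fun n => e (mem_qf.1 n).2).symm] at h1
      simp at h1
    · rw [fam, if_neg hK, dl, hv, if_neg fun m => h0 (congrFun m k).symm] at h1
      exact h1 rfl

open Classical in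
/-- sums over a complex are sums over the blow-up -/
theorem Lk.lt_eq {𝕜 : Type} [RCLike 𝕜] (h : Lk S) (c0 : N) (g : Fc C N → Vw C (ι → ℤ) → 𝕜) :
    Lt (fun T u => (nu S q T u : 𝕜)) 0 K g =
      ∑' z, (((blow S c0).wt (qk S.fc c0 q K) z / vl (blow S c0).G (qk S.fc c0 q K) : ℝ) : 𝕜) *
        ∏ φ, if K φ then g φ (ex S.fc (sp φ) (lz S.fc c0 z φ)) else 1 := by
  rw [Lt, ← cf_inj.tsum_eq fun a ha => tm_range c0 g a ha]
  exact tsum_congr fun z => h.tm_cf g z

theorem Lk.lt_one (h : Lk S) (c0 : N) :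
    Lt (nu S q) 0 K (fun _ _ => 1) = (blow S c0).mass (qk S.fc c0 q K) := by
  have := h.lt_eq (𝕜 := ℝ) (q := q) (K := K) c0 fun _ _ => 1
  simp only [ite_self, prod_const_one, mul_one, RCLike.ofReal_real_eq_id, id] at this
  rw [MS.mass, ← tsum_div_const]
  exact this

theorem Lk.summable (h : Lk S) (c0 : N) (hs : Summable ((blow S c0).wt (qk S.fc c0 q K))) :
    Summable (tm (nu S q) 0 K fun _ _ => 1) := by
  refine (cf_inj.summable_iff fun a ha => ?_).1
    ((hs.div_const (vl (blow S c0).G (qk S.fc c0 q K))).congr fun z => ?_)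
  · by_contra h0
    exact ha (tm_range (𝕜 := ℝ) c0 _ a h0)
  · have := h.tm_cf (𝕜 := ℝ) (q := q) (K := K) (fun _ _ => 1) z
    simp only [ite_self, prod_const_one, mul_one, RCLike.ofReal_real_eq_id, id] at this
    exact this.symm

/-- the linear forms condition from masses of subsystems of the blow-up -/
theorem Lk.lft (h : Lk S) (c0 : N) {δ : ℝ} (hs : ∀ r, Summable ((blow S c0).wt r))
    (hm : ∀ K, DC K → |(blow S c0).mass (qk S.fc c0 q K) - 1| ≤ δ) : LFt N (nu S q) 0 δ :=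
  fun K hK => ⟨h.summable c0 (hs _), by rw [h.lt_one c0]; exact hm K hK⟩

theorem cls_qk (hq : Cls S q) (hK : DC K) : Cls (blow S c0) (qk S.fc c0 q K) := by
  have key : ∀ a b : BI S.fc c0, (blow S c0).fc b ⊆ (blow S c0).fc a → K (fa a) → K (fa b) :=
    fun a b hab ha => by
      obtain ⟨h1, h2⟩ := fc_blow_sub.1 hab
      convert hK _ ha (S.fc b.1.1) using 1
      funext v
      unfold res fa
      split_ifs with e1 e2
      exacts [by rw [h2 v e1], absurd (h1 e1) e2, rfl]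
  refine ⟨fun a b e l ha => mem_qk.2 ⟨?_, key a b e.superset (mem_qk.1 ha).2⟩,
    fun a ha b hb => mem_qk.2 ⟨?_, key a b hb.1 (mem_qk.1 ha).2⟩⟩
  · exact mem_vld.1 ((hq.vld c0).blk a b e l (mem_vld.2 (mem_qk.1 ha).1))
  · exact mem_vld.1 ((hq.vld c0).dep a (mem_vld.2 (mem_qk.1 ha).1) b hb)

/-- smooth centred systems satisfy the linear forms condition -/
theorem lft_of_smo [Nonempty N] (h : S.Ok) (hc : S.Cen) (hq : Cls S q) {n : ℕ} {W η : ℝ}
    (hs : Smo S q n W η) (hn : Fintype.card N ≤ n) (hW : 1 ≤ W) : LFt N (nu S q) 0 η := by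
  obtain ⟨c0⟩ := ‹Nonempty N›
  have hb := ok_blow h c0
  have hb' := cen_blow hc c0
  refine (Lk.of_ok h).lft c0 hb.summable fun K hK => ?_
  have h1 := hb.one_le_mass hb' ((cls_qk hq hK).sat hb)
  have h2 := Cls.mass_mono hb hb' (hq.vld c0) (cls_qk hq hK) fun a ha => mem_vld.2 (mem_qk.1 ha).1
  have h3 := mass_nar_mono hb hb' one_pos hW (vld S.fc c0 q)
  rw [nar_one] at h3
  rw [abs_of_nonneg (by linarith)]
  linarith [hs N c0 hn]

end

end Vale.Agent.P057RH
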