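import Vale.Agent.P057RH.Rec2

/-! The moment of the rotated marginal and the pair bound. -/

set_option linter.all false

open Finset Function
open scoped BigOperators

namespace Vale.Agent.P057RH

noncomputable section

open Classical

variable {C N V : Type} [Fintype C] [DecidableEq C] [Fintype N] [DecidableEq N] [Fintype V]
  [DecidableEq V]

/-- one vertex in every class -/
def one (o : N) : C → Finset N := fun _ => {o}

/-- the marginal of a product of slots -/
def mg (ν : Finset C → Vw C V → ℝ) (v0 : V) (o : N) (z : C) (I : Finset C) (f : C → Vw C V → ℝ)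
    (x : Fm C N z → V) : ℝ := bs z (at' z o (fam ν v0 (rect (one o)) (Pn I f))) x

/-- the face of the slot j without its vertex in the class z -/
def fz (o : N) (z j : C) : Fm C N z :=
  ⟨fun i => if i = z ∨ i = j then none else some o, by simp⟩

theorem fz_iff {o : N} {z j : C} (hj : j ≠ z) (ψ : Fm C N z) :
    (rect (one o) ψ.1 ∧ insert z (sp ψ.1) = univ.erase j) ↔ ψ = fz o z j := by
  constructor
  · rintro ⟨h1, h2⟩
    refine Subtype.ext (funext fun i => ?_)
    have h3 : i ∈ insert z (sp ψ.1) ↔ i ≠ j := by rw [h2]; simp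
    rw [mem_insert, mem_sp] at h3
    simp only [fz]
    split_ifs with k
    · rcases k with rfl | rfl
      · exact ψ.2
      · by_contra k
        exact h3.1 (Or.inr k) rfl
    · rw [not_or] at k
      obtain ⟨l, hl⟩ := Option.ne_none_iff_exists'.1 ((h3.2 k.2).resolve_left k.1)
      simpa [hl, one] using h1 i l hl
  · rintro rfl
    refine ⟨fun i l e => ?_, ?_⟩
    · simp only [fz] at e
      split_ifs at e
      cases e
      simp [one]
    · ext i
      by_cases k : i = z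
      · simp [k, hj.symm]
      · simp [mem_sp, fz, k]

theorem bs_cell {R : Type} [CommSemiring R] (ν : Finset C → Vw C V → R) (v0 : V) (o : N) (z : C)
    (I : Finset C) (hI : z ∉ I) (g : C → Vw C V → R) (x : Fm C N z → V) :
    bs z (at' z o (fam ν v0 (rect (one o))
      fun φ u => ∏ j ∈ I, if sp φ = univ.erase j then g j u else 1)) x =
    ∑ β, (∏ ψ, at' z o (fam ν v0 (rect (one o)) fun _ _ => 1) ψ (vb x β ψ)) *
      ∏ j ∈ I, g j (vb x β (fz o z j)) := by
  refine sum_congr rfl fun β _ => ?_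
  have e : ∀ j ∈ I, g j (vb x β (fz o z j)) =
      ∏ ψ : Fm C N z, if ψ = fz o z j then g j (vb x β ψ) else 1 := fun j _ => by simp
  rw [prod_congr rfl e, prod_comm, ← prod_mul_distrib]
  refine prod_congr rfl fun ψ _ => ?_
  simp only [at', fam, rect_upd, sp_upd, one, mem_singleton, true_and, mul_one]
  split_ifs with k
  · congr 1
    refine prod_congr rfl fun j hj => ?_
    simp only [← fz_iff (show j ≠ z from fun e => hI (e ▸ hj)) ψ, show rect (one o) ψ.1 from k,
      true_and]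
  · rw [prod_eq_one fun j hj => if_neg fun e =>
      k ((fz_iff (show j ≠ z from fun e => hI (e ▸ hj)) ψ).2 e).1, mul_one]

variable {ν : Finset C → Vw C V → ℝ} {v0 : V} {δ : ℝ}

theorem core {Nq : Finset N} {o : N} {K κ μ τ : ℝ} (H : Rh ν v0 δ Nq o K κ μ τ) {a b z : C}
    (haz : a ≠ z) (hbz : b ≠ z) {f : C → Vw C V → ℝ} {Pl : Finset C} (hz : z ∉ Pl)
    (hR : REC ν v0 Nq o κ μ τ a b f Pl) :
    ∑ x, wt ν v0 (rect (one o)) z x *
      ‖bs z (at' z o (fam (cx ν) v0 (rect (one o)) (Hr τ a b Pl f fun _ => true))) x‖ ^ Nq.card ≤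
      3 * 2 ^ Pl.card * (Nq.card + 1) * μ ^ (Pl.card * Nq.card) * (1 + τ ^ 2 * κ ^ 2) ^ Nq.card := by
  obtain ⟨n, hn⟩ := H.ev
  have hcard : Fintype.card (Nq.powersetCard n) = Nq.card.choose n := by
    rw [Fintype.card_coe, card_powersetCard]
  haveI : Nonempty (Nq.powersetCard n) :=
    Fintype.card_pos_iff.1 (by rw [hcard]; exact Nat.choose_pos (by omega))
  have hc : ∀ S ∈ Nq.powersetCard n, Nq \ S ∈ Nq.powersetCard n := fun S k => by
    rw [mem_powersetCard] at k ⊢
    exact ⟨sdiff_subset, by rw [card_sdiff_of_subset k.1]; omega⟩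
  let ng : Nq.powersetCard n ≃ Nq.powersetCard n :=
    ⟨fun S => ⟨Nq \ S.1, hc _ S.2⟩, fun S => ⟨Nq \ S.1, hc _ S.2⟩,
      fun S => Subtype.ext (Finset.sdiff_sdiff_eq_self (mem_powersetCard.1 S.2).1),
      fun S => Subtype.ext (Finset.sdiff_sdiff_eq_self (mem_powersetCard.1 S.2).1)⟩
  obtain ⟨pr, hpr⟩ : ∃ pr : Fc C N → N, ∀ φ, pr φ =
    if (φ z).getD o ∈ Nq then (φ z).getD o else o := ⟨_, fun _ => rfl⟩
  have pr0 : ∀ φ, pr φ ∈ Nq := fun φ => by rw [hpr]; split_ifs with k; exacts [k, H.ho]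
  have pr1 : ∀ (φ : Fc C N) l, l ∈ Nq → pr (update φ z (some l)) = l := fun φ l k => by
    simp [hpr, k]
  have c1 : ∀ j, j ≠ z → (fs (update (one o) z Nq) j).card ≤ Nq.card := fun j hj =>
    (card_fs_up hj.symm (o := o) rfl Nq).trans (by
      have := card_fs_le (Nq := {o}) (mem_singleton_self o) (A := one o) (fun _ => subset_rfl) j
      rw [card_singleton, one_pow] at this
      exact (Nat.mul_le_mul_left _ this).trans_eq (mul_one _))
  have dm : ∀ j, j ≠ z → Dom (Nq.card + 1) (fs (update (one o) z Nq) j)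
      (fun (S : Nq.powersetCard n) φ => decide (pr φ ∈ S.1)) := fun j hj e => by
    have h1 : (univ.filter fun S : Nq.powersetCard n => ∀ φ ∈ fs (update (one o) z Nq) j,
        decide (pr φ ∈ S.1) = e φ).card ≤ 1 := by
      refine card_le_one.2 fun S hS S' hS' => Subtype.ext (ext fun l => ?_)
      by_cases k : l ∈ Nq
      · have m0 := (fz_iff (o := o) hj (fz o z j)).2 rfl
        have m : update (fz o z j).1 z (some l) ∈ fs (update (one o) z Nq) j := by
          rw [mem_fs, rect_upd, sp_upd, update_self, rect_fm (A' := one o) fun i hi => by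
            rw [update_of_ne hi]]
          exact ⟨⟨k, m0.1⟩, m0.2⟩
        have := ((mem_filter.1 hS).2 _ m).trans ((mem_filter.1 hS').2 _ m).symm
        simpa [pr1 _ l k] using this
      · exact iff_of_false (fun k' => k ((mem_powersetCard.1 S.2).1 k'))
          fun k' => k ((mem_powersetCard.1 S'.2).1 k')
    have h3 : 2 ^ Nq.card ≤ (Nq.card + 1) * Nq.card.choose n := by
      rw [hn, ← two_mul, pow_mul]
      exact Nat.four_pow_le_two_mul_add_one_mul_central_binom n
    have h4 : ((2 : ℝ)) ^ Nq.card ≤ (Nq.card + 1) * Nq.card.choose n := by exact_mod_cast h3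
    rw [hcard]
    refine le_trans ?_ h4
    rw [← one_mul ((2 : ℝ) ^ Nq.card)]
    exact mul_le_mul (by exact_mod_cast h1) (pow_le_pow_right₀ (by norm_num) (c1 j hj))
      (by positivity) (by norm_num)
  have ne : ∀ j ∈ Pl, j ≠ z := fun j hj e => hz (e ▸ hj)
  have key := hR (update (one o) z Nq) Nq.card (Nq.card + 1) (Nq.powersetCard n)
    (fun S φ => decide (pr φ ∈ S.1)) ng
    (fun j => by
      by_cases c : j = z
      · subst c; rw [update_self]; exact ⟨⟨o, H.ho⟩, subset_rfl⟩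
      · rw [update_of_ne c]; exact ⟨by simp [one], by simp [one, H.ho]⟩)
    (update_of_ne haz _ _) (update_of_ne hbz _ _) (fun j hj => update_of_ne (ne j hj) _ _)
    (c1 a haz) (c1 b hbz) (fun j hj => c1 j (ne j hj)) (by simp)
    (fun S φ => by
      show decide (pr φ ∈ Nq \ S.1) = !decide (pr φ ∈ S.1)
      simp [pr0]) (dm a haz) (dm b hbz)
  refine le_trans (le_of_eq ?_) key
  have rf := rect_fm (A := update (one o) z Nq) (A' := one o) (i := z) fun j hj => by
    rw [update_of_ne hj]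
  have e : ∀ S : Nq.powersetCard n, La (cx ν) v0 (rect (update (one o) z Nq))
      (Hr τ a b Pl f fun φ => decide (pr φ ∈ S.1)) = ((∑ x, wt ν v0 (rect (one o)) z x *
      ‖bs z (at' z o (fam (cx ν) v0 (rect (one o)) (Hr τ a b Pl f fun _ => true))) x‖ ^ Nq.card :
        ℝ) : ℂ) := fun S => by
    rw [la_fac_on _ _ _ (i := z) Nq fun φ l k k' => by simpa using k z l k', Complex.ofReal_sum]
    refine sum_congr rfl fun x _ => ?_
    rw [Complex.ofReal_mul, wt_cast]
    congr 1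
    · refine fr_congr _ _ rf (fun ψ k => funext fun u => ?_) x
      simp only [Hr, Rt, Pn, erase_ne haz.symm ψ.2, erase_ne hbz.symm ψ.2, if_false, one_mul]
      rw [prod_eq_one fun j hj => if_neg (erase_ne (ne j hj).symm ψ.2), Complex.ofReal_one]
    generalize hD : bs z (at' z o (fam (cx ν) v0 (rect (one o)) (Hr τ a b Pl f fun _ => true))) x = D
    have hD' : bs z (at' z o (fam (cx ν) v0 (rect (one o)) (Hr τ a b Pl f fun _ => false))) x =
        (starRingEnd ℂ) D := by
      rw [← hD, conj_bs]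
      congr 1
      funext ψ u
      simp only [at', fam, Hr, Rt, dl]
      split_ifs <;> simp [conj_rot]
    have e1 : ∀ l ∈ Nq, bs z (at' z l (fam (cx ν) v0 (rect (update (one o) z Nq))
        (Hr τ a b Pl f fun φ => decide (pr φ ∈ S.1)))) x =
        if l ∈ S.1 then D else (starRingEnd ℂ) D := fun l hl => by
      split_ifs with k
      · rw [← hD]
        refine bs_congr _ _ (fun ψ => by simp [rect_upd, rf, hl, one])
          (fun ψ _ => funext fun u => ?_) x
        simp [Hr, Rt, Pn, sp_upd, pr1 _ l hl, k]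
      · rw [← hD']
        refine bs_congr _ _ (fun ψ => by simp [rect_upd, rf, hl, one])
          (fun ψ _ => funext fun u => ?_) x
        simp [Hr, Rt, Pn, sp_upd, pr1 _ l hl, k]
    have s1 := mem_powersetCard.1 S.2
    rw [prod_congr rfl e1, prod_ite, prod_const, prod_const, filter_mem_eq_inter,
      inter_eq_right.2 s1.1, ← sdiff_eq_filter, (mem_powersetCard.1 (hc _ S.2)).2, s1.2, ← mul_pow,
      Complex.mul_conj, Complex.normSq_eq_norm_sq, ← Complex.ofReal_pow, ← pow_mul, hn, two_mul]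
  simp only [e, Fintype.expect_const]
  rw [Complex.norm_real, Real.norm_of_nonneg (sum_nonneg fun x _ =>
    mul_nonneg (wt_nonneg H.hν _ z x) (by positivity))]

theorem pair_sq {Ω : Type} [Fintype Ω] (W A B P : Ω → ℝ) :
    ‖∑ w, (W w : ℂ) * (rot (√(1 / 2)) true (A w) * (rot (√(1 / 2)) true (B w) * ((P w : ℝ) : ℂ)))‖ ^ 2 =
      ((∑ w, W w * P w) - (∑ w, W w * (A w * (B w * P w))) / 2) ^ 2 +
        ((∑ w, W w * (A w * P w)) + ∑ w, W w * (B w * P w)) ^ 2 / 2 := by
  have h : (√(1 / 2) : ℝ) ^ 2 = 1 / 2 := Real.sq_sqrt (by norm_num)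
  generalize (√(1 / 2) : ℝ) = τ at h
  have h1 : ∀ w, ((W w : ℂ) * (rot τ true (A w) * (rot τ true (B w) * ((P w : ℝ) : ℂ)))).re =
      W w * P w - W w * (A w * (B w * P w)) / 2 := by
    intro w
    simp [rot, sb]
    linear_combination (-(W w * A w * B w * P w)) * h
  have h2 : ∀ w, ((W w : ℂ) * (rot τ true (A w) * (rot τ true (B w) * ((P w : ℝ) : ℂ)))).im =
      τ * (W w * (A w * P w) + W w * (B w * P w)) := by
    intro w
    simp [rot, sb]
    ring
  rw [Complex.sq_norm, Complex.normSq_apply, Complex.re_sum, Complex.im_sum]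
  simp only [h1, h2, sum_sub_distrib, ← sum_div, ← mul_sum, sum_add_distrib]
  linear_combination ((∑ w, W w * (A w * P w)) + ∑ w, W w * (B w * P w)) ^ 2 * h

theorem pair {Nq : Finset N} {o : N} {K κ μ : ℝ} (H : Rh ν v0 δ Nq o K κ μ (√(1 / 2))) {z : C}
    {f : C → Vw C V → ℝ} (hf : ∀ i u, 0 ≤ f i u ∧ f i u ≤ K)
    (hS : ∀ i, i ≠ z → SG ν v0 Nq i (f i) κ) {I : Finset C} (hz : z ∉ I) {a b : C} (ha : a ∈ I)
    (hb : b ∈ I) (hab : a ≠ b) {η t : ℝ} (hη : 0 ≤ η) (hη1 : η ≤ 1 / 4) (ht : 0 ≤ t) (ht1 : t ≤ 1) :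
    (∑ x with 1 - η ≤ mg ν v0 o z ((I.erase a).erase b) f x ∧ 1 - η ≤ mg ν v0 o z (I.erase a) f x ∧
        1 - η ≤ mg ν v0 o z (I.erase b) f x ∧ mg ν v0 o z I f x ≤ 1 - t,
        wt ν v0 (rect (one o)) z x) * (9 / 4 + t / 2 - 6 * η) ^ (Nq.card / 2) ≤
      3 * 2 ^ Fintype.card C * (Nq.card + 1) * μ ^ (Fintype.card C * Nq.card) *
        (1 + κ ^ 2 / 2) ^ Nq.card := by
  obtain ⟨Pl, hPl⟩ : ∃ Pl, Pl = (I.erase a).erase b := ⟨_, rfl⟩
  have nz : ∀ j ∈ I, j ≠ z := fun j hj e => hz (e ▸ hj)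
  have mP : ∀ j, j ∈ Pl ↔ j ≠ b ∧ j ≠ a ∧ j ∈ I := fun j => by simp [hPl]
  have zP : z ∉ Pl := fun k => hz ((mP z).1 k).2.2
  have k1 := core H (nz a ha) (nz b hb) zP (rec_all H hab hf (hS a (nz a ha)) (hS b (nz b hb)) Pl
    fun j hj => ⟨((mP j).1 hj).2.1, ((mP j).1 hj).1, hS j (nz j ((mP j).1 hj).2.2)⟩)
  have μ1 : 1 ≤ μ := by
    by_contra k
    have := pow_lt_one₀ H.hμ (not_le.1 k) (card_ne_zero.2 ⟨o, H.ho⟩)
    nlinarith [H.hq, one_le_pow₀ (n := Nq.card) H.hκ, H.hK]
  rw [Real.sq_sqrt (by norm_num)] at k1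
  refine le_trans ?_ (k1.trans ?_)
  swap
  · have := card_le_univ Pl
    rw [show (1 : ℝ) / 2 * κ ^ 2 = κ ^ 2 / 2 by ring]
    gcongr
    norm_num
  rw [sum_mul]
  refine (sum_le_sum fun x hx => ?_).trans (sum_le_sum_of_subset_of_nonneg (filter_subset _ _)
    fun x _ _ => mul_nonneg (wt_nonneg H.hν _ z x) (by positivity))
  refine mul_le_mul_of_nonneg_left ?_ (wt_nonneg H.hν _ z x)
  obtain ⟨-, p1, p2, p3, p4⟩ := mem_filter.1 hx
  obtain ⟨n, hn⟩ := H.ev
  rw [hn, ← two_mul, Nat.mul_div_cancel_left _ two_pos, pow_mul]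
  refine pow_le_pow_left₀ (by linarith) ?_ n
  have aP : a ∉ insert b Pl := by simp [mP, hab]
  have bP : b ∉ Pl := by simp [mP]
  have aP' : a ∉ Pl := by simp [mP]
  have i1 : I = insert a (insert b Pl) := by
    rw [hPl, insert_erase (mem_erase.2 ⟨hab.symm, hb⟩), insert_erase ha]
  have i2 : I.erase a = insert b Pl := by rw [hPl, insert_erase (mem_erase.2 ⟨hab.symm, hb⟩)]
  have i3 : I.erase b = insert a Pl := by
    rw [hPl, erase_right_comm, insert_erase (mem_erase.2 ⟨hab, ha⟩)]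
  have e : (Hr (√(1 / 2)) a b Pl f fun _ => true : Fc C N → Vw C V → ℂ) = fun φ u =>
      ∏ j ∈ I, if sp φ = univ.erase j then
        (if j = a ∨ j = b then rot (√(1 / 2)) true (f j u) else (f j u : ℂ)) else 1 := by
    funext φ u
    rw [i1, prod_insert aP, prod_insert bP, Hr, mul_assoc, Pn, Complex.ofReal_prod]
    simp only [Rt, true_or, or_true, if_true]
    congr 2
    refine prod_congr rfl fun j hj => ?_
    have := (mP j).1 hj
    rw [if_neg (show ¬ (j = a ∨ j = b) by tauto)]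
    split_ifs <;> rfl
  rw [← hPl] at p1
  rw [i2] at p2
  rw [i3] at p3
  have hzI := hz
  rw [i1] at p4 hzI
  unfold mg Pn at p1 p2 p3 p4
  rw [bs_cell _ _ _ _ _ zP] at p1
  rw [bs_cell _ _ _ _ _ (fun k => hzI (mem_insert_of_mem k))] at p2
  rw [bs_cell _ _ _ _ _ (by simp [zP, (nz a ha).symm])] at p3
  rw [bs_cell _ _ _ _ _ hzI] at p4
  simp only [prod_insert aP, prod_insert bP, prod_insert aP'] at p2 p3 p4
  rw [e, bs_cell _ _ _ _ _ hz, i1]
  simp only [prod_insert aP, prod_insert bP, true_or, or_true, if_true]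
  have e2 : ∀ β, ∏ j ∈ Pl, (if j = a ∨ j = b then rot (√(1 / 2)) true (f j (vb x β (fz o z j)))
      else (f j (vb x β (fz o z j)) : ℂ)) = ((∏ j ∈ Pl, f j (vb x β (fz o z j)) : ℝ) : ℂ) :=
    fun β => by
      rw [Complex.ofReal_prod]
      exact prod_congr rfl fun j hj => if_neg (by have := (mP j).1 hj; tauto)
  have e3 : ∀ β, ∏ ψ, at' z o (fam (cx ν) v0 (rect (one o)) fun _ _ => 1) ψ (vb x β ψ) =
      ((∏ ψ, at' z o (fam ν v0 (rect (one o)) fun _ _ => 1) ψ (vb x β ψ) : ℝ) : ℂ) := fun β => by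
    simp only [Complex.ofReal_prod, at', fam_cast, Complex.ofReal_one]
  simp only [e2, e3]
  rw [pair_sq]
  generalize (∑ β, _ * ∏ j ∈ Pl, f j (vb x β (fz o z j))) = m0 at p1 ⊢
  generalize (∑ β, _ * (f a _ * (f b _ * ∏ j ∈ Pl, f j (vb x β (fz o z j))))) = m3 at p4 ⊢
  generalize (∑ β, _ * (f a _ * ∏ j ∈ Pl, f j (vb x β (fz o z j)))) = m2 at p3 ⊢
  generalize (∑ β, _ * (f b _ * ∏ j ∈ Pl, f j (vb x β (fz o z j)))) = m1 at p2 ⊢
  have q1 : (1 / 2 + t / 2 - η) ^ 2 ≤ (m0 - m3 / 2) ^ 2 :=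
    pow_le_pow_left₀ (by linarith) (by linarith) _
  have q2 : (2 - 2 * η) ^ 2 ≤ (m2 + m1) ^ 2 := pow_le_pow_left₀ (by linarith) (by linarith) _
  nlinarith [mul_le_mul_of_nonneg_left ht1 hη, sq_nonneg t, sq_nonneg η]

end

end Vale.Agent.P057RH
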