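import Vale.Agent.P057RH.Gh

/-! Removing the faces above a set of classes against bounded factors. -/

set_option linter.all false

open Finset Function
open scoped BigOperators

namespace Vale.Agent.P057RH

noncomputable section

open Classical

variable {C N V : Type} [Fintype C] [DecidableEq C] [Fintype N] [DecidableEq N] [Fintype V]
  [DecidableEq V]

/-- complex version of the weights -/
abbrev cx (ν : Finset C → Vw C V → ℝ) : Finset C → Vw C V → ℂ := fun S u => (ν S u : ℂ)

theorem bs_absent {R : Type} [CommSemiring R] (ν : Finset C → Vw C V → R) (v0 : V)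
    {K : Fc C N → Prop} (h : Fc C N → Vw C V → R) {i : C} {l : N}
    (hl : ∀ ψ : Fm C N i, ¬ K (update ψ.1 i (some l))) (x : Fm C N i → V) :
    bs i (at' i l (fam ν v0 K h)) x = 1 := by
  rw [← bs_dl (R := R) i v0 x]
  congr 1
  funext ψ u
  simp only [at', fam, hl ψ, if_false]

theorem la_fac_on {R : Type} [CommSemiring R] (ν : Finset C → Vw C V → R) (v0 : V)
    {K : Fc C N → Prop} (h : Fc C N → Vw C V → R) {i : C} (s : Finset N)
    (hs : ∀ φ l, K φ → φ i = some l → l ∈ s) :
    La ν v0 K h = ∑ x, fr i (fam ν v0 K h) x * ∏ l ∈ s, bs i (at' i l (fam ν v0 K h)) x := by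
  rw [La, lam_fac i]
  refine sum_congr rfl fun x _ => ?_
  rw [← prod_subset (subset_univ s) fun l _ hl =>
    bs_absent ν v0 h (fun ψ k => hl (hs _ l k (by simp))) x]

theorem norm_fr_le {ν : Finset C → Vw C V → ℝ} (hν : ∀ S u, 0 ≤ ν S u) (v0 : V)
    (K : Fc C N → Prop) {h : Fc C N → Vw C V → ℂ} (hh : ∀ φ u, ‖h φ u‖ ≤ 1) (i : C)
    (x : Fm C N i → V) : ‖fr i (fam (cx ν) v0 K h) x‖ ≤ wt ν v0 K i x := by
  rw [fr, norm_prod]
  refine prod_le_prod (fun _ _ => norm_nonneg _) fun ψ _ => ?_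
  unfold fam dl
  split_ifs
  · rw [norm_mul, Complex.norm_real, Real.norm_of_nonneg (hν _ _)]
    exact mul_le_mul_of_nonneg_left (hh _ _) (hν _ _)
  · simp
  · simp

theorem conj_bs (i : C) (Q : Fm C N i → Vw C V → ℂ) (x : Fm C N i → V) :
    (starRingEnd ℂ) (bs i Q x) = bs i (fun ψ u => (starRingEnd ℂ) (Q ψ u)) x := by
  simp [bs]

theorem wt_cast (ν : Finset C → Vw C V → ℝ) (v0 : V) (K : Fc C N → Prop) (i : C)
    (x : Fm C N i → V) : ((wt ν v0 K i x : ℝ) : ℂ) = wt (cx ν) v0 K i x := by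
  simp only [wt, fr_cast, fam_cast, Complex.ofReal_one]

theorem sp_upd' {φ : Fc C N} {i : C} (h : φ i ≠ none) (l : N) : sp (update φ i (some l)) = sp φ := by
  ext j
  by_cases k : j = i
  · subst k; simp [sp, h]
  · simp [sp, update_of_ne k]

/-- the doubled complex -/
def K2 (i : C) (o o' : N) (K K' : Fc C N → Prop) (φ : Fc C N) : Prop :=
  K φ ∨ (φ i = some o' ∧ K' (update φ i (some o)))

/-- the doubled factors -/
def h2 (i : C) (o o' : N) (h : Fc C N → Vw C V → ℂ) (φ : Fc C N) (u : Vw C V) : ℂ :=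
  if φ i = none then 1 else if φ i = some o' then (starRingEnd ℂ) (h (update φ i (some o)) u)
    else h φ u

theorem dc_K2 {i : C} {o o' : N} {K K' : Fc C N → Prop} (hK : DC K) (hK' : DC K')
    (h : ∀ φ, φ i = none → K' φ → K φ) : DC (K2 i o o' K K') := by
  rintro φ (k | ⟨k1, k2⟩) T
  · exact Or.inl (hK φ k T)
  · have k3 := hK' _ k2 T
    by_cases e : i ∈ T
    · refine Or.inr ⟨by simp [res, e, k1], ?_⟩
      convert k3 using 1
      funext j
      by_cases k : j = i
      · subst k; simp [res, e]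
      · simp [res, update_of_ne k]
    · refine Or.inl (h _ (by simp [res, e]) ?_)
      convert k3 using 1
      funext j
      by_cases k : j = i
      · subst k; simp [res, e]
      · simp [res, update_of_ne k]

theorem la_double (ν : Finset C → Vw C V → ℝ) (v0 : V) {i : C} {o o' : N} (hoo : o ≠ o')
    {K K' : Fc C N → Prop} (h : Fc C N → Vw C V → ℂ)
    (hK : ∀ φ l, K φ → φ i = some l → l = o) :
    La (cx ν) v0 (K2 i o o' K K') (h2 i o o' h) = ∑ x, ((wt ν v0 K i x : ℝ) : ℂ) *
      (bs i (at' i o (fam (cx ν) v0 K h)) x *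
        (starRingEnd ℂ) (bs i (at' i o (fam (cx ν) v0 K' h)) x)) := by
  rw [la_fac_on _ _ _ (i := i) {o, o'}]
  · refine sum_congr rfl fun x _ => ?_
    rw [prod_pair hoo, wt_cast, conj_bs]
    congr 1
    · refine prod_congr rfl fun ψ _ => ?_
      simp [fam, K2, h2, ψ.2]
    · congr 2
      · funext ψ u
        simp [at', fam, K2, h2, hoo]
      · funext ψ u
        have : ¬ K (update ψ.1 i (some o')) := fun k => hoo (hK _ o' k (by simp)).symm
        simp only [at', fam, K2, h2, this, false_or, update_self, true_and, update_idem, if_true,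
          sp_upd, reduceCtorEq, if_false]
        split_ifs
        · simp
        · unfold dl; split_ifs <;> simp
  · rintro φ l (k | ⟨k, -⟩) e
    · simp [hK φ l k e]
    · rw [e] at k; cases k; simp

variable {ν : Finset C → Vw C V → ℝ} {v0 : V} {δ : ℝ}

theorem cut_ind (hν : ∀ S u, 0 ≤ ν S u) (hL : LFC N ν v0 δ) {o o' : N} (hoo : o ≠ o')
    (T P : Finset C) : P ⊆ T → ∀ (E : Type) [Fintype E] (c : E → ℝ) (s : ℝ)
      (K : E → Fc C N → Prop) (h : Fc C N → Vw C V → ℂ), ∑ e, c e = 0 → ∑ e, |c e| ≤ s →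
      (∀ e, DC (K e)) → (∀ e e' φ, ¬ T ⊆ sp φ → K e φ → K e' φ) →
      (∀ e φ l, ∀ i ∈ P, K e φ → φ i = some l → l = o) → (∀ φ u, ‖h φ u‖ ≤ 1) →
      (∀ φ u, T ⊆ sp φ ∨ ¬ T \ P ⊆ sp φ → h φ u = 1) →
      ‖∑ e, (c e : ℂ) * La (cx ν) v0 (K e) h‖ ^ (2 ^ P.card) ≤ ((1 + δ) * s) ^ (2 ^ P.card) * δ := by
  have d0 := hL.nonneg
  induction P using Finset.induction_on with
  | empty =>
    intro _ E _ c s K h c0 cs hK _ _ _ h1
    have e1 : h = fun _ _ => ((1 : ℝ) : ℂ) := by
      funext φ u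
      exact h1 φ u (by rw [sdiff_empty]; exact Classical.em _)
    have s0 : 0 ≤ s := (sum_nonneg fun _ _ => abs_nonneg _).trans cs
    simp only [e1, ← la_cast, card_empty, pow_zero, pow_one, ← Complex.ofReal_mul,
      ← Complex.ofReal_sum, Complex.norm_real, Real.norm_eq_abs]
    have e2 : ∑ e, c e * La ν v0 (K e) (fun _ _ => 1) =
        ∑ e, c e * (La ν v0 (K e) (fun _ _ => 1) - 1) := by
      simp only [mul_sub, sum_sub_distrib, mul_one, c0, sub_zero]
    rw [e2]
    refine (abs_sum_le_sum_abs _ _).trans ((sum_le_sum (g := fun e => |c e| * δ) fun e _ => ?_).trans ?_)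
    · rw [abs_mul]
      exact mul_le_mul_of_nonneg_left (hL _ (hK e)) (abs_nonneg _)
    · rw [← sum_mul]
      exact mul_le_mul_of_nonneg_right (by nlinarith) d0
  | insert i P hi ih =>
    intro hP E _ c s K h c0 cs hK hT ho hh h1
    have s0 : 0 ≤ s := (sum_nonneg fun _ _ => abs_nonneg _).trans cs
    have hiT : i ∈ T := hP (mem_insert_self _ _)
    rcases isEmpty_or_nonempty E with hE | ⟨⟨e0⟩⟩
    · simp only [univ_eq_empty, sum_empty, norm_zero]
      rw [zero_pow (by positivity)]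
      positivity
    have av : ∀ e e' φ, φ i = none → K e φ → K e' φ := fun e e' φ k =>
      hT e e' φ fun k' => (mem_sp.1 (k' hiT)) k
    have oi : ∀ e φ l, K e φ → φ i = some l → l = o := fun e φ l =>
      ho e φ l i (mem_insert_self _ _)
    have main := ih ((subset_insert _ _).trans hP) (E × E) (fun p => c p.1 * c p.2) (s ^ 2)
      (fun p => K2 i o o' (K p.1) (K p.2)) (h2 i o o' h)
      (by rw [Fintype.sum_prod_type, ← sum_mul_sum, c0, zero_mul])
      (by
        simp only [abs_mul, Fintype.sum_prod_type]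
        rw [← sum_mul_sum, sq]
        exact mul_le_mul cs cs (sum_nonneg fun _ _ => abs_nonneg _) s0)
      (fun p => dc_K2 (hK _) (hK _) (av _ _))
      (by
        rintro p p' φ k (k1 | ⟨k1, k2⟩)
        · exact Or.inl (hT _ _ φ k k1)
        · exact Or.inr ⟨k1, hT _ _ _ (by rwa [sp_upd' (by simp [k1])]) k2⟩)
      (by
        rintro p φ l j hj (k1 | ⟨k1, k2⟩) e
        · exact ho _ φ l j (mem_insert_of_mem hj) k1 e
        · exact ho _ _ l j (mem_insert_of_mem hj) k2
            (by rwa [update_of_ne (by rintro rfl; exact hi hj)]))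
      (fun φ u => by
        unfold h2
        split_ifs
        · simp
        · rw [Complex.norm_conj]; exact hh _ _
        · exact hh _ _)
      (fun φ u k => by
        unfold h2
        split_ifs with k1 k2
        · rfl
        · rw [h1, map_one]
          rw [sp_upd' k1]
          refine k.imp id fun k3 k4 => k3 fun j hj => ?_
          by_cases e : j = i
          · subst e; exact mem_sp.2 k1
          · exact k4 (by simp at hj ⊢; exact ⟨hj.1, e, hj.2⟩)
        · refine h1 φ u (k.imp id fun k3 k4 => k3 fun j hj => ?_)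
          by_cases e : j = i
          · subst e; exact mem_sp.2 k1
          · exact k4 (by simp at hj ⊢; exact ⟨hj.1, e, hj.2⟩))
    obtain ⟨B, hB⟩ : ∃ B : E → (Fm C N i → V) → ℂ, ∀ e x,
      B e x = bs i (at' i o (fam (cx ν) v0 (K e) h)) x := ⟨_, fun _ _ => rfl⟩
    have e1 : ∑ e, (c e : ℂ) * La (cx ν) v0 (K e) h =
        ∑ x, fr i (fam (cx ν) v0 (K e0) h) x * ∑ e, (c e : ℂ) * B e x := by
      simp only [mul_sum]
      rw [sum_comm]
      refine sum_congr rfl fun e _ => ?_
      rw [la_fac_on _ _ _ (i := i) {o} fun φ l k k' => by simp [oi e φ l k k'], mul_sum]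
      refine sum_congr rfl fun x _ => ?_
      rw [prod_singleton, ← hB, mul_left_comm]
      congr 1
      refine prod_congr rfl fun ψ _ => ?_
      simp only [fam, show K e ψ.1 ↔ K e0 ψ.1 from ⟨av _ _ _ ψ.2, av _ _ _ ψ.2⟩]
    have e2 : ((∑ x, wt ν v0 (K e0) i x * ‖∑ e, (c e : ℂ) * B e x‖ ^ 2 : ℝ) : ℂ) =
        ∑ p : E × E, ((c p.1 * c p.2 : ℝ) : ℂ) *
          La (cx ν) v0 (K2 i o o' (K p.1) (K p.2)) (h2 i o o' h) := by
      simp only [fun p : E × E => la_double ν v0 hoo (K' := K p.2) h (oi p.1), mul_sum, ← hB]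
      rw [sum_comm, Complex.ofReal_sum]
      refine sum_congr rfl fun x _ => ?_
      rw [Complex.ofReal_mul, ← Complex.normSq_eq_norm_sq, ← Complex.mul_conj, map_sum, sum_mul_sum,
        Fintype.sum_prod_type, mul_sum]
      refine sum_congr rfl fun e _ => ?_
      rw [mul_sum]
      refine sum_congr rfl fun e' _ => ?_
      rw [wt_congr ν v0 (K := K e) (K' := K e0) fun ψ => ⟨av _ _ _ ψ.2, av _ _ _ ψ.2⟩]
      simp only [map_mul, Complex.conj_ofReal, Complex.ofReal_mul]
      ring
    have p0 : 0 ≤ ∑ x, wt ν v0 (K e0) i x * ‖∑ e, (c e : ℂ) * B e x‖ ^ 2 :=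
      sum_nonneg fun x _ => mul_nonneg (wt_nonneg hν _ i x) (by positivity)
    rw [← e2, Complex.norm_real, Real.norm_of_nonneg p0] at main
    have k1 := (cs_w (wt ν v0 (K e0) i) _ (fun x => ∑ e, (c e : ℂ) * B e x)
      (norm_fr_le hν v0 (K e0) hh i)).trans
      (mul_le_mul_of_nonneg_right (hL.wt_le (hK e0) i) p0)
    rw [e1, card_insert_of_notMem hi, pow_succ', pow_mul]
    refine (pow_le_pow_left₀ (by positivity) k1 _).trans ?_
    rw [mul_pow]
    refine (mul_le_mul_of_nonneg_left main (by positivity)).trans (le_of_eq ?_)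
    rw [pow_mul, ← mul_assoc, ← mul_pow]
    congr 2
    ring

/-- two complexes that differ only above T -/
theorem cut (hν : ∀ S u, 0 ≤ ν S u) (hL : LFC N ν v0 δ) {o o' : N} (hoo : o ≠ o') (T : Finset C)
    {K K' : Fc C N → Prop} (hK : DC K) (hK' : DC K') (hT : ∀ φ, ¬ T ⊆ sp φ → (K φ ↔ K' φ))
    (ho : ∀ φ l, ∀ i ∈ T, K φ ∨ K' φ → φ i = some l → l = o) {h : Fc C N → Vw C V → ℂ}
    (hh : ∀ φ u, ‖h φ u‖ ≤ 1) (h1 : ∀ φ u, T ⊆ sp φ → h φ u = 1) :
    ‖La (cx ν) v0 K h - La (cx ν) v0 K' h‖ ^ (2 ^ T.card) ≤ ((1 + δ) * 2) ^ (2 ^ T.card) * δ := by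
  have := cut_ind hν hL hoo T T subset_rfl Bool (fun b => if b then 1 else -1) 2
    (fun b => if b then K else K') h (by simp) (by simp; norm_num)
    (fun b => by cases b <;> simpa)
    (fun b b' φ k => by cases b <;> cases b' <;> simp [hT φ k])
    (fun b φ l i hi k => ho φ l i hi (by cases b <;> simp_all)) hh
    (fun φ u k => h1 φ u (k.resolve_right (by simp)))
  simpa [sub_eq_add_neg] using this

end

end Vale.Agent.P057RH
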