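import Mathlib

/-! Systems of variables attached to the faces of a multipartite complex. -/

set_option linter.all false

open Finset Function
open scoped BigOperators

namespace Vale.Agent.P057RH

noncomputable section

open Classical

/-- a face: at most one vertex in every class -/
abbrev Fc (C N : Type) := C → Option N
/-- the local view of a face -/
abbrev Vw (C V : Type) := Finset C → V

variable {C N V : Type} [Fintype C] [DecidableEq C] [Fintype N] [DecidableEq N] [Fintype V]
  [DecidableEq V]

/-- restriction of a face to a set of classes -/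
def res (φ : Fc C N) (T : Finset C) : Fc C N := fun i => if i ∈ T then φ i else none

/-- the variables seen by a face -/
def vw (a : Fc C N → V) (φ : Fc C N) : Vw C V := fun T => a (res φ T)

/-- the classes met by a face -/
def sp (φ : Fc C N) : Finset C := univ.filter fun i => φ i ≠ none

/-- the sum over all configurations of a product of local factors -/
def Lam {R : Type} [CommSemiring R] (G : Fc C N → Vw C V → R) : R :=
  ∑ a : Fc C N → V, ∏ φ, G φ (vw a φ)

/-- the factor of an absent face -/
def dl {R : Type} [CommSemiring R] (v0 : V) (u : Vw C V) : R := if u univ = v0 then 1 else 0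

/-- the local factors of the complex K with weights and extra factors -/
def fam {R : Type} [CommSemiring R] (ν : Finset C → Vw C V → R) (v0 : V) (K : Fc C N → Prop)
    (h : Fc C N → Vw C V → R) (φ : Fc C N) (u : Vw C V) : R :=
  if K φ then ν (sp φ) u * h φ u else dl v0 u

/-- the weighted sum over the complex K -/
def La {R : Type} [CommSemiring R] (ν : Finset C → Vw C V → R) (v0 : V) (K : Fc C N → Prop)
    (h : Fc C N → Vw C V → R) : R := Lam (fam ν v0 K h)

/-- closed under taking subfaces -/
def DC (K : Fc C N → Prop) : Prop := ∀ φ, K φ → ∀ T, K (res φ T)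

/-- all complexes have mass close to one -/
def LFC (N : Type) [Fintype N] [DecidableEq N] (ν : Finset C → Vw C V → ℝ) (v0 : V) (δ : ℝ) : Prop :=
  ∀ K : Fc C N → Prop, DC K → |La ν v0 K (fun _ _ => 1) - 1| ≤ δ

/-- the complete complex on given vertex sets -/
def rect (A : C → Finset N) (φ : Fc C N) : Prop := ∀ i l, φ i = some l → l ∈ A i

/-- faces that avoid the class i -/
abbrev Fm (C N : Type) (i : C) := {ψ : Fc C N // ψ i = none}

theorem res_none {φ : Fc C N} {i : C} (h : φ i = none) (T : Finset C) : res φ T i = none := by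
  unfold res; split_ifs <;> simp [h]

/-- restriction inside the faces avoiding i -/
def rm {i : C} (ψ : Fm C N i) (T : Finset C) : Fm C N i := ⟨res ψ.1 T, res_none ψ.2 T⟩

/-- the view of a face avoiding i -/
def vx {i : C} (x : Fm C N i → V) (ψ : Fm C N i) : Vw C V := fun T => x (rm ψ T)

/-- the view of a face through a vertex of the class i -/
def vb {i : C} (x b : Fm C N i → V) (ψ : Fm C N i) : Vw C V :=
  fun T => if i ∈ T then b (rm ψ T) else x (rm ψ T)

/-- the product over the faces avoiding i -/
def fr {R : Type} [CommSemiring R] (i : C) (G : Fc C N → Vw C V → R) (x : Fm C N i → V) : R :=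
  ∏ ψ : Fm C N i, G ψ.1 (vx x ψ)

/-- the sum over the variables on the faces through one vertex of the class i -/
def bs {R : Type} [CommSemiring R] (i : C) (Q : Fm C N i → Vw C V → R) (x : Fm C N i → V) : R :=
  ∑ b : Fm C N i → V, ∏ ψ : Fm C N i, Q ψ (vb x b ψ)

/-- the factors on the faces through the vertex l of the class i -/
def at' {R : Type} (i : C) (l : N) (G : Fc C N → Vw C V → R) (ψ : Fm C N i) : Vw C V → R :=
  G (update ψ.1 i (some l))

/-- splitting the faces along a class -/
def fsplit (i : C) : Fc C N ≃ Option N × Fm C N i where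
  toFun φ := (φ i, ⟨update φ i none, by simp⟩)
  invFun p := update p.2.1 i p.1
  left_inv φ := by simp
  right_inv p := by
    obtain ⟨o, ψ, h⟩ := p
    simp only [update_self, update_idem, Prod.mk.injEq, true_and]
    exact Subtype.ext (by show update ψ i none = ψ; rw [← h, update_eq_self])

theorem upd_none {i : C} (ψ : Fm C N i) : update ψ.1 i none = ψ.1 :=
  update_eq_self_iff.2 ψ.2.symm

theorem res_upd {i : C} (ψ : Fm C N i) (o : Option N) (T : Finset C) :
    res (update ψ.1 i o) T = update (rm ψ T).1 i (if i ∈ T then o else none) := by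
  funext j
  by_cases h : j = i
  · subst h; simp [res]
  · simp [res, rm, update_of_ne h]

/-- splitting the configurations along a class -/
def csplit (i : C) : (Fc C N → V) ≃ (Fm C N i → V) × (N → Fm C N i → V) where
  toFun a := (fun ψ => a ψ.1, fun l ψ => a (update ψ.1 i (some l)))
  invFun p := fun φ => match φ i with
    | none => p.1 ⟨update φ i none, by simp⟩
    | some l => p.2 l ⟨update φ i none, by simp⟩
  left_inv a := by
    funext φ
    cases h : φ i with
    | none => simp only [h]; rw [← h, update_eq_self]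
    | some l => simp only [h, update_idem]; rw [← h, update_eq_self]
  right_inv p := by
    obtain ⟨x, b⟩ := p
    refine Prod.ext (funext fun ψ => ?_) (funext fun l => funext fun ψ => ?_)
    · have := ψ.2
      simp only [this]
      congr 1
      exact Subtype.ext (upd_none ψ)
    · simp only [update_self, update_idem]
      congr 1
      exact Subtype.ext (upd_none ψ)

theorem lam_fac {R : Type} [CommSemiring R] (i : C) (G : Fc C N → Vw C V → R) :
    Lam G = ∑ x : Fm C N i → V, fr i G x * ∏ l : N, bs i (at' i l G) x := by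
  unfold Lam
  rw [← (csplit (V := V) (N := N) i).symm.sum_comp, Fintype.sum_prod_type]
  refine sum_congr rfl fun x _ => ?_
  have h1 := Finset.prod_univ_sum (fun _ : N => (univ : Finset (Fm C N i → V)))
    (fun l b => ∏ ψ : Fm C N i, at' i l G ψ (vb x b ψ))
  rw [Fintype.piFinset_univ] at h1
  unfold bs
  rw [h1, mul_sum]
  refine sum_congr rfl fun β _ => ?_
  rw [← (fsplit (N := N) i).symm.prod_comp, Fintype.prod_prod_type, Fintype.prod_option]
  have e := (csplit (V := V) (N := N) i).apply_symm_apply (x, β)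
  generalize (csplit (V := V) (N := N) i).symm (x, β) = a at e
  have e1 : ∀ ψ : Fm C N i, a ψ.1 = x ψ := fun ψ => congrFun (congrArg Prod.fst e) ψ
  have e2 : ∀ l (ψ : Fm C N i), a (update ψ.1 i (some l)) = β l ψ := fun l ψ =>
    congrFun (congrFun (congrArg Prod.snd e) l) ψ
  congr 1
  · refine prod_congr rfl fun ψ _ => ?_
    show G (update ψ.1 i none) (vw a (update ψ.1 i none)) = _
    rw [upd_none]
    congr 1
    funext T
    exact e1 (rm ψ T)
  · refine prod_congr rfl fun l _ => prod_congr rfl fun ψ _ => ?_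
    show G (update ψ.1 i (some l)) (vw a (update ψ.1 i (some l))) = _
    congr 1
    funext T
    simp only [vw, vb, res_upd]
    split_ifs
    · exact e2 l _
    · rw [upd_none]; exact e1 _

theorem rm_univ {i : C} (ψ : Fm C N i) : rm ψ univ = ψ :=
  Subtype.ext (funext fun j => by simp [rm, res])

theorem bs_dl {R : Type} [CommSemiring R] (i : C) (v0 : V) (x : Fm C N i → V) :
    bs i (fun _ => (dl v0 : Vw C V → R)) x = 1 := by
  unfold bs
  rw [sum_eq_single (fun _ => v0)]
  · simp [dl, vb]
  · intro b _ hb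
    obtain ⟨ψ, h⟩ := Function.ne_iff.1 hb
    exact prod_eq_zero (mem_univ ψ) (by simp [dl, vb, rm_univ, h])
  · simp

theorem sp_upd {i : C} (ψ : Fm C N i) (l : N) : sp (update ψ.1 i (some l)) = insert i (sp ψ.1) := by
  ext j
  by_cases h : j = i
  · subst h; simp [sp]
  · simp [sp, update_of_ne h, h]

theorem not_mem_sp {i : C} (ψ : Fm C N i) : i ∉ sp ψ.1 := by simp [sp, ψ.2]

theorem mem_sp {φ : Fc C N} {i : C} : i ∈ sp φ ↔ φ i ≠ none := by simp [sp]

theorem dc_rect (A : C → Finset N) : DC (rect A) := fun φ h T i l e => by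
  unfold res at e
  split_ifs at e
  exact h i l e

theorem rect_upd {i : C} (A : C → Finset N) (ψ : Fm C N i) (l : N) :
    rect A (update ψ.1 i (some l)) ↔ l ∈ A i ∧ rect A ψ.1 := by
  constructor
  · intro h
    refine ⟨h i l (by simp), fun j m e => ?_⟩
    by_cases k : j = i
    · subst k; rw [ψ.2] at e; cases e
    · exact h j m (by rwa [update_of_ne k])
  · rintro ⟨h1, h2⟩ j m e
    by_cases k : j = i
    · subst k; rw [update_self] at e; cases e; exact h1
    · rw [update_of_ne k] at e; exact h2 j m e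

theorem rect_fm {i : C} {A A' : C → Finset N} (h : ∀ j, j ≠ i → A j = A' j) (ψ : Fm C N i) :
    rect A ψ.1 ↔ rect A' ψ.1 := by
  refine forall_congr' fun j => forall_congr' fun l => ?_
  by_cases k : j = i
  · subst k; simp [ψ.2]
  · rw [h j k]

section real

variable {ν : Finset C → Vw C V → ℝ} {v0 : V}

theorem dl_nonneg (v0 : V) (u : Vw C V) : (0 : ℝ) ≤ dl v0 u := by
  unfold dl; split_ifs <;> norm_num

theorem fam_nonneg (hν : ∀ S u, 0 ≤ ν S u) (K : Fc C N → Prop) {h : Fc C N → Vw C V → ℝ}
    (hh : ∀ φ u, 0 ≤ h φ u) (φ : Fc C N) (u : Vw C V) : 0 ≤ fam ν v0 K h φ u := by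
  unfold fam
  split_ifs
  · exact mul_nonneg (hν _ _) (hh _ _)
  · exact dl_nonneg _ _

theorem fr_nonneg (i : C) {G : Fc C N → Vw C V → ℝ} (hG : ∀ φ u, 0 ≤ G φ u) (x : Fm C N i → V) :
    0 ≤ fr i G x := prod_nonneg fun _ _ => hG _ _

theorem bs_nonneg (i : C) {Q : Fm C N i → Vw C V → ℝ} (hQ : ∀ φ u, 0 ≤ Q φ u)
    (x : Fm C N i → V) : 0 ≤ bs i Q x := sum_nonneg fun _ _ => prod_nonneg fun _ _ => hQ _ _

theorem lam_nonneg {G : Fc C N → Vw C V → ℝ} (hG : ∀ φ u, 0 ≤ G φ u) : 0 ≤ Lam G :=
  sum_nonneg fun _ _ => prod_nonneg fun _ _ => hG _ _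

theorem lam_mono {G G' : Fc C N → Vw C V → ℝ} (hG : ∀ φ u, 0 ≤ G φ u)
    (h : ∀ φ u, G φ u ≤ G' φ u) : Lam G ≤ Lam G' :=
  sum_le_sum fun _ _ => prod_le_prod (fun _ _ => hG _ _) fun _ _ => h _ _

theorem lam_cast (G : Fc C N → Vw C V → ℝ) :
    ((Lam G : ℝ) : ℂ) = Lam (fun φ u => (G φ u : ℂ)) := by
  simp [Lam]

theorem fam_cast (K : Fc C N → Prop) (h : Fc C N → Vw C V → ℝ) (φ : Fc C N) (u : Vw C V) :
    ((fam ν v0 K h φ u : ℝ) : ℂ) =
      fam (fun S u => (ν S u : ℂ)) v0 K (fun φ u => (h φ u : ℂ)) φ u := by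
  unfold fam dl
  split_ifs <;> simp

theorem la_cast (K : Fc C N → Prop) (h : Fc C N → Vw C V → ℝ) :
    ((La ν v0 K h : ℝ) : ℂ) = La (fun S u => (ν S u : ℂ)) v0 K (fun φ u => (h φ u : ℂ)) := by
  unfold La
  rw [lam_cast]
  simp only [fam_cast]

theorem bs_cast (i : C) (Q : Fm C N i → Vw C V → ℝ) (x : Fm C N i → V) :
    ((bs i Q x : ℝ) : ℂ) = bs i (fun φ u => (Q φ u : ℂ)) x := by
  simp [bs]

theorem fr_cast (i : C) (G : Fc C N → Vw C V → ℝ) (x : Fm C N i → V) :
    ((fr i G x : ℝ) : ℂ) = fr i (fun φ u => (G φ u : ℂ)) x := by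
  simp [fr]

end real

end

end Vale.Agent.P057RH
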