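import Mathlib

/-! Hoelder inequalities for weighted finite sums. -/

set_option linter.all false

open Finset Function
open scoped BigOperators

namespace Vale.Agent.P057RH

/-- Hoelder with an even power -/
theorem hol_even {β : Type} [Fintype β] (F A : β → ℝ) (hF : ∀ x, 0 ≤ F x) {q : ℕ} (hq : q ≠ 0)
    (he : Even q) : |∑ x, F x * A x| ^ q ≤ (∑ x, F x) ^ (q - 1) * ∑ x, F x * A x ^ q := by
  have s0 : 0 ≤ ∑ x, F x := sum_nonneg fun x _ => hF x
  rcases s0.eq_or_lt with h | h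
  · have := (sum_eq_zero_iff_of_nonneg fun x _ => hF x).1 h.symm
    simp [this _ (mem_univ _), hq]
  have j := he.convexOn_pow (𝕜 := ℝ).map_sum_le (t := univ) (w := fun x => F x / ∑ x, F x) (p := A)
    (fun x _ => div_nonneg (hF x) s0) (by rw [← sum_div, div_self h.ne']) fun _ _ => trivial
  simp only [smul_eq_mul, div_mul_eq_mul_div, ← sum_div] at j
  obtain ⟨n, rfl⟩ := Nat.exists_eq_succ_of_ne_zero hq
  rw [div_pow, div_le_div_iff₀ (by positivity) h, pow_succ (∑ x, F x), ← mul_assoc] at j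
  rw [he.pow_abs, Nat.succ_sub_one, mul_comm]
  exact le_of_mul_le_mul_right j h

/-- Hoelder with equal exponents -/
theorem hol_eq {β ι : Type} [Fintype β] (s : Finset ι) (hs : s.Nonempty) (w : β → ℝ)
    (hw : ∀ x, 0 ≤ w x) (a : ι → β → ℝ) (ha : ∀ l x, 0 ≤ a l x) :
    (∑ x, w x * ∏ l ∈ s, a l x) ^ s.card ≤ ∏ l ∈ s, ∑ x, w x * a l x ^ s.card := by
  obtain ⟨p, hp⟩ : ∃ p, p = s.card := ⟨_, rfl⟩
  rw [← hp]
  have hp0 : p ≠ 0 := by rw [hp]; exact hs.card_ne_zero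
  have b0 : ∀ l, 0 ≤ ∑ x, w x * a l x ^ p := fun l =>
    sum_nonneg fun x _ => mul_nonneg (hw x) (pow_nonneg (ha l x) p)
  by_cases h : ∃ l ∈ s, ∑ x, w x * a l x ^ p = 0
  · obtain ⟨l, hl0, hl⟩ := h
    rw [sum_eq_zero_iff_of_nonneg fun x _ => mul_nonneg (hw x) (pow_nonneg (ha l x) p)] at hl
    rw [sum_eq_zero fun x hx => ?_, zero_pow hp0]
    · exact prod_nonneg fun l _ => b0 l
    · rcases mul_eq_zero.1 (hl x hx) with k | k
      · rw [k, zero_mul]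
      · rw [prod_eq_zero hl0 (pow_eq_zero_iff hp0 |>.1 k), mul_zero]
  have b1 : ∀ l ∈ s, 0 < ∑ x, w x * a l x ^ p := fun l hl =>
    (b0 l).lt_of_ne' fun k => h ⟨l, hl, k⟩
  obtain ⟨b, hb⟩ : ∃ b : ι → ℝ, ∀ l, b l = ∑ x, w x * a l x ^ p := ⟨_, fun _ => rfl⟩
  simp only [← hb] at b0 b1 ⊢
  have p0 : (0 : ℝ) < p := by positivity
  have B0 : 0 < ∏ l ∈ s, b l ^ (p : ℝ)⁻¹ := prod_pos fun l hl => Real.rpow_pos_of_pos (b1 l hl) _
  have key : ∀ x, ∏ l ∈ s, a l x ≤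
      (∏ l ∈ s, b l ^ (p : ℝ)⁻¹) * ∑ l ∈ s, (p : ℝ)⁻¹ * (a l x ^ p / b l) := by
    intro x
    have := Real.geom_mean_le_arith_mean_weighted s (fun _ => (p : ℝ)⁻¹)
      (fun l => a l x ^ p / b l) (fun _ _ => by positivity) (by simp [← hp, hp0])
      fun l _ => div_nonneg (pow_nonneg (ha l x) p) (b0 l)
    simp only [Real.div_rpow (pow_nonneg (ha _ x) p) (b0 _), Real.pow_rpow_inv_natCast (ha _ x) hp0,
      prod_div_distrib] at this
    rwa [div_le_iff₀' B0] at this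
  have k2 : ∑ x, w x * ∏ l ∈ s, a l x ≤ ∏ l ∈ s, b l ^ (p : ℝ)⁻¹ := by
    refine (sum_le_sum fun x _ => mul_le_mul_of_nonneg_left (key x) (hw x)).trans (le_of_eq ?_)
    have e : ∀ x, w x * ((∏ l ∈ s, b l ^ (p : ℝ)⁻¹) * ∑ l ∈ s, (p : ℝ)⁻¹ * (a l x ^ p / b l)) =
        (∏ l ∈ s, b l ^ (p : ℝ)⁻¹) * ∑ l ∈ s, (p : ℝ)⁻¹ / b l * (w x * a l x ^ p) := fun x => by
      rw [mul_left_comm, mul_sum]
      congr 1
      exact sum_congr rfl fun l _ => by ring
    simp only [e]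
    rw [← mul_sum, sum_comm]
    simp only [← mul_sum, ← hb]
    rw [sum_congr rfl (g := fun _ => (p : ℝ)⁻¹) fun l hl => div_mul_cancel₀ _ (b1 l hl).ne']
    simp [← hp, hp0]
  refine (pow_le_pow_left₀ (sum_nonneg fun x _ => mul_nonneg (hw x)
    (prod_nonneg fun l _ => ha l x)) k2 p).trans (le_of_eq ?_)
  rw [← prod_pow]
  exact prod_congr rfl fun l _ => Real.rpow_inv_natCast_pow (b0 l) hp0

/-- comparison of moments -/
theorem hol_mom {β : Type} [Fintype β] (w : β → ℝ) (hw : ∀ x, 0 ≤ w x) (B : β → ℝ)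
    (hB : ∀ x, 0 ≤ B x) {n n' : ℕ} (hn : n ≤ n') (h0 : n' ≠ 0) :
    (∑ x, w x * B x ^ n) ^ n' ≤ (∑ x, w x * B x ^ n') ^ n * (∑ x, w x) ^ (n' - n) := by
  have h := hol_eq (range n') (by simpa using h0) w hw (fun l x => if l < n then B x else 1)
    (fun l x => by split_ifs; exacts [hB x, zero_le_one])
  have e1 : ∀ (f g : ℝ), ∏ l ∈ range n', (if l < n then f else g) = f ^ n * g ^ (n' - n) := by
    intro f g
    obtain ⟨d, rfl⟩ := Nat.exists_eq_add_of_le hn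
    rw [prod_range_add, prod_congr rfl (g := fun _ => f) fun l hl => if_pos (mem_range.1 hl),
      prod_congr rfl (s₁ := range d) (g := fun _ => g) fun l _ => if_neg (by omega)]
    simp
  rw [card_range] at h
  simp only [e1, one_pow, mul_one] at h
  refine h.trans (le_of_eq ?_)
  rw [← e1]
  refine prod_congr rfl fun l _ => ?_
  split_ifs <;> simp

/-- Cauchy-Schwarz with a dominating weight -/
theorem cs_w {β : Type} [Fintype β] (w : β → ℝ) (P B : β → ℂ) (hP : ∀ x, ‖P x‖ ≤ w x) :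
    ‖∑ x, P x * B x‖ ^ 2 ≤ (∑ x, w x) * ∑ x, w x * ‖B x‖ ^ 2 := by
  have hw : ∀ x, 0 ≤ w x := fun x => (norm_nonneg _).trans (hP x)
  have h1 : ‖∑ x, P x * B x‖ ≤ ∑ x, w x * ‖B x‖ := (norm_sum_le _ _).trans
    (sum_le_sum fun x _ => by rw [norm_mul]; exact mul_le_mul_of_nonneg_right (hP x) (norm_nonneg _))
  have h2 := hol_even w (fun x => ‖B x‖) hw two_ne_zero even_two
  rw [sq_abs] at h2
  exact (pow_le_pow_left₀ (norm_nonneg _) h1 2).trans (by simpa using h2)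

end Vale.Agent.P057RH
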