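import Vale.Agent.P057RH.Defs
import Vale.Agent.P057RH.Hol

/-! Hoelder inequality for grids and more copies, relative to weights on faces. -/

set_option linter.all false

open Finset Function
open scoped BigOperators

namespace Vale.Agent.P057RH

noncomputable section

open Classical

variable {C N V : Type} [Fintype C] [DecidableEq C] [Fintype N] [DecidableEq N] [Fintype V]
  [DecidableEq V]

/-- factors on the faces with support S, indexed by cells -/
def cel {R : Type} [CommSemiring R] (S : Finset C) (o : N) (F : (C → N) → Vw C V → R)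
    (φ : Fc C N) (u : Vw C V) : R :=
  if sp φ = S then F (fun i => (φ i).getD o) u else 1

/-- the grid sum -/
def gr {R : Type} [CommSemiring R] (ν : Finset C → Vw C V → R) (v0 : V) (A : C → Finset N)
    (S : Finset C) (o : N) (F : (C → N) → Vw C V → R) : R := La ν v0 (rect A) (cel S o F)

/-- the cells of the grid -/
def cells (A : C → Finset N) (S : Finset C) (o : N) : Finset (C → N) :=
  Fintype.piFinset fun i => if i ∈ S then A i else {o}

/-- the weight of the faces avoiding i -/
def wt {R : Type} [CommSemiring R] (ν : Finset C → Vw C V → R) (v0 : V) (K : Fc C N → Prop) (i : C)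
    (x : Fm C N i → V) : R := fr i (fam ν v0 K fun _ _ => 1) x

/-- one bundle of the grid -/
def bd {R : Type} [CommSemiring R] (ν : Finset C → Vw C V → R) (v0 : V) (A : C → Finset N)
    (S : Finset C) (o : N) (i : C) (F : (C → N) → Vw C V → R) (x : Fm C N i → V) : R :=
  bs i (fun ψ u => if rect A ψ.1 then ν (insert i (sp ψ.1)) u *
    (if insert i (sp ψ.1) = S then F (fun j => (ψ.1 j).getD o) u else 1) else dl v0 u) x

theorem card_cells (A : C → Finset N) (S : Finset C) (o : N) :
    (cells A S o).card = ∏ i ∈ S, (A i).card := by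
  rw [cells, Fintype.card_piFinset, ← Fintype.prod_ite_mem S]
  exact prod_congr rfl fun i _ => by split_ifs <;> simp

/-- bundles of vertices outside the complex are trivial -/
theorem prod_bs_rect {R : Type} [CommSemiring R] (ν : Finset C → Vw C V → R) (v0 : V)
    (A : C → Finset N) (h : Fc C N → Vw C V → R) (i : C) (x : Fm C N i → V) :
    ∏ l, bs i (at' i l (fam ν v0 (rect A) h)) x = ∏ l ∈ A i, bs i (fun ψ u => if rect A ψ.1 then
      ν (insert i (sp ψ.1)) u * h (update ψ.1 i (some l)) u else dl v0 u) x := by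
  rw [← prod_subset (subset_univ (A i)) fun l _ hl => ?_]
  · refine prod_congr rfl fun l hl => ?_
    congr 1
    funext ψ u
    simp only [at', fam, rect_upd, hl, true_and, sp_upd]
  · rw [← bs_dl (R := R) i v0 x]
    congr 1
    funext ψ u
    simp only [at', fam, rect_upd, hl, false_and, if_false]

theorem gr_fac {R : Type} [CommSemiring R] (ν : Finset C → Vw C V → R) (v0 : V) (A : C → Finset N)
    {S : Finset C} (o : N) (F : (C → N) → Vw C V → R) {i : C} (hi : i ∈ S) :
    gr ν v0 A S o F = ∑ x, wt ν v0 (rect A) i x *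
      ∏ l ∈ A i, bd ν v0 A S o i (fun c => F (update c i l)) x := by
  rw [gr, La, lam_fac i]
  refine sum_congr rfl fun x _ => ?_
  rw [prod_bs_rect]
  congr 1
  · refine prod_congr rfl fun ψ _ => ?_
    have : sp ψ.1 ≠ S := fun e => not_mem_sp ψ (e ▸ hi)
    simp only [fam, cel, this, if_false]
  · refine prod_congr rfl fun l _ => ?_
    unfold bd
    congr 1
    funext ψ u
    have e : (fun j => (update ψ.1 i (some l) j).getD o) =
        update (fun j => (ψ.1 j).getD o) i l := by
      funext j
      by_cases k : j = i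
      · subst k; simp
      · simp [update_of_ne k]
    simp only [cel, sp_upd, e]

theorem wt_congr {R : Type} [CommSemiring R] (ν : Finset C → Vw C V → R) (v0 : V) {i : C}
    {K K' : Fc C N → Prop} (h : ∀ ψ : Fm C N i, K ψ.1 ↔ K' ψ.1) (x : Fm C N i → V) :
    wt ν v0 K i x = wt ν v0 K' i x :=
  prod_congr rfl fun ψ _ => by simp only [fam, h ψ]

theorem bd_congr {R : Type} [CommSemiring R] (ν : Finset C → Vw C V → R) (v0 : V) {i : C}
    {A A' : C → Finset N} (h : ∀ j, j ≠ i → A j = A' j) (S : Finset C) (o : N)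
    (F : (C → N) → Vw C V → R) (x : Fm C N i → V) : bd ν v0 A S o i F x = bd ν v0 A' S o i F x := by
  simp only [bd, rect_fm h]

/-- the total weight of the faces avoiding i is the mass of a complex -/
theorem sum_wt {R : Type} [CommSemiring R] (ν : Finset C → Vw C V → R) (v0 : V)
    (K : Fc C N → Prop) (i : C) :
    ∑ x, wt ν v0 K i x = La ν v0 (fun φ => K φ ∧ φ i = none) (fun _ _ => 1) := by
  rw [La, lam_fac i]
  refine sum_congr rfl fun x _ => ?_
  rw [prod_eq_one fun l _ => ?_, mul_one]
  · exact wt_congr ν v0 (fun ψ => by simp [ψ.2]) x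
  · rw [← bs_dl (R := R) i v0 x]
    congr 1
    funext ψ u
    simp [at', fam]

theorem dc_avoid {K : Fc C N → Prop} (h : DC K) (i : C) : DC fun φ => K φ ∧ φ i = none :=
  fun φ k T => ⟨h φ k.1 T, res_none k.2 T⟩

variable {ν : Finset C → Vw C V → ℝ} {v0 : V} {δ : ℝ}

theorem LFC.le (h : LFC N ν v0 δ) {K : Fc C N → Prop} (hK : DC K) :
    La ν v0 K (fun _ _ => 1) ≤ 1 + δ := by
  have := (abs_le.1 (h K hK)).2
  linarith

theorem LFC.nonneg (h : LFC N ν v0 δ) : 0 ≤ δ :=
  (abs_nonneg _).trans (h (fun _ => False) fun _ k => k.elim)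

theorem LFC.wt_le (h : LFC N ν v0 δ) {K : Fc C N → Prop} (hK : DC K) (i : C) :
    ∑ x, wt ν v0 K i x ≤ 1 + δ := by
  rw [sum_wt]
  exact h.le (dc_avoid hK i)

theorem wt_nonneg (hν : ∀ S u, 0 ≤ ν S u) (K : Fc C N → Prop) (i : C) (x : Fm C N i → V) :
    0 ≤ wt ν v0 K i x := fr_nonneg i (fam_nonneg hν K fun _ _ => zero_le_one) x

theorem bd_nonneg (hν : ∀ S u, 0 ≤ ν S u) (A : C → Finset N) (S : Finset C) (o : N) (i : C)
    {F : (C → N) → Vw C V → ℝ} (hF : ∀ c u, 0 ≤ F c u) (x : Fm C N i → V) :
    0 ≤ bd ν v0 A S o i F x := bs_nonneg i (fun ψ u => by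
      split_ifs
      · exact mul_nonneg (hν _ _) (hF _ _)
      · exact mul_nonneg (hν _ _) zero_le_one
      · exact dl_nonneg _ _) x

theorem gr_nonneg (hν : ∀ S u, 0 ≤ ν S u) (A : C → Finset N) (S : Finset C) (o : N)
    {F : (C → N) → Vw C V → ℝ} (hF : ∀ c u, 0 ≤ F c u) : 0 ≤ gr ν v0 A S o F :=
  lam_nonneg (fam_nonneg hν _ fun φ u => by
    unfold cel; split_ifs; exacts [hF _ _, zero_le_one])

theorem gh_step (hν : ∀ S u, 0 ≤ ν S u) (A : C → Finset N) {S : Finset C} (o : N)
    {F : (C → N) → Vw C V → ℝ} (hF : ∀ c u, 0 ≤ F c u) {i : C} (hi : i ∈ S)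
    (hA : (A i).Nonempty) :
    gr ν v0 A S o F ^ (A i).card ≤ ∏ l ∈ A i, gr ν v0 A S o (fun c => F (update c i l)) := by
  rw [gr_fac ν v0 A o F hi]
  refine (hol_eq (A i) hA _ (wt_nonneg hν _ i) _ fun l x =>
    bd_nonneg hν A S o i (fun c u => hF _ _) x).trans (le_of_eq ?_)
  refine prod_congr rfl fun l _ => ?_
  rw [gr_fac ν v0 A o _ hi]
  simp only [update_idem, prod_const]

theorem gh_ind (hν : ∀ S u, 0 ≤ ν S u) (A : C → Finset N) {S : Finset C} (o : N)
    {F : (C → N) → Vw C V → ℝ} (hF : ∀ c u, 0 ≤ F c u) (hA : ∀ i ∈ S, (A i).Nonempty)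
    (P : Finset C) : P ⊆ S → gr ν v0 A S o F ^ (∏ i ∈ P, (A i).card) ≤
      ∏ t ∈ cells A P o, gr ν v0 A S o (fun c => F (P.piecewise t c)) := by
  induction P using Finset.induction_on with
  | empty =>
    intro _
    have : cells A ∅ o = {fun _ => o} := by
      ext t; simp [cells, funext_iff]
    simp [this]
  | insert i P hi ih =>
    intro hP
    have hiS : i ∈ S := hP (mem_insert_self _ _)
    rw [prod_insert hi, mul_comm, pow_mul]
    refine (pow_le_pow_left₀ (pow_nonneg (gr_nonneg hν A S o hF) _)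
      (ih ((subset_insert _ _).trans hP)) _).trans ?_
    rw [← prod_pow]
    refine (prod_le_prod (fun t _ => pow_nonneg (gr_nonneg hν A S o fun c u => hF _ _) _)
      fun t _ => gh_step hν A o (fun c u => hF _ _) hiS (hA i hiS)).trans (le_of_eq ?_)
    rw [← prod_product']
    refine prod_nbij' (fun p => update p.1 i p.2) (fun t => (update t i o, t i)) ?_ ?_ ?_ ?_ ?_
    · rintro ⟨t, l⟩ hp
      simp only [mem_product, cells, Fintype.mem_piFinset] at hp ⊢
      intro j
      by_cases k : j = i
      · subst k; simpa using hp.2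
      · simpa [k] using hp.1 j
    · intro t ht
      simp only [mem_product, cells, Fintype.mem_piFinset] at ht ⊢
      refine ⟨fun j => ?_, by simpa using ht i⟩
      by_cases k : j = i
      · subst k; simp [hi]
      · simpa [k] using ht j
    · rintro ⟨t, l⟩ hp
      simp only [mem_product, cells, Fintype.mem_piFinset] at hp
      have := hp.1 i
      simp only [hi, if_false, mem_singleton] at this
      simp [← this]
    · intro t _
      simp
    · rintro ⟨t, l⟩ _
      congr 1
      funext c
      refine congrArg F (funext fun j => ?_)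
      by_cases k : j = i
      · subst k; simp [piecewise, hi]
      · simp [piecewise, k]

theorem gr_congr {R : Type} [CommSemiring R] (ν : Finset C → Vw C V → R) (v0 : V)
    (A : C → Finset N) (S : Finset C) (o : N) {F F' : (C → N) → Vw C V → R}
    (h : ∀ c ∈ cells A S o, F c = F' c) : gr ν v0 A S o F = gr ν v0 A S o F' := by
  unfold gr La
  congr 1
  funext φ u
  simp only [fam, cel]
  split_ifs with h1 h2
  · rw [h]
    simp only [cells, Fintype.mem_piFinset]
    intro j
    cases e : φ j with
    | none =>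
      have : j ∉ S := by rw [← h2, mem_sp]; simp [e]
      simp [this]
    | some l =>
      have : j ∈ S := by rw [← h2, mem_sp]; simp [e]
      simpa [this] using h1 j l e
  · rfl
  · rfl

/-- the Hoelder inequality for grids -/
theorem gh (hν : ∀ S u, 0 ≤ ν S u) (A : C → Finset N) {S : Finset C} (o : N)
    {F : (C → N) → Vw C V → ℝ} (hF : ∀ c u, 0 ≤ F c u) (hA : ∀ i ∈ S, (A i).Nonempty) :
    gr ν v0 A S o F ^ (cells A S o).card ≤ ∏ t ∈ cells A S o, gr ν v0 A S o (fun _ => F t) := by
  rw [card_cells]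
  refine (gh_ind hν A o hF hA S subset_rfl).trans (le_of_eq (prod_congr rfl fun t ht => ?_))
  refine gr_congr ν v0 A S o fun c hc => congrArg F (funext fun j => ?_)
  simp only [cells, Fintype.mem_piFinset] at ht hc
  by_cases k : j ∈ S
  · simp [piecewise, k]
  · have h1 := ht j
    have h2 := hc j
    simp only [k, if_false, mem_singleton] at h1 h2
    simp [piecewise, k, h1, h2]

theorem mono_step (hν : ∀ S u, 0 ≤ ν S u) (hL : LFC N ν v0 δ) {A A' : C → Finset N}
    {S : Finset C} (o : N) {f : Vw C V → ℝ} (hf : ∀ u, 0 ≤ f u) {i : C} (hi : i ∈ S)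
    (h : ∀ j, j ≠ i → A j = A' j) (h1 : (A i).card ≤ (A' i).card) (h0 : (A' i).card ≠ 0) :
    gr ν v0 A S o (fun _ => f) ^ (A' i).card ≤
      gr ν v0 A' S o (fun _ => f) ^ (A i).card * (1 + δ) ^ (A' i).card := by
  rw [gr_fac ν v0 A o _ hi, gr_fac ν v0 A' o _ hi]
  simp only [prod_const, ← bd_congr ν v0 h, ← wt_congr ν v0 (rect_fm h)]
  refine (hol_mom _ (wt_nonneg hν _ i) _ (bd_nonneg hν A S o i fun _ => hf) h1 h0).trans ?_
  have := hL.nonneg
  refine mul_le_mul_of_nonneg_left ?_ (pow_nonneg (sum_nonneg fun x _ => mul_nonneg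
    (wt_nonneg hν _ i x) (pow_nonneg (bd_nonneg hν A S o i (fun _ => hf) x) _)) _)
  exact (pow_le_pow_left₀ (sum_nonneg fun x _ => wt_nonneg hν _ i x) (hL.wt_le (dc_rect A) i)
    _).trans (pow_le_pow_right₀ (by linarith) (Nat.sub_le _ _))

/-- more copies -/
theorem mono (hν : ∀ S u, 0 ≤ ν S u) (hL : LFC N ν v0 δ) {A' : C → Finset N}
    {S : Finset C} (o : N) {f : Vw C V → ℝ} (hf : ∀ u, 0 ≤ f u) {c κ : ℝ} (hc : 1 ≤ c) (hκ : 0 ≤ κ)
    (h0 : ∀ i ∈ S, (A' i).card ≠ 0) (hA : gr ν v0 A' S o (fun _ => f) ≤ c * κ ^ (cells A' S o).card)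
    (P : Finset C) : P ⊆ S → ∀ A : C → Finset N, (∀ j, j ∉ P → A j = A' j) →
      (∀ i ∈ P, (A i).card ≤ (A' i).card) →
      gr ν v0 A S o (fun _ => f) ≤ (1 + δ) ^ P.card * c * κ ^ (cells A S o).card := by
  have d0 := hL.nonneg
  induction P using Finset.induction_on with
  | empty =>
    intro _ A h _
    rw [show A = A' from funext fun j => h j (by simp)]
    simpa using hA
  | insert i P hi ih =>
    intro hP A h h1
    have hiS : i ∈ S := hP (mem_insert_self _ _)
    have k1 := ih ((subset_insert _ _).trans hP) (update A i (A' i)) (fun j hj => by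
      by_cases k : j = i
      · subst k; simp
      · rw [update_of_ne k, h j (by simp [k, hj])]) (fun j hj => by
      rw [update_of_ne (by rintro rfl; exact hi hj)]
      exact h1 j (mem_insert_of_mem hj))
    have k2 := mono_step (v0 := v0) hν hL (A := A) (A' := update A i (A' i)) o hf hiS
      (fun j hj => by rw [update_of_ne hj]) (by simpa using h1 i (mem_insert_self _ _))
      (by simpa using h0 i hiS)
    rw [update_self] at k2
    have e : (cells (update A i (A' i)) S o).card * (A i).card =
        (cells A S o).card * (A' i).card := by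
      rw [card_cells, card_cells, ← mul_prod_erase _ _ hiS, ← mul_prod_erase _ _ hiS, update_self,
        prod_congr rfl fun j hj => by rw [update_of_ne (ne_of_mem_erase hj)]]
      ring
    have c1 : 1 ≤ (1 + δ) ^ P.card * c := one_le_mul_of_one_le_of_one_le
      (one_le_pow₀ (by linarith)) hc
    refine le_of_pow_le_pow_left₀ (h0 i hiS) (by positivity) (k2.trans ?_)
    refine (mul_le_mul_of_nonneg_right (pow_le_pow_left₀ (gr_nonneg hν _ S o fun _ => hf) k1 _)
      (by positivity)).trans ?_
    rw [mul_pow, ← pow_mul κ, e, card_insert_of_notMem hi, pow_mul κ]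
    calc _ ≤ ((1 + δ) ^ P.card * c) ^ (A' i).card * (κ ^ (cells A S o).card) ^ (A' i).card *
          (1 + δ) ^ (A' i).card := by
          refine mul_le_mul_of_nonneg_right (mul_le_mul (pow_le_pow_right₀ c1
            (h1 i (mem_insert_self _ _))) (le_of_eq ?_) (by positivity) (by positivity))
            (by positivity)
          rfl
      _ = _ := by rw [← mul_pow, ← mul_pow]; ring

end

end Vale.Agent.P057RH
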