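import Vale.Agent.P057RH.Core

/-! The lower tail of the full marginal and the relative hypergraph step. -/

set_option linter.all false

open Finset Function
open scoped BigOperators

namespace Vale.Agent.P057RH

noncomputable section

open Classical

theorem exists_eta (r : ℕ) {δ : ℝ} (hδ : 0 < δ) : ∃ η : ℝ, 0 < η ∧ η ≤ δ ∧
    (((1 + η) ^ 2) ^ r * (1 + (1 + η) ^ 2 / 2)) ^ 2 * (1 + η) ≤ 9 / 4 + δ / 2 := by
  have c : ContinuousAt (fun η : ℝ => (((1 + η) ^ 2) ^ r * (1 + (1 + η) ^ 2 / 2)) ^ 2 * (1 + η)) 0 :=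
    by fun_prop
  obtain ⟨ε, hε, h⟩ := Metric.continuousAt_iff.1 c (δ / 2) (by positivity)
  have p : 0 < min δ (ε / 2) := by positivity
  refine ⟨_, p, min_le_left _ _, ?_⟩
  have := h (x := min δ (ε / 2)) (by
    rw [Real.dist_eq, sub_zero, abs_of_pos p]
    linarith [min_le_right δ (ε / 2)])
  rw [Real.dist_eq] at this
  have := (abs_lt.1 this).2
  norm_num at this ⊢
  linarith

theorem exists_m {η D : ℝ} (hη : 0 < η) (hD : 0 < D) :
    ∃ m : ℕ, 1 ≤ m ∧ D * (2 * m + 1) ≤ (1 + η) ^ m := by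
  obtain ⟨j, hj⟩ := exists_nat_ge (5 * D / η ^ 2 + 1)
  have h0 : 0 < 5 * D / η ^ 2 := by positivity
  have j1 : (1 : ℝ) ≤ j := by linarith
  have h1 : 5 * D ≤ j * η ^ 2 := (div_le_iff₀ (by positivity)).1 (by linarith)
  have h2 := one_add_mul_le_pow (a := η) (by linarith) j
  refine ⟨j * 2, by have : 1 ≤ j := by exact_mod_cast j1
                    omega, ?_⟩
  have h3 : (j * η) ^ 2 ≤ ((1 + η) ^ j) ^ 2 := pow_le_pow_left₀ (by positivity) (by linarith) 2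
  rw [pow_mul]
  push_cast
  nlinarith

theorem num_key {η X : ℝ} {n m k : ℕ} (m0 : (1 : ℝ) ≤ m) (k1 : 1 ≤ k) (k2 : X ≤ k)
    (hm : 90 * 8 ^ n * (2 * m + 1) ≤ (1 + η) ^ m) :
    (2 * (m * k : ℕ) + 1 : ℝ) * (30 * 8 ^ n * Real.exp X) ≤ (1 + η) ^ (m * k) := by
  have a1 := one_add_mul_le_pow (a := 2 * (m : ℝ)) (by linarith) k
  have a2 : Real.exp X ≤ 3 ^ k := by
    refine (Real.exp_le_exp.2 k2).trans ?_
    rw [← Real.exp_one_pow]
    exact pow_le_pow_left₀ (Real.exp_pos _).le (by linarith [Real.exp_one_lt_d9]) k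
  have a3 : (30 * 8 ^ n : ℝ) ≤ (30 * 8 ^ n) ^ k :=
    le_self_pow₀ (by linarith [one_le_pow₀ (n := n) (show (1 : ℝ) ≤ 8 by norm_num)]) (by omega)
  rw [pow_mul]
  refine le_trans ?_ (pow_le_pow_left₀ (by positivity) hm k)
  rw [show (90 * 8 ^ n * (2 * m + 1) : ℝ) = (1 + 2 * m) * (30 * 8 ^ n * 3) by ring,
    mul_pow, mul_pow _ (3 : ℝ)]
  refine mul_le_mul (le_trans (le_of_eq ?_) a1) (mul_le_mul a3 a2 (by positivity) (by positivity))
    (by positivity) (by positivity)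
  push_cast
  ring

theorem num_two {δ X Y : ℝ} {n r : ℕ} (δ0 : 0 ≤ δ) (hδ : δ ≤ Real.exp (-Y)) (hY : X ≤ Y)
    (hX : 2 * n + 1 ≤ X) (hr : r ≤ n) : δ ≤ 1 ∧ (1 + δ) ^ r ≤ 2 := by
  have n0 : (0 : ℝ) ≤ n := Nat.cast_nonneg n
  have δ1 : δ * (1 + Y) ≤ 1 := by
    have := Real.add_one_le_exp Y
    rw [Real.exp_neg, ← one_div, le_div_iff₀ (Real.exp_pos _)] at hδ
    nlinarith
  have δ2 : δ * (2 * n) ≤ 1 := by nlinarith
  refine ⟨by nlinarith, ?_⟩
  refine (pow_le_pow_right₀ (by linarith) hr).trans ((pow_le_pow_left₀ (by linarith)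
    (show 1 + δ ≤ Real.exp δ by linarith [Real.add_one_le_exp δ]) n).trans ?_)
  rw [← Real.exp_nat_mul]
  refine (Real.exp_le_exp.2 (show n * δ ≤ 1 / 2 by linarith)).trans ?_
  have := Real.exp_one_lt_d9
  rw [show (1 : ℝ) = 1 / 2 + 1 / 2 by norm_num, Real.exp_add] at this
  nlinarith [Real.exp_pos (1 / 2)]

theorem num_cut {δ X Y : ℝ} {n r q : ℕ} (δ0 : 0 ≤ δ) (δ3 : δ ≤ 1) (hδ : δ ≤ Real.exp (-Y))
    (hY : X ^ (2 * n + 2) ≤ Y) (hX : 22 ≤ X) (hr : r ≤ n) (q2 : (q : ℝ) ≤ X ^ 2) :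
    ((1 + δ) * 2) ^ 4 * δ * (1 + |√(1 / 2)| * Real.exp X) ^ (8 * q ^ r) ≤ 1 := by
  have X1 : 1 ≤ X := by linarith
  have a1 : ((1 + δ) * 2) ^ 4 ≤ Real.exp 6 := by
    refine (pow_le_pow_left₀ (by positivity) (show (1 + δ) * 2 ≤ 4 by linarith) 4).trans ?_
    rw [show (6 : ℝ) = (6 : ℕ) * 1 by norm_num, Real.exp_nat_mul]
    exact le_trans (by norm_num) (pow_le_pow_left₀ (by norm_num) Real.exp_one_gt_d9.le 6)
  have a2 : 1 + |√(1 / 2)| * Real.exp X ≤ Real.exp (2 * X) := by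
    have : |√(1 / 2 : ℝ)| ≤ 1 := by
      rw [abs_of_nonneg (Real.sqrt_nonneg _)]
      exact Real.sqrt_le_one.2 (by norm_num)
    have h1 := Real.add_one_le_exp X
    have h2 := mul_le_mul_of_nonneg_right this (Real.exp_pos X).le
    rw [two_mul, Real.exp_add]
    nlinarith
  have a3 : ((8 * q ^ r : ℕ) : ℝ) ≤ 8 * X ^ (2 * n) := by
    push_cast
    rw [pow_mul]
    exact mul_le_mul_of_nonneg_left ((pow_le_pow_left₀ (by positivity) q2 _).trans
      (pow_le_pow_right₀ (one_le_pow₀ X1) hr)) (by norm_num)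
  have a5 : 1 ≤ X ^ (2 * n) := one_le_pow₀ X1
  refine (mul_le_mul (mul_le_mul a1 hδ δ0 (by positivity)) (pow_le_pow_left₀ (by positivity) a2 _)
    (by positivity) (by positivity)).trans ?_
  rw [← Real.exp_nat_mul, ← Real.exp_add, ← Real.exp_add, Real.exp_le_one_iff]
  rw [pow_add] at hY
  generalize X ^ (2 * n) = Z at *
  have b1 := mul_le_mul_of_nonneg_right a3 (show 0 ≤ 2 * X by linarith)
  have b2 := mul_le_mul_of_nonneg_left (show 22 * X ≤ X ^ 2 by nlinarith) (show 0 ≤ Z by linarith)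
  have b3 : 1 ≤ Z * X := one_le_mul_of_one_le_of_one_le a5 X1
  linarith

theorem num_sig {X Y : ℝ} {n : ℕ} (hY : X ^ 2 ≤ Y) (hX : 7 * n + 22 ≤ X) :
    Real.exp (-Y) * 4 / (1 / (4 * 13 ^ (n + 1))) ^ 2 ≤ 1 / (10 * 4 ^ (n + 1) * Real.exp X) := by
  have n0 : (0 : ℝ) ≤ n := Nat.cast_nonneg n
  have x0 := Real.exp_pos X
  have a1 : (676 : ℝ) ≤ Real.exp 7 := by
    rw [show (7 : ℝ) = (7 : ℕ) * 1 by norm_num, Real.exp_nat_mul]
    exact le_trans (by norm_num) (pow_le_pow_left₀ (by norm_num) Real.exp_one_gt_d9.le 7)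
  have a2 : (676 : ℝ) ^ (n + 2) * Real.exp X ≤ Real.exp Y := by
    refine (mul_le_mul_of_nonneg_right (pow_le_pow_left₀ (by norm_num) a1 _) x0.le).trans ?_
    rw [← Real.exp_nat_mul, ← Real.exp_add, Real.exp_le_exp]
    push_cast
    nlinarith
  have a3 : (676 : ℝ) ^ (n + 2) = 676 * (4 ^ (n + 1) * (13 ^ (n + 1)) ^ 2) := by
    rw [← pow_mul, mul_comm (n + 1) 2, pow_mul, ← mul_pow, pow_succ' _ (n + 1)]
    norm_num
  rw [a3] at a2
  rw [Real.exp_neg, div_le_div_iff₀ (by positivity) (by positivity)]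
  field_simp
  nlinarith [show 0 ≤ 4 ^ (n + 1) * (13 ^ (n + 1)) ^ 2 * Real.exp X by positivity]

variable {C N V : Type} [Fintype C] [DecidableEq C] [Fintype N] [DecidableEq N] [Fintype V]
  [DecidableEq V] {ν : Finset C → Vw C V → ℝ} {v0 : V} {δ : ℝ}

theorem tail_ind {Nq : Finset N} {o : N} {K η d σ : ℝ} {n m : ℕ}
    (H : Rh ν v0 δ Nq o K (1 + η) ((1 + η) ^ 2) (√(1 / 2))) {z : C} {f : C → Vw C V → ℝ}
    (hf : ∀ i u, 0 ≤ f i u ∧ f i u ≤ K) (hS : ∀ i, i ≠ z → SG ν v0 Nq i (f i) (1 + η))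
    (hn : Fintype.card C ≤ n) (hq : Nq.card = 2 * m) (η0 : 0 < η) (d0 : 0 < d)
    (d1 : d * 13 ^ n = 1 / 4) (σ0 : 0 ≤ σ)
    (hη : (((1 + η) ^ 2) ^ n * (1 + (1 + η) ^ 2 / 2)) ^ 2 * (1 + η) ≤ 9 / 4 + d / 2)
    (hσ : 3 * 2 ^ n * (2 * m + 1) ≤ σ * (1 + η) ^ m)
    (h0 : ∀ I : Finset C, z ∉ I → I.card ≤ 1 →
      ∑ x with mg ν v0 o z I f x < 1 - d * 13 ^ I.card, wt ν v0 (rect (one o)) z x ≤ σ)
    (I : Finset C) : z ∉ I →
      ∑ x with mg ν v0 o z I f x < 1 - d * 13 ^ I.card, wt ν v0 (rect (one o)) z x ≤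
        4 ^ I.card * σ := by
  have d2 : ∀ t ≤ n, d * 13 ^ t ≤ 1 / 4 := fun t ht =>
    d1 ▸ mul_le_mul_of_nonneg_left (pow_le_pow_right₀ (by norm_num) ht) d0.le
  have w0 := wt_nonneg (v0 := v0) H.hν (rect (one o)) z
  induction I using Finset.strongInduction with
  | H I ih =>
  intro hz
  by_cases c : I.card ≤ 1
  · exact (h0 I hz c).trans (le_mul_of_one_le_left σ0 (one_le_pow₀ (by norm_num)))
  obtain ⟨a, ha, b, hb, hab⟩ := one_lt_card.1 (not_le.1 c)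
  obtain ⟨t, ht⟩ : ∃ t, I.card = t + 2 := ⟨I.card - 2, by omega⟩
  have t1 : t + 2 ≤ n := ht ▸ (card_le_univ I).trans hn
  have hb' : b ∈ I.erase a := mem_erase.2 ⟨hab.symm, hb⟩
  have i1 := ih _ (erase_ssubset ha) fun k => hz (mem_of_mem_erase k)
  have i2 := ih _ (erase_ssubset hb) fun k => hz (mem_of_mem_erase k)
  have i3 := ih _ ((erase_ssubset hb').trans (erase_ssubset ha))
    fun k => hz (mem_of_mem_erase (mem_of_mem_erase k))
  rw [card_erase_of_mem ha, ht] at i1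
  rw [card_erase_of_mem hb, ht] at i2
  rw [card_erase_of_mem hb', card_erase_of_mem ha, ht] at i3
  simp only [Nat.add_one_sub_one] at i1 i2 i3
  have p0 : (1 : ℝ) ≤ 13 ^ t := one_le_pow₀ (by norm_num)
  have p1 := mul_le_mul_of_nonneg_left p0 d0.le
  have i4 := pair H hf hS hz ha hb hab (η := d * 13 ^ (t + 1)) (t := d * 13 ^ (t + 2))
    (by positivity) (d2 _ (by omega)) (by positivity) (by linarith [d2 _ t1])
  generalize hA : (univ.filter fun x => 1 - d * 13 ^ (t + 1) ≤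
      mg ν v0 o z ((I.erase a).erase b) f x ∧ 1 - d * 13 ^ (t + 1) ≤ mg ν v0 o z (I.erase a) f x ∧
      1 - d * 13 ^ (t + 1) ≤ mg ν v0 o z (I.erase b) f x ∧
      mg ν v0 o z I f x ≤ 1 - d * 13 ^ (t + 2)) = A at i4
  have A0 : 0 ≤ ∑ x ∈ A, wt ν v0 (rect (one o)) z x := sum_nonneg fun x _ => w0 x
  have i5 : ∑ x ∈ A, wt ν v0 (rect (one o)) z x ≤ σ := by
    obtain ⟨ρ, hρ⟩ : ∃ ρ, ρ = (((1 + η) ^ 2) ^ n * (1 + (1 + η) ^ 2 / 2)) ^ 2 := ⟨_, rfl⟩
    have ρ0 : 0 < ρ := by rw [hρ]; positivity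
    have e1 : (1 : ℝ) ≤ (1 + η) ^ 2 := one_le_pow₀ (by linarith)
    have a0 : 3 * 2 ^ Fintype.card C * ((Nq.card : ℝ) + 1) *
        ((1 + η) ^ 2) ^ (Fintype.card C * Nq.card) * (1 + (1 + η) ^ 2 / 2) ^ Nq.card ≤
        σ * (1 + η) ^ m * ρ ^ m := by
      rw [hρ, ← pow_mul (_ * _) 2 m, mul_pow (_ ^ n), hq, mul_assoc]
      refine mul_le_mul (le_trans ?_ hσ) ?_ (by positivity) (by positivity)
      · push_cast
        gcongr
        norm_num
      · rw [← pow_mul ((1 + η) ^ 2)]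
        exact mul_le_mul_of_nonneg_right (pow_le_pow_right₀ e1 (Nat.mul_le_mul_right _ hn))
          (by positivity)
    rw [← hρ] at hη
    have a1 : (ρ * (1 + η)) ^ m ≤
        (9 / 4 + d * 13 ^ (t + 2) / 2 - 6 * (d * 13 ^ (t + 1))) ^ m := by
      refine pow_le_pow_left₀ (by positivity) (hη.trans ?_) _
      rw [pow_succ, pow_succ]
      linarith
    rw [show Nq.card / 2 = m by omega] at i4
    have a2 := ((mul_le_mul_of_nonneg_left a1 A0).trans i4).trans a0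
    rw [mul_pow, mul_comm (ρ ^ m), ← mul_assoc] at a2
    exact le_of_mul_le_mul_right (le_of_mul_le_mul_right a2 (by positivity)) (by positivity)
  have i6 : ∑ x with mg ν v0 o z I f x < 1 - d * 13 ^ (t + 2), wt ν v0 (rect (one o)) z x ≤
      ∑ x with mg ν v0 o z (I.erase a) f x < 1 - d * 13 ^ (t + 1), wt ν v0 (rect (one o)) z x +
      ∑ x with mg ν v0 o z (I.erase b) f x < 1 - d * 13 ^ (t + 1), wt ν v0 (rect (one o)) z x +
      ∑ x with mg ν v0 o z ((I.erase a).erase b) f x < 1 - d * 13 ^ t, wt ν v0 (rect (one o)) z x +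
      ∑ x ∈ A, wt ν v0 (rect (one o)) z x := by
    rw [← hA]
    simp only [sum_filter, ← sum_add_distrib]
    refine sum_le_sum fun x _ => ?_
    have := w0 x
    by_cases o1 : mg ν v0 o z (I.erase a) f x < 1 - d * 13 ^ (t + 1)
    · split_ifs <;> linarith
    by_cases o2 : mg ν v0 o z (I.erase b) f x < 1 - d * 13 ^ (t + 1)
    · split_ifs <;> linarith
    by_cases o3 : mg ν v0 o z ((I.erase a).erase b) f x < 1 - d * 13 ^ t
    · split_ifs <;> linarith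
    by_cases o4 : mg ν v0 o z I f x < 1 - d * 13 ^ (t + 2)
    · have o5 : 1 - d * 13 ^ (t + 1) ≤ mg ν v0 o z ((I.erase a).erase b) f x := by
        rw [pow_succ]
        linarith [not_lt.1 o3]
      rw [if_pos o4, if_neg o1, if_neg o2, if_neg o3, if_pos ⟨o5, not_lt.1 o1, not_lt.1 o2, o4.le⟩]
      simp
    · split_ifs <;> linarith
  have p2 := mul_le_mul_of_nonneg_right (one_le_pow₀ (n := t) (show (1 : ℝ) ≤ 4 by norm_num)) σ0
  rw [ht]
  rw [pow_succ (4 : ℝ)] at i1 i2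
  rw [pow_succ (4 : ℝ), pow_succ (4 : ℝ)]
  linarith

theorem la_mg (ν : Finset C → Vw C V → ℝ) (v0 : V) (o : N) {z : C} {I : Finset C} (hz : z ∉ I)
    (f : C → Vw C V → ℝ) (s : Finset N) : La ν v0 (rect (update (one o) z s)) (Pn I f) =
      ∑ x, wt ν v0 (rect (one o)) z x * mg ν v0 o z I f x ^ s.card := by
  have rf := rect_fm (A := update (one o) z s) (A' := one o) (i := z) fun j hj => by
    rw [update_of_ne hj]
  rw [la_fac_on _ _ _ (i := z) s fun φ l k k' => by simpa using k z l k']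
  refine sum_congr rfl fun x _ => ?_
  rw [← prod_const]
  congr 1
  · refine fr_congr _ _ rf (fun ψ _ => funext fun u => ?_) x
    exact prod_eq_one fun j hj => if_neg (erase_ne (by rintro rfl; exact hz hj) ψ.2)
  · refine prod_congr rfl fun l hl => bs_congr _ _ (fun ψ => by simp [rect_upd, rf, hl, one])
      (fun ψ _ => funext fun u => ?_) x
    simp [Pn, sp_upd]

/-- the lower tail of a marginal from two moments -/
theorem marg_tail (hν : ∀ S u, 0 ≤ ν S u) (hL : LFC N ν v0 δ) {o o' : N} (hoo : o ≠ o') {z : C}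
    {I : Finset C} (hz : z ∉ I) (f : C → Vw C V → ℝ) {θ γ t : ℝ} (hθ : 0 ≤ θ) (ht : 0 < t)
    (h1 : θ - γ ≤ La ν v0 (rect (one o)) (Pn I f))
    (h2 : La ν v0 (rect (update (one o) z {o, o'})) (Pn I f) ≤ θ ^ 2 + γ) :
    ∑ x with mg ν v0 o z I f x < θ - t, wt ν v0 (rect (one o)) z x ≤
      (γ + 2 * θ * γ + θ ^ 2 * δ) / t ^ 2 := by
  have e : (one o : C → Finset N) = update (one o) z {o} := (update_eq_self z _).symm
  rw [e, la_mg _ _ _ hz, card_singleton] at h1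
  rw [la_mg _ _ _ hz, card_pair hoo] at h2
  have h3 := hL.wt_le (dc_rect (one o)) z
  have w0 := wt_nonneg (v0 := v0) hν (rect (one o)) z
  have h4 : ∑ x, wt ν v0 (rect (one o)) z x * (mg ν v0 o z I f x - θ) ^ 2 ≤
      γ + 2 * θ * γ + θ ^ 2 * δ := by
    have : ∀ x, wt ν v0 (rect (one o)) z x * (mg ν v0 o z I f x - θ) ^ 2 =
        wt ν v0 (rect (one o)) z x * mg ν v0 o z I f x ^ 2 -
        2 * θ * (wt ν v0 (rect (one o)) z x * mg ν v0 o z I f x ^ 1) +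
        θ ^ 2 * wt ν v0 (rect (one o)) z x := fun x => by ring
    simp only [this, sum_add_distrib, sum_sub_distrib, ← mul_sum]
    nlinarith [mul_le_mul_of_nonneg_left h1 hθ, mul_le_mul_of_nonneg_left h3 (sq_nonneg θ)]
  rw [le_div_iff₀ (by positivity), sum_mul]
  refine le_trans ((sum_le_sum fun x hx => ?_).trans (sum_le_sum_of_subset_of_nonneg
    (filter_subset _ _) fun x _ _ => mul_nonneg (w0 x) (sq_nonneg _))) h4
  refine mul_le_mul_of_nonneg_left ?_ (w0 x)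
  have := (mem_filter.1 hx).2
  nlinarith

theorem hga_core {Nq : Finset N} {o : N} {K η σ : ℝ} {z : C} {f : C → Vw C V → ℝ}
    (hν : ∀ S u, 0 ≤ ν S u) (hf : ∀ i u, 0 ≤ f i u ∧ f i u ≤ K) (hK : 1 ≤ K) (η1 : η ≤ 1 / 10)
    (hσ : K * σ ≤ 1 / 10)
    (h0 : ∑ x with mg ν v0 o z (univ.erase z) f x < 3 / 4, wt ν v0 (rect (one o)) z x ≤ σ)
    (h1 : 1 - η ≤ La ν v0 (rect (update (one o) z ∅)) (Pn {z} f)) :
    1 / 2 < La ν v0 (rect (one o)) (Pn univ f) := by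
  obtain ⟨F, hF⟩ : ∃ F, F = fr z (fam ν v0 (rect (one o)) (Pn {z} f)) := ⟨_, rfl⟩
  have p0 := pn_nonneg (N := N) (Pl := {z}) fun i u => (hf i u).1
  have F0 : ∀ x, 0 ≤ F x := fun x => hF ▸ fr_nonneg z (fam_nonneg hν _ p0) x
  have F1 : ∀ x, F x ≤ K * wt ν v0 (rect (one o)) z x := fun x => by
    have c := card_fs_le (Nq := {o}) (mem_singleton_self o) (A := one o) (fun _ => subset_rfl) z
    rw [card_singleton, one_pow] at c
    rw [hF]
    refine (fr_le hν _ (fs (one o) z) hK p0 (fun φ u k => ?_) z x).trans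
      (mul_le_mul_of_nonneg_right ((pow_le_pow_right₀ hK c).trans_eq (pow_one K))
        (wt_nonneg hν _ z x))
    simp only [Pn, prod_singleton, mem_fs, k, true_and]
    split_ifs
    exacts [(hf _ _).2, le_rfl]
  rw [la_congr ν v0 (rect_empty _ z) (fun _ _ => rfl), ← sum_fr, ← hF] at h1
  have e : La ν v0 (rect (one o)) (Pn univ f) = ∑ x, F x * mg ν v0 o z (univ.erase z) f x := by
    rw [la_fac_on _ _ _ (i := z) {o} fun φ l k k' => k z l k']
    refine sum_congr rfl fun x _ => ?_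
    rw [prod_singleton, hF]
    congr 1
    · refine fr_congr _ _ (fun _ => Iff.rfl) (fun ψ _ => funext fun u => ?_) x
      rw [Pn, Pn, prod_singleton, Fintype.prod_eq_single z fun j hj => if_neg (erase_ne hj.symm ψ.2)]
    · refine bs_congr _ _ (fun _ => Iff.rfl) (fun ψ _ => funext fun u => ?_) x
      rw [Pn, Pn, ← mul_prod_erase _ _ (mem_univ z), if_neg (erase_ne' (by simp)), one_mul]
  have pt : ∀ x, 3 / 4 * F x - 3 / 4 * K * (if mg ν v0 o z (univ.erase z) f x < 3 / 4 then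
      wt ν v0 (rect (one o)) z x else 0) ≤ F x * mg ν v0 o z (univ.erase z) f x := fun x => by
    have m0 : 0 ≤ mg ν v0 o z (univ.erase z) f x :=
      bs_nonneg z (fun _ _ => fam_nonneg hν _ (pn_nonneg fun i u => (hf i u).1) _ _) x
    split_ifs with k
    · nlinarith [mul_nonneg (F0 x) m0, F1 x]
    · nlinarith [mul_le_mul_of_nonneg_left (not_lt.1 k) (F0 x)]
  have k1 := sum_le_sum (s := univ) fun x _ => pt x
  rw [sum_sub_distrib, ← mul_sum, ← mul_sum, ← sum_filter, ← e] at k1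
  nlinarith [mul_le_mul_of_nonneg_left h0 (show 0 ≤ K by linarith)]

end

/-- the relative hypergraph step -/
theorem hga (n : ℕ) : ∃ η : ℝ, 0 < η ∧ η ≤ 1 / 10 ∧ ∃ c : ℕ, ∀ X : ℝ, (c : ℝ) ≤ X →
    ∃ q : ℕ, 2 ≤ q ∧ (q : ℝ) ≤ X ^ c ∧ ∀ (C N V : Type) [Fintype C] [DecidableEq C] [Fintype N]
      [DecidableEq N] [Fintype V] [DecidableEq V] (ν : Finset C → Vw C V → ℝ) (v0 : V) (δ : ℝ)
      (Nq : Finset N) (o : N) (z : C) (f : C → Vw C V → ℝ), Fintype.card C ≤ n →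
      (∀ S u, 0 ≤ ν S u) → LFC N ν v0 δ → δ ≤ Real.exp (-X ^ c) → Nq.card = q → o ∈ Nq →
      (∀ i u, 0 ≤ f i u ∧ f i u ≤ Real.exp X) →
      (∀ i, i ≠ z → ∑ x with mg ν v0 o z {i} f x < 1 - η, wt ν v0 (rect (one o)) z x ≤
        Real.exp (-X ^ c)) →
      1 - η ≤ La ν v0 (rect (update (one o) z ∅)) (Pn {z} f) →
      La ν v0 (rect (one o)) (Pn univ f) ≤ 1 / 2 →
      ∃ i, i ≠ z ∧ (1 + η) ^ (q ^ (Fintype.card C - 1)) ≤
        gr ν v0 (update (fun _ => Nq) i ∅) (univ.erase i) o (fun _ => f i) := by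
  classical
  obtain ⟨d, hd⟩ : ∃ d : ℝ, d = 1 / (4 * 13 ^ (n + 1)) := ⟨_, rfl⟩
  have d0 : 0 < d := by rw [hd]; positivity
  have d1 : d * 13 ^ (n + 1) = 1 / 4 := by rw [hd]; field_simp
  have d2 : d * 13 ≤ 1 / 4 := d1 ▸ mul_le_mul_of_nonneg_left (le_self_pow₀ (by norm_num) (by omega)) d0.le
  obtain ⟨η, η0, η1, hη⟩ := exists_eta (n + 1) d0
  obtain ⟨m, m1, hm⟩ := exists_m η0 (D := 90 * 8 ^ (n + 1)) (by positivity)
  refine ⟨η, η0, by linarith, 4 * m + 7 * n + 22, fun X hX => ?_⟩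
  have m0 : (1 : ℝ) ≤ m := by exact_mod_cast m1
  have n0 : (0 : ℝ) ≤ n := Nat.cast_nonneg n
  push_cast at hX
  have X1 : 1 ≤ X := by linarith
  obtain ⟨k, k1, k2, k3⟩ : ∃ k : ℕ, 1 ≤ k ∧ X ≤ k ∧ (k : ℝ) ≤ 2 * X :=
    ⟨⌈X⌉₊, Nat.ceil_pos.2 (by linarith), Nat.le_ceil X,
      by linarith [Nat.ceil_lt_add_one (show 0 ≤ X by linarith)]⟩
  have key := num_key m0 k1 k2 hm
  have q2 : ((2 * (m * k) : ℕ) : ℝ) ≤ X ^ 2 := by push_cast; nlinarith
  have mk1 : 1 ≤ m * k := Nat.mul_pos m1 k1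
  refine ⟨2 * (m * k), by omega, q2.trans (pow_le_pow_right₀ X1 (by omega)), ?_⟩
  intro C N V _ _ _ _ _ _ ν v0 δ Nq o z f hn hν hL hδ hq ho hf h1 h2 h3
  by_contra hc
  have x0 := Real.exp_pos X
  have x1 : 1 ≤ Real.exp X := Real.one_le_exp (by linarith)
  have δ0 := hL.nonneg
  have s2 : X ^ 2 ≤ X ^ (4 * m + 7 * n + 22) := pow_le_pow_right₀ X1 (by omega)
  obtain ⟨δ3, δ4⟩ := num_two (X := X) δ0 hδ (le_self_pow₀ X1 (by omega)) (by linarith) hn
  have H : Rh ν v0 δ Nq o (Real.exp X) (1 + η) ((1 + η) ^ 2) (√(1 / 2)) := by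
    refine ⟨hν, hL, ho, hq ▸ even_two_mul _, by linarith, x1, by positivity, ?_, ?_⟩
    · rw [hq, sq, mul_pow]
      refine mul_le_mul_of_nonneg_left (le_trans (le_trans ?_ key)
        (pow_le_pow_right₀ (by linarith) (by omega))) (by positivity)
      have a1 : (1 : ℝ) ≤ 8 ^ (n + 1) := one_le_pow₀ (by norm_num)
      have a2 : (0 : ℝ) ≤ (m * k : ℕ) := Nat.cast_nonneg _
      nlinarith [mul_nonneg a2 (show 0 ≤ 30 * 8 ^ (n + 1) * Real.exp X by positivity)]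
    · exact num_cut δ0 δ3 hδ (pow_le_pow_right₀ X1 (by omega)) (by linarith) hn (hq ▸ q2)
  have hS : ∀ i, i ≠ z → SG ν v0 Nq i (f i) (1 + η) := fun i hi =>
    sg_of_grid hν hL δ4 o (fun u => (hf i u).1) (by linarith)
      (by rw [hq]; exact (not_le.1 fun k => hc ⟨i, hi, k⟩).le)
  obtain ⟨σ, hσ⟩ : ∃ σ : ℝ, σ = 1 / (10 * 4 ^ (n + 1) * Real.exp X) := ⟨_, rfl⟩
  have σ0 : 0 < σ := by rw [hσ]; positivity
  have σ1 : Real.exp (-X ^ (4 * m + 7 * n + 22)) * 4 / d ^ 2 ≤ σ := by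
    rw [hσ, hd]
    exact num_sig s2 (by linarith)
  have σ2 : Real.exp (-X ^ (4 * m + 7 * n + 22)) ≤ σ := by
    refine le_trans ?_ σ1
    rw [le_div_iff₀ (by positivity)]
    exact mul_le_mul_of_nonneg_left (by nlinarith) (Real.exp_pos _).le
  obtain ⟨o', -, hoo⟩ := exists_mem_ne (show 1 < Nq.card by omega) o
  have w0 := wt_nonneg (v0 := v0) hν (rect (one o)) z
  have tl := tail_ind (m := m * k) (n := n + 1) H hf hS (hn.trans (Nat.le_succ n)) hq η0 d0 d1 σ0.le hη (by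
    rw [hσ, one_div, inv_mul_eq_div, le_div_iff₀ (by positivity)]
    refine le_trans (le_of_eq ?_) key
    rw [show (8 : ℝ) = 2 * 4 by norm_num, mul_pow]
    ring) (fun I hI c => by
    rcases c.eq_or_lt with c | c
    · obtain ⟨a, rfl⟩ := card_eq_one.1 c
      refine le_trans (sum_le_sum_of_subset_of_nonneg (fun x hx => ?_) fun x _ _ => w0 x)
        ((h1 a fun e => hI (by simp [e])).trans σ2)
      simp only [mem_filter, mem_univ, true_and, card_singleton, pow_one] at hx ⊢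
      linarith
    · obtain rfl : I = ∅ := card_eq_zero.1 (by omega)
      have e : Pn (N := N) ∅ f = fun _ _ => 1 := funext fun _ => funext fun _ => prod_empty
      have := marg_tail hν hL hoo.symm hI f (θ := 1) (γ := δ) (t := d) zero_le_one d0
        (by rw [e]; linarith [(abs_le.1 (hL _ (dc_rect (one o)))).1])
        (by rw [e, one_pow]; exact hL.le (dc_rect _))
      rw [card_empty, pow_zero, mul_one]
      refine this.trans (le_trans (div_le_div_of_nonneg_right ?_ (by positivity)) σ1)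
      linarith) (univ.erase z) (by simp)
  have cz : (univ.erase z).card ≤ n + 1 := (card_le_univ _).trans (hn.trans (Nat.le_succ n))
  refine absurd h3 (not_le.2 (hga_core (Nq := Nq) hν hf x1 (η := η) (σ := 4 ^ (n + 1) * σ)
    (by linarith) (by rw [hσ]; field_simp; rfl) (le_trans (sum_le_sum_of_subset_of_nonneg
      (fun x hx => ?_) fun x _ _ => w0 x) (tl.trans (by gcongr; norm_num))) h2))
  simp only [mem_filter, mem_univ, true_and] at hx ⊢
  have := mul_le_mul_of_nonneg_left (pow_le_pow_right₀ (show (1 : ℝ) ≤ 13 by norm_num) cz) d0.le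
  linarith

end Vale.Agent.P057RH
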