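import Vale.Agent.P057RH.Hga

/-! The statements for infinite sets of values, by truncation. -/

set_option linter.all false

open Finset Function Filter Topology
open scoped BigOperators

namespace Vale.Agent.P057RH

noncomputable section

open Classical

variable {C N V : Type} [Fintype C] [DecidableEq C] [Fintype N] [DecidableEq N] [DecidableEq V]

/-- the product of the local factors -/
def tm {R : Type} [CommSemiring R] (ν : Finset C → Vw C V → R) (v0 : V) (K : Fc C N → Prop)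
    (h : Fc C N → Vw C V → R) (a : Fc C N → V) : R := ∏ φ, fam ν v0 K h φ (vw a φ)

/-- the weighted sum over the complex K for an infinite set of values -/
def Lt {R : Type} [CommSemiring R] [TopologicalSpace R] (ν : Finset C → Vw C V → R) (v0 : V)
    (K : Fc C N → Prop) (h : Fc C N → Vw C V → R) : R := ∑' a, tm ν v0 K h a

/-- all complexes have mass close to one -/
def LFt (N : Type) [Fintype N] [DecidableEq N] (ν : Finset C → Vw C V → ℝ) (v0 : V) (δ : ℝ) : Prop :=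
  ∀ K : Fc C N → Prop, DC K → Summable (tm ν v0 K fun _ _ => 1) ∧
    |Lt ν v0 K (fun _ _ => 1) - 1| ≤ δ

/-- the grid sum -/
def gt {R : Type} [CommSemiring R] [TopologicalSpace R] (ν : Finset C → Vw C V → R) (v0 : V)
    (A : C → Finset N) (S : Finset C) (o : N) (F : (C → N) → Vw C V → R) : R :=
  Lt ν v0 (rect A) (cel S o F)

/-- truncation of a family of local functions -/
def tr {α R : Type} (v0 : V) (s : Finset V) (g : α → Vw C V → R) (x : α)
    (u : Vw C (insert v0 s : Finset V)) : R := g x fun T => (u T : V)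

/-- the default value in the truncation -/
def t0 (v0 : V) (s : Finset V) : (insert v0 s : Finset V) := ⟨v0, mem_insert_self _ _⟩

theorem la_tr {R : Type} [CommSemiring R] (ν : Finset C → Vw C V → R) (v0 : V) (K : Fc C N → Prop)
    (h : Fc C N → Vw C V → R) (s : Finset V) :
    La (tr v0 s ν) (t0 v0 s) K (tr v0 s h) =
      ∑ a ∈ Fintype.piFinset fun _ : Fc C N => insert v0 s, tm ν v0 K h a := by
  unfold La Lam
  refine sum_bij' (fun a _ φ => (a φ : V))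
    (fun a k φ => ⟨a φ, Fintype.mem_piFinset.1 k φ⟩) (fun a _ => ?_) (fun _ _ => mem_univ _)
    (fun _ _ => rfl) (fun _ _ => rfl) fun a _ => prod_congr rfl fun φ _ => ?_
  · exact Fintype.mem_piFinset.2 fun φ => (a φ).2
  · simp only [fam, tr, dl, vw, t0, Subtype.ext_iff]
    rfl

theorem tend_pi (v0 : V) : Tendsto (fun s : Finset V => Fintype.piFinset fun _ : Fc C N => insert v0 s)
    atTop atTop := by
  refine tendsto_atTop.2 fun t => (eventually_ge_atTop (t.biUnion fun a => univ.image a)).mono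
    fun s hs a ha => Fintype.mem_piFinset.2 fun φ => mem_insert_of_mem (hs ?_)
  exact mem_biUnion.2 ⟨a, ha, mem_image_of_mem _ (mem_univ φ)⟩

theorem tend_la {R : Type} [CommSemiring R] [TopologicalSpace R] {ν : Finset C → Vw C V → R}
    {v0 : V} {K : Fc C N → Prop} {h : Fc C N → Vw C V → R} (hs : Summable (tm ν v0 K h)) :
    Tendsto (fun s => La (tr v0 s ν) (t0 v0 s) K (tr v0 s h)) atTop (𝓝 (Lt ν v0 K h)) := by
  simp only [la_tr]
  exact hs.hasSum.comp (tend_pi v0)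

variable {ν : Finset C → Vw C V → ℝ} {v0 : V} {δ : ℝ}

theorem tm_nonneg (hν : ∀ S u, 0 ≤ ν S u) (K : Fc C N → Prop) {h : Fc C N → Vw C V → ℝ}
    (hh : ∀ φ u, 0 ≤ h φ u) (a : Fc C N → V) : 0 ≤ tm ν v0 K h a :=
  prod_nonneg fun φ _ => by
    unfold fam dl
    split_ifs
    exacts [mul_nonneg (hν _ _) (hh _ _), zero_le_one, le_rfl]

theorem la_tr_le (hν : ∀ S u, 0 ≤ ν S u) {K : Fc C N → Prop} {h : Fc C N → Vw C V → ℝ}
    (hh : ∀ φ u, 0 ≤ h φ u) (hs : Summable (tm ν v0 K h)) (s : Finset V) :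
    La (tr v0 s ν) (t0 v0 s) K (tr v0 s h) ≤ Lt ν v0 K h := by
  rw [la_tr]
  exact hs.sum_le_tsum _ fun a _ => tm_nonneg hν K hh a

theorem norm_tm_le {𝕜 : Type} [RCLike 𝕜] (hν : ∀ S u, 0 ≤ ν S u) (K : Fc C N → Prop)
    {h : Fc C N → Vw C V → 𝕜} {M : ℝ} (hM : 1 ≤ M) (hh : ∀ φ u, ‖h φ u‖ ≤ M) (a : Fc C N → V) :
    ‖tm (fun S u => (ν S u : 𝕜)) v0 K h a‖ ≤
      M ^ Fintype.card (Fc C N) * tm ν v0 K (fun _ _ => 1) a := by
  rw [tm, tm, norm_prod, ← card_univ, ← prod_const, ← prod_mul_distrib]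
  refine prod_le_prod (fun _ _ => norm_nonneg _) fun φ _ => ?_
  unfold fam dl
  split_ifs
  · rw [norm_mul, RCLike.norm_ofReal, abs_of_nonneg (hν _ _), mul_one, mul_comm]
    exact mul_le_mul_of_nonneg_right (hh _ _) (hν _ _)
  · simpa using hM
  · simp

theorem LFt.summable (hν : ∀ S u, 0 ≤ ν S u) (hL : LFt N ν v0 δ) {K : Fc C N → Prop} (hK : DC K)
    {h : Fc C N → Vw C V → ℝ} {M : ℝ} (hh : ∀ φ u, |h φ u| ≤ M) : Summable (tm ν v0 K h) :=
  Summable.of_norm_bounded ((hL K hK).1.mul_left ((max M 1) ^ Fintype.card (Fc C N))) fun a =>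
    norm_tm_le (𝕜 := ℝ) hν K (le_max_right M 1) (fun φ u => (hh φ u).trans (le_max_left _ _)) a

theorem LFt.summable_cx (hν : ∀ S u, 0 ≤ ν S u) (hL : LFt N ν v0 δ) {K : Fc C N → Prop} (hK : DC K)
    {h : Fc C N → Vw C V → ℂ} {M : ℝ} (hh : ∀ φ u, ‖h φ u‖ ≤ M) : Summable (tm (cx ν) v0 K h) :=
  Summable.of_norm_bounded ((hL K hK).1.mul_left ((max M 1) ^ Fintype.card (Fc C N))) fun a =>
    norm_tm_le (𝕜 := ℂ) hν K (le_max_right M 1) (fun φ u => (hh φ u).trans (le_max_left _ _)) a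

theorem LFt.ev (hL : LFt N ν v0 δ) {δ' : ℝ} (h : δ < δ') :
    ∀ᶠ s in atTop, LFC N (tr v0 s ν) (t0 v0 s) δ' := by
  refine (eventually_all.2 fun K => ?_ : ∀ᶠ s : Finset V in atTop, ∀ K : Fc C N → Prop, _)
  by_cases hK : DC K
  · have := ((tend_la (hL K hK).1).sub_const 1).abs.eventually_lt_const ((hL K hK).2.trans_lt h)
    exact this.mono fun s k _ => k.le
  · exact Eventually.of_forall fun s k => absurd k hK

theorem cel_tr {R : Type} [CommSemiring R] (S : Finset C) (o : N) (F : (C → N) → Vw C V → R)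
    (s : Finset V) : cel S o (tr v0 s F) = tr v0 s (cel S o F) := rfl

theorem pn_tr (I : Finset C) (f : C → Vw C V → ℝ) (s : Finset V) :
    (Pn I (tr v0 s f) : Fc C N → _) = tr v0 s (Pn I f) := rfl

theorem abs_cel {S : Finset C} {o : N} {F : (C → N) → Vw C V → ℝ} {M : ℝ}
    (hF : ∀ c u, 0 ≤ F c u ∧ F c u ≤ M) (φ : Fc C N) (u : Vw C V) : |cel S o F φ u| ≤ max M 1 := by
  unfold cel
  split_ifs
  · rw [abs_of_nonneg (hF _ _).1]
    exact (hF _ _).2.trans (le_max_left _ _)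
  · simp

theorem tend_gr (hν : ∀ S u, 0 ≤ ν S u) (hL : LFt N ν v0 δ) (A : C → Finset N) (S : Finset C) (o : N)
    {F : (C → N) → Vw C V → ℝ} {M : ℝ} (hF : ∀ c u, 0 ≤ F c u ∧ F c u ≤ M) :
    Tendsto (fun s => gr (tr v0 s ν) (t0 v0 s) A S o (tr v0 s F)) atTop (𝓝 (gt ν v0 A S o F)) :=
  tend_la (h := cel S o F) (hL.summable hν (dc_rect A) (abs_cel hF))

/-- the Hoelder inequality for grids -/
theorem gh_t (hν : ∀ S u, 0 ≤ ν S u) (hL : LFt N ν v0 δ) (A : C → Finset N) {S : Finset C} (o : N)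
    {F : (C → N) → Vw C V → ℝ} {M : ℝ} (hF : ∀ c u, 0 ≤ F c u ∧ F c u ≤ M)
    (hA : ∀ i ∈ S, (A i).Nonempty) :
    gt ν v0 A S o F ^ (cells A S o).card ≤ ∏ t ∈ cells A S o, gt ν v0 A S o (fun _ => F t) :=
  le_of_tendsto_of_tendsto' ((tend_gr hν hL A S o hF).pow _)
    (tendsto_finset_prod _ fun t _ => tend_gr hν hL A S o (F := fun _ => F t) fun _ => hF t)
    fun s => gh (fun _ _ => hν _ _) A o (F := tr v0 s F) (fun _ _ => (hF _ _).1) hA

/-- more copies -/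
theorem mono_t (hν : ∀ S u, 0 ≤ ν S u) (hL : LFt N ν v0 δ) {δ' : ℝ} (hδ : δ < δ')
    {A' : C → Finset N} {S : Finset C} (o : N) {f : Vw C V → ℝ} {M : ℝ}
    (hf : ∀ u, 0 ≤ f u ∧ f u ≤ M) {c κ : ℝ} (hc : 1 ≤ c) (hκ : 0 ≤ κ)
    (h0 : ∀ i ∈ S, (A' i).card ≠ 0) (hA : gt ν v0 A' S o (fun _ => f) ≤ c * κ ^ (cells A' S o).card)
    (A : C → Finset N) (h1 : ∀ j, j ∉ S → A j = A' j) (h2 : ∀ i ∈ S, (A i).card ≤ (A' i).card) :
    gt ν v0 A S o (fun _ => f) ≤ (1 + δ') ^ S.card * c * κ ^ (cells A S o).card := by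
  refine le_of_tendsto (tend_gr hν hL A S o (F := fun _ => f) fun _ => hf) ((hL.ev hδ).mono
    fun s k => mono (fun _ _ => hν _ _) k o (f := fun u => f fun T => (u T : V))
      (fun u => (hf _).1) hc hκ h0 (le_trans ?_ hA) S subset_rfl A h1 h2)
  exact la_tr_le hν (h := cel S o fun _ => f)
    (fun φ u => by unfold cel; split_ifs; exacts [(hf _).1, zero_le_one])
    (hL.summable hν (dc_rect A') (abs_cel fun _ => hf)) s

/-- removal of the faces above T -/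
theorem cut_t (hν : ∀ S u, 0 ≤ ν S u) (hL : LFt N ν v0 δ) {δ' : ℝ} (hδ : δ < δ') {o o' : N}
    (hoo : o ≠ o') (T : Finset C) {K K' : Fc C N → Prop} (hK : DC K) (hK' : DC K')
    (hT : ∀ φ, ¬ T ⊆ sp φ → (K φ ↔ K' φ))
    (ho : ∀ φ l, ∀ i ∈ T, K φ ∨ K' φ → φ i = some l → l = o) {h : Fc C N → Vw C V → ℂ}
    (hh : ∀ φ u, ‖h φ u‖ ≤ 1) (h1 : ∀ φ u, T ⊆ sp φ → h φ u = 1) :
    ‖Lt (cx ν) v0 K h - Lt (cx ν) v0 K' h‖ ^ (2 ^ T.card) ≤
      ((1 + δ') * 2) ^ (2 ^ T.card) * δ' :=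
  le_of_tendsto (((tend_la (hL.summable_cx hν hK hh)).sub
    (tend_la (hL.summable_cx hν hK' hh))).norm.pow _) ((hL.ev hδ).mono fun s k =>
      cut (fun _ _ => hν _ _) k hoo T hK hK' hT ho (h := tr v0 s h) (fun _ _ => hh _ _)
        fun _ _ k => h1 _ _ k)

theorem abs_pn {I : Finset C} {f : C → Vw C V → ℝ} {M : ℝ} (hM : 1 ≤ M)
    (hf : ∀ i u, 0 ≤ f i u ∧ f i u ≤ M) (φ : Fc C N) (u : Vw C V) : |Pn I f φ u| ≤ M ^ I.card := by
  rw [Pn, abs_prod, ← prod_const]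
  refine prod_le_prod (fun _ _ => abs_nonneg _) fun j _ => ?_
  split_ifs
  · rw [abs_of_nonneg (hf _ _).1]; exact (hf _ _).2
  · simpa using hM

end

/-- the relative hypergraph step, with the marginals controlled by two moments -/
theorem hga_t (n : ℕ) : ∃ η : ℝ, 0 < η ∧ η ≤ 1 / 10 ∧ ∃ c : ℕ, ∀ X : ℝ, (c : ℝ) ≤ X →
    ∃ q : ℕ, 2 ≤ q ∧ (q : ℝ) ≤ X ^ c ∧ ∀ (C N V : Type) [Fintype C] [DecidableEq C] [Fintype N]
      [DecidableEq N] [DecidableEq V] (ν : Finset C → Vw C V → ℝ) (v0 : V) (δ : ℝ)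
      (Nq : Finset N) (o o' : N) (z : C) (f : C → Vw C V → ℝ), Fintype.card C ≤ n →
      (∀ S u, 0 ≤ ν S u) → LFt N ν v0 δ → δ ≤ Real.exp (-X ^ c) → Nq.card = q → o ∈ Nq → o ≠ o' →
      (∀ i u, 0 ≤ f i u ∧ f i u ≤ Real.exp X) →
      (∀ i, i ≠ z → ∃ θ : ℝ, 1 - η / 2 ≤ θ ∧ θ ≤ 2 ∧
        θ - Real.exp (-X ^ c) ≤ Lt ν v0 (rect (one o)) (Pn {i} f) ∧
        Lt ν v0 (rect (update (one o) z {o, o'})) (Pn {i} f) ≤ θ ^ 2 + Real.exp (-X ^ c)) →
      1 - η / 2 ≤ Lt ν v0 (rect (update (one o) z ∅)) (Pn {z} f) →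
      Lt ν v0 (rect (one o)) (Pn univ f) ≤ 1 / 2 →
      ∃ i, i ≠ z ∧ (1 + η) ^ (q ^ (Fintype.card C - 1)) ≤
        gt ν v0 (update (fun _ => Nq) i ∅) (univ.erase i) o (fun _ => f i) := by
  classical
  obtain ⟨η, η0, η1, c, H⟩ := hga n
  obtain ⟨c', hc'⟩ := exists_nat_ge (20 / η ^ 2)
  refine ⟨η, η0, η1, c + c' + 4, fun X hX => ?_⟩
  push_cast at hX
  have c0 : (0 : ℝ) ≤ c := Nat.cast_nonneg c
  have c1 : (0 : ℝ) ≤ c' := Nat.cast_nonneg c'
  have X1 : 1 ≤ X := by linarith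
  obtain ⟨q, q2, hq, H⟩ := H X (by linarith)
  refine ⟨q, q2, hq.trans (pow_le_pow_right₀ X1 (by omega)), ?_⟩
  intro C N V _ _ _ _ _ ν v0 δ Nq o o' z f hn hν hL hδ hNq ho hoo hf h1 h2 h3
  obtain ⟨γ, hγ⟩ : ∃ γ, γ = Real.exp (-X ^ (c + c' + 4)) := ⟨_, rfl⟩
  have γ0 : 0 < γ := hγ ▸ Real.exp_pos _
  rw [← hγ] at hδ h1
  have x1 : 1 ≤ Real.exp X := Real.one_le_exp (by linarith)
  have γ1 : 80 / η ^ 2 * γ ≤ Real.exp (-X ^ c) := by
    have b1 : X ^ (c + 2) ≤ X ^ (c + c' + 4) := pow_le_pow_right₀ X1 (by omega)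
    have b2 : 1 ≤ X ^ c := one_le_pow₀ X1
    have b3 : 80 / η ^ 2 ≤ Real.exp (X ^ 2 - 1) := by
      have := Real.add_one_le_exp (X ^ 2 - 1)
      rw [show 80 / η ^ 2 = 4 * (20 / η ^ 2) by ring]
      nlinarith
    rw [hγ]
    refine (mul_le_mul_of_nonneg_right b3 (Real.exp_pos _).le).trans ?_
    rw [← Real.exp_add, Real.exp_le_exp]
    rw [pow_add] at b1
    nlinarith [mul_le_mul_of_nonneg_right b2 (show 0 ≤ X ^ 2 - 1 by nlinarith)]
  have sm : ∀ (A : C → Finset N) (I : Finset C), Summable (tm ν v0 (rect A) (Pn I f)) := fun A I =>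
    hL.summable hν (dc_rect A) (abs_pn x1 hf)
  have p0 : ∀ (I : Finset C) (φ : Fc C N) u, 0 ≤ Pn I f φ u := fun I φ u =>
    prod_nonneg fun j _ => by split_ifs; exacts [(hf _ _).1, zero_le_one]
  choose! θ hθ using h1
  have e1 : ∀ᶠ s in atTop, ∀ i, i ≠ z → θ i - 2 * γ <
      La (tr v0 s ν) (t0 v0 s) (rect (one o)) (tr v0 s (Pn {i} f)) :=
    eventually_all.2 fun i => by
      by_cases hi : i ≠ z
      · exact ((tend_la (sm (one o) {i})).eventually_const_lt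
          (by linarith [(hθ i hi).2.2.1])).mono fun s k _ => k
      · exact Eventually.of_forall fun s k => absurd k hi
  have e2 := (tend_la (sm (update (one o) z ∅) {z})).eventually_const_lt
    (show 1 - η < _ by linarith)
  obtain ⟨s, k1, k2, k3⟩ := ((hL.ev (δ' := 2 * γ) (by linarith)).and (e1.and e2)).exists
  have η2 : 0 < η ^ 2 := by positivity
  have γ2 : 2 * γ ≤ 80 / η ^ 2 * γ :=
    mul_le_mul_of_nonneg_right (by rw [le_div_iff₀ η2]; nlinarith) γ0.le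
  obtain ⟨i, hi, k⟩ := H C N _ (tr v0 s ν) (t0 v0 s) (2 * γ) Nq o z (tr v0 s f) hn
    (fun _ _ => hν _ _) k1 (γ2.trans γ1) hNq ho (fun _ _ => hf _ _) (fun i hi => by
      obtain ⟨t1, t2, -, t4⟩ := hθ i hi
      have := marg_tail (ν := tr v0 s ν) (fun _ _ => hν _ _) k1 hoo (I := {i}) (by simpa using hi.symm)
        (tr v0 s f) (θ := θ i) (γ := 2 * γ) (t := η / 2) (by linarith) (by linarith) (k2 i hi).le
        ((la_tr_le hν (p0 _) (sm _ _) s).trans (by linarith))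
      refine le_trans (sum_le_sum_of_subset_of_nonneg (fun x hx => ?_)
        fun x _ _ => wt_nonneg (fun _ _ => hν _ _) _ _ x) (this.trans (le_trans ?_ γ1))
      · simp only [mem_filter, mem_univ, true_and] at hx ⊢
        linarith
      · rw [div_le_iff₀ (by positivity), show 80 / η ^ 2 * γ * (η / 2) ^ 2 = 20 * γ by
          field_simp; ring]
        nlinarith [mul_le_mul_of_nonneg_right t2 γ0.le,
          mul_le_mul_of_nonneg_right (show θ i ^ 2 ≤ 4 by nlinarith) γ0.le])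
    k3.le ((la_tr_le hν (p0 _) (sm _ _) s).trans h3)
  exact ⟨i, hi, k.trans (la_tr_le hν (h := cel (univ.erase i) o fun _ => f i)
    (fun φ u => by unfold cel; split_ifs; exacts [(hf _ _).1, zero_le_one])
    (hL.summable hν (dc_rect _) (abs_cel fun _ => hf i)) s)⟩

end Vale.Agent.P057RH
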