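import Vale.Agent.P057RH.Sg

/-! The rotated averages: definitions and the one sided bound. -/

set_option linter.all false

open Finset Function
open scoped BigOperators

namespace Vale.Agent.P057RH

noncomputable section

open Classical

variable {C N V : Type} [Fintype C] [DecidableEq C] [Fintype N] [DecidableEq N] [Fintype V]
  [DecidableEq V]

/-- the sign of a boolean -/
def sb (b : Bool) : ℝ := if b then 1 else -1

/-- the rotated factor -/
def rot (τ : ℝ) (b : Bool) (x : ℝ) : ℂ := 1 + Complex.I * ((τ * sb b * x : ℝ) : ℂ)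

/-- the faces of the slot j -/
def fs (A : C → Finset N) (j : C) : Finset (Fc C N) :=
  univ.filter fun φ => rect A φ ∧ sp φ = univ.erase j

/-- a rotated slot -/
def Rt (τ : ℝ) (a : C) (f : Vw C V → ℝ) (s : Fc C N → Bool) (φ : Fc C N) (u : Vw C V) : ℂ :=
  if sp φ = univ.erase a then rot τ (s φ) (f u) else 1

/-- the plain slots -/
def Pn (Pl : Finset C) (f : C → Vw C V → ℝ) (φ : Fc C N) (u : Vw C V) : ℝ :=
  ∏ j ∈ Pl, if sp φ = univ.erase j then f j u else 1

/-- two rotated slots and the plain slots -/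
def Hr (τ : ℝ) (a b : C) (Pl : Finset C) (f : C → Vw C V → ℝ) (s : Fc C N → Bool) (φ : Fc C N)
    (u : Vw C V) : ℂ := Rt τ a (f a) s φ u * Rt τ b (f b) s φ u * (Pn Pl f φ u : ℝ)

/-- the law of the signs is dominated by the uniform law -/
def Dom {Xt : Type} [Fintype Xt] (B : ℝ) (Γ : Finset (Fc C N)) (sg : Xt → Fc C N → Bool) : Prop :=
  ∀ e : Fc C N → Bool, ((univ.filter fun χ => ∀ φ ∈ Γ, sg χ φ = e φ).card : ℝ) * 2 ^ Γ.card ≤
    B * Fintype.card Xt

theorem conj_rot (τ : ℝ) (b : Bool) (x : ℝ) : (starRingEnd ℂ) (rot τ b x) = rot τ (!b) x := by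
  cases b <;> simp [rot, sb]

theorem rot_pair (τ a b : ℝ) :
    𝔼 e : Bool, rot τ e a * (starRingEnd ℂ) (rot τ e b) = ((1 + τ ^ 2 * (a * b) : ℝ) : ℂ) := by
  rw [Fintype.expect_eq_sum_div_card, Fintype.sum_bool]
  simp only [rot, sb, map_add, map_one, map_mul, Complex.conj_I, Complex.conj_ofReal, if_true,
    Bool.false_eq_true, if_false, Fintype.card_bool]
  push_cast
  linear_combination (-(τ : ℂ) ^ 2 * a * b) * Complex.I_mul_I

theorem norm_rot {τ x K : ℝ} (b : Bool) (h0 : 0 ≤ x) (h : x ≤ K) : ‖rot τ b x‖ ≤ 1 + |τ| * K := by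
  refine (norm_add_le _ _).trans ?_
  rw [norm_one, norm_mul, Complex.norm_I, one_mul, Complex.norm_real, Real.norm_eq_abs, abs_mul,
    abs_mul, abs_of_nonneg h0]
  have : |sb b| = 1 := by cases b <;> simp [sb]
  rw [this, mul_one]
  nlinarith [abs_nonneg τ]

theorem dom_exp {Xt : Type} [Fintype Xt] [Nonempty Xt] {B : ℝ} {Γ : Finset (Fc C N)}
    {sg : Xt → Fc C N → Bool} (h : Dom B Γ sg) (g : (Fc C N → Bool) → ℝ) (g0 : ∀ e, 0 ≤ g e)
    (hg : ∀ e e', (∀ φ ∈ Γ, e φ = e' φ) → g e = g e') : 𝔼 χ, g (sg χ) ≤ B * 𝔼 e, g e := by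
  have c1 : ∀ s : Fc C N → Bool, ((univ.filter fun e : Fc C N → Bool => ∀ φ ∈ Γ, s φ = e φ).card : ℝ) *
      2 ^ Γ.card = Fintype.card (Fc C N → Bool) := by
    intro s
    have : (univ.filter fun e : Fc C N → Bool => ∀ φ ∈ Γ, s φ = e φ) =
        Fintype.piFinset fun φ => if φ ∈ Γ then {s φ} else univ := by
      ext e
      simp only [mem_filter, mem_univ, true_and, Fintype.mem_piFinset]
      refine forall_congr' fun φ => ?_
      by_cases k : φ ∈ Γ
      · simp only [k, if_true, mem_singleton, true_imp_iff]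
        exact eq_comm
      · simp [k]
    rw [this, Fintype.card_piFinset, Fintype.card_fun, ← prod_const, ← Fintype.prod_ite_mem Γ,
      ← card_univ (α := Fc C N), ← prod_const]
    push_cast
    rw [← prod_mul_distrib]
    exact prod_congr rfl fun φ _ => by split_ifs <;> simp
  have x0 : (0 : ℝ) < Fintype.card Xt := by exact_mod_cast Fintype.card_pos
  have e0 : (0 : ℝ) < Fintype.card (Fc C N → Bool) := by exact_mod_cast Fintype.card_pos
  rw [Fintype.expect_eq_sum_div_card, Fintype.expect_eq_sum_div_card, ← mul_div_assoc,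
    div_le_div_iff₀ x0 e0]
  have k1 : (∑ χ, g (sg χ)) * Fintype.card (Fc C N → Bool) =
      ∑ e, g e * (((univ.filter fun χ => ∀ φ ∈ Γ, sg χ φ = e φ).card : ℝ) * 2 ^ Γ.card) := by
    simp only [card_filter, Nat.cast_sum, sum_mul, mul_sum]
    rw [sum_comm]
    refine sum_congr rfl fun χ _ => ?_
    rw [← c1 (sg χ), card_filter, Nat.cast_sum, sum_mul, mul_sum]
    refine sum_congr rfl fun e _ => ?_
    split_ifs with k
    · rw [hg _ _ k]
    · simp
  rw [k1, mul_sum, sum_mul]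
  exact sum_le_sum fun e _ => (mul_le_mul_of_nonneg_left (h e) (g0 e)).trans (le_of_eq (by ring))

theorem exp_prod_at (i : C) (l : N) (G : Fm C N i → Bool → ℂ) :
    𝔼 e : Fc C N → Bool, ∏ ψ : Fm C N i, G ψ (e (update ψ.1 i (some l))) =
      ∏ ψ : Fm C N i, 𝔼 s, G ψ s := by
  obtain ⟨G', hG⟩ : ∃ G' : Fc C N → Bool → ℂ, ∀ φ s, G' φ s =
    if φ i = some l then G (fsplit i φ).2 s else 1 := ⟨_, fun _ _ => rfl⟩
  have e1 : ∀ F : Fc C N → ℂ, (∀ φ, φ i ≠ some l → F φ = 1) →
      ∏ φ, F φ = ∏ ψ : Fm C N i, F (update ψ.1 i (some l)) := fun F hF => by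
    rw [← (fsplit (N := N) i).symm.prod_comp, Fintype.prod_prod_type,
      Fintype.prod_eq_single (some l)]
    · rfl
    · intro o ho
      exact prod_eq_one fun ψ _ => hF _ (by simpa [fsplit] using ho)
  have e2 : ∀ (ψ : Fm C N i) s, G' (update ψ.1 i (some l)) s = G ψ s := fun ψ s => by
    rw [hG, if_pos (by simp)]
    exact congrArg (fun p : Option N × Fm C N i => G p.2 s)
      ((fsplit (N := N) i).apply_symm_apply (some l, ψ))
  have e3 : 𝔼 e : Fc C N → Bool, ∏ φ, G' φ (e φ) = ∏ φ, 𝔼 s, G' φ s := by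
    simp only [expect_eq_sum_div_card, prod_div_distrib, prod_univ_sum, Fintype.piFinset_univ]
    simp
  rw [e1 _ fun φ k => by simp [hG, k]] at e3
  simp only [← e2]
  rw [← e3]
  exact expect_congr rfl fun e _ => (e1 (fun φ => G' φ (e φ)) fun φ k => by simp [hG, k]).symm

variable {ν : Finset C → Vw C V → ℝ} {v0 : V} {δ : ℝ}

/-- the uniform average over the signs of the squared bundle -/
theorem exp_bs_sq (τ : ℝ) (K : Fc C N → Prop) (a b : C) (o : N) (f : Vw C V → ℝ)
    (y : Fm C N b → V) :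
    𝔼 e : Fc C N → Bool, ‖bs b (at' b o (fam (cx ν) v0 K (Rt τ a f e))) y‖ ^ 2 =
      ∑ S ∈ (univ.filter fun ψ : Fm C N b => K (update ψ.1 b (some o)) ∧
          insert b (sp ψ.1) = univ.erase a).powerset, (τ ^ 2) ^ S.card *
        bs b (fun ψ u => at' b o (fam ν v0 K fun _ _ => 1) ψ u * if ψ ∈ S then f u else 1) y ^ 2 := by
  obtain ⟨Γ, hΓ⟩ : ∃ Γ, Γ = univ.filter fun ψ : Fm C N b => K (update ψ.1 b (some o)) ∧
    insert b (sp ψ.1) = univ.erase a := ⟨_, rfl⟩
  obtain ⟨w, hw⟩ : ∃ w : Fm C N b → Vw C V → ℝ, w = at' b o (fam ν v0 K fun _ _ => 1) := ⟨_, rfl⟩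
  rw [← hΓ, ← hw]
  have e1 : ∀ e ψ u, at' b o (fam (cx ν) v0 K (Rt τ a f e)) ψ u =
      (w ψ u : ℂ) * if ψ ∈ Γ then rot τ (e (update ψ.1 b (some o))) (f u) else 1 := by
    intro e ψ u
    simp only [hw, hΓ, at', fam, Rt, sp_upd, mem_filter, mem_univ, true_and]
    by_cases k : K (update ψ.1 b (some o))
    · simp [k]
    · simp only [k, if_false, false_and, mul_one, dl]
      split_ifs <;> simp
  apply Complex.ofReal_injective
  rw [Complex.ofReal_expect]
  have e0 : ∀ S : Finset (Fm C N b), (τ ^ 2) ^ S.card *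
      bs b (fun ψ u => w ψ u * if ψ ∈ S then f u else 1) y ^ 2 = ∑ β, ∑ β', (τ * τ) ^ S.card *
      ((∏ ψ, w ψ (vb y β ψ) * if ψ ∈ S then f (vb y β ψ) else 1) *
        ∏ ψ, w ψ (vb y β' ψ) * if ψ ∈ S then f (vb y β' ψ) else 1) := fun S => by
    rw [bs, sq (∑ _, _), sum_mul_sum, sq τ]
    simp only [mul_sum]
  simp only [e0]
  rw [sum_comm, Complex.ofReal_sum]
  simp only [← Complex.normSq_eq_norm_sq, ← Complex.mul_conj, conj_bs, e1, bs, map_sum, map_prod,
    sum_mul_sum, expect_sum_comm, ← prod_mul_distrib]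
  refine sum_congr rfl fun β _ => ?_
  rw [sum_comm, Complex.ofReal_sum]
  refine sum_congr rfl fun β' _ => ?_
  rw [exp_prod_at b o (fun ψ s => ((w ψ (vb y β ψ) : ℂ) * if ψ ∈ Γ then rot τ s (f (vb y β ψ)) else 1) *
    (starRingEnd ℂ) ((w ψ (vb y β' ψ) : ℂ) * if ψ ∈ Γ then rot τ s (f (vb y β' ψ)) else 1))]
  have e2 : ∀ ψ : Fm C N b, 𝔼 s, ((w ψ (vb y β ψ) : ℂ) * if ψ ∈ Γ then rot τ s (f (vb y β ψ)) else 1) *
      (starRingEnd ℂ) ((w ψ (vb y β' ψ) : ℂ) * if ψ ∈ Γ then rot τ s (f (vb y β' ψ)) else 1) =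
      ((w ψ (vb y β ψ) * w ψ (vb y β' ψ) *
        (if ψ ∈ Γ then 1 + τ * τ * (f (vb y β ψ) * f (vb y β' ψ)) else 1) : ℝ) : ℂ) := by
    intro ψ
    split_ifs
    · rw [Complex.ofReal_mul, ← sq, ← rot_pair, mul_expect]
      refine expect_congr rfl fun s _ => ?_
      simp only [map_mul, Complex.conj_ofReal, Complex.ofReal_mul]
      ring
    · simp
  simp only [e2, ← Complex.ofReal_prod]
  congr 1
  rw [prod_mul_distrib, Fintype.prod_ite_mem, prod_one_add, mul_sum]
  refine sum_congr rfl fun S _ => ?_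
  simp only [prod_mul_distrib, Fintype.prod_ite_mem, prod_const, mul_pow]
  ring

theorem rec_one (hν : ∀ S u, 0 ≤ ν S u) {Nq : Finset N} {o o' : N} (hoo : o ≠ o') (ho : o ∈ Nq)
    (ho' : o' ∈ Nq) {a b : C} (hab : a ≠ b) {A : C → Finset N}
    (hA : ∀ i, (A i).Nonempty ∧ A i ⊆ Nq) (hb : A b = {o}) {f : Vw C V → ℝ} {κ B τ : ℝ} {g : ℕ}
    (hκ : 1 ≤ κ) (hB : 0 ≤ B) (hS : SG ν v0 Nq a f κ) (hg : (fs A a).card ≤ g)
    {Xt : Type} [Fintype Xt] [Nonempty Xt] {sg : Xt → Fc C N → Bool} (hD : Dom B (fs A a) sg) :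
    𝔼 χ, ∑ y, wt ν v0 (rect (update A a ∅)) b y *
      ‖bs b (at' b o (fam (cx ν) v0 (rect (update A a ∅)) (Rt τ a f (sg χ)))) y‖ ^ 2 ≤
      2 * B * (1 + τ ^ 2 * κ ^ 2) ^ g := by
  obtain ⟨K, hK⟩ : ∃ K, K = rect (update A a ∅) := ⟨_, rfl⟩
  rw [← hK, expect_sum_comm]
  simp only [← mul_expect]
  have k1 := fun y : Fm C N b → V => dom_exp hD
    (fun e => ‖bs b (at' b o (fam (cx ν) v0 K (Rt τ a f e))) y‖ ^ 2) (fun e => by positivity)
    (fun e e' k => by
      rw [bs_congr _ _ (fun _ => Iff.rfl) fun ψ k' => funext fun u => ?_]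
      unfold Rt
      split_ifs with k2
      · rw [k]
        rw [hK, rect_empty] at k'
        simp [fs, k'.1, k2]
      · rfl)
  refine (sum_le_sum fun y _ => mul_le_mul_of_nonneg_left (k1 y) (wt_nonneg hν K b y)).trans ?_
  simp only [exp_bs_sq]
  obtain ⟨Γ, hΓ⟩ : ∃ Γ, Γ = univ.filter fun ψ : Fm C N b => K (update ψ.1 b (some o)) ∧
    insert b (sp ψ.1) = univ.erase a := ⟨_, rfl⟩
  rw [← hΓ]
  have cΓ : Γ.card ≤ g := by
    refine le_trans (card_le_card_of_injOn (fun ψ => update ψ.1 b (some o)) (fun ψ k => ?_)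
      fun ψ _ ψ' _ k => ?_) hg
    · rw [hΓ, coe_filter, hK] at k
      have := (rect_empty _ _ _).1 k.2.1
      simp [fs, this.1, sp_upd, k.2.2]
    · have := congrArg (fun φ => update φ b none) k
      simpa only [update_idem, upd_none, Subtype.val_inj] using this
  have k2 : ∀ S ∈ Γ.powerset, ∑ y, wt ν v0 K b y * bs b (fun ψ u =>
      at' b o (fam ν v0 K fun _ _ => 1) ψ u * if ψ ∈ S then f u else 1) y ^ 2 ≤
      2 * (κ ^ 2) ^ S.card := by
    intro S hS'
    have hS2 := mem_powerset.1 hS'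
    obtain ⟨T, hT⟩ : ∃ T : Finset (Fc C N), T = S.image (fun ψ => update ψ.1 b (some o)) ∪
      S.image (fun ψ => update ψ.1 b (some o')) := ⟨_, rfl⟩
    have k3 := hS (update (update A a ∅) b {o, o'}) (by rw [update_of_ne hab, update_self])
      (fun i hi => by
        by_cases k : i = b
        · subst k
          rw [update_self]
          exact ⟨by simp, by simp [insert_subset_iff, ho, ho']⟩
        · rw [update_of_ne k, update_of_ne hi]
          exact hA i) T
    have cT : T.card ≤ 2 * S.card := by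
      rw [hT, two_mul]
      exact (card_union_le _ _).trans (add_le_add card_image_le card_image_le)
    rw [← pow_mul]
    refine le_trans (le_of_eq ?_) (k3.trans (mul_le_mul_of_nonneg_left
      (pow_le_pow_right₀ hκ cT) (by norm_num)))
    have rf := rect_fm (A := update (update A a ∅) b {o, o'}) (A' := update A a ∅) (i := b)
      fun j hj => by rw [update_of_ne hj]
    rw [la_fac_on _ _ _ (i := b) {o, o'} fun φ l k k' => by simpa using k b l k']
    refine sum_congr rfl fun y _ => ?_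
    have e : ∀ l, l = o ∨ l = o' → bs b (at' b l (fam ν v0 (rect (update (update A a ∅) b {o, o'}))
        fun φ u => if φ ∈ T ∧ sp φ = univ.erase a then f u else 1)) y = bs b (fun ψ u =>
        at' b o (fam ν v0 K fun _ _ => 1) ψ u * if ψ ∈ S then f u else 1) y := by
      intro l hl
      congr 1
      funext ψ u
      have m : update ψ.1 b (some l) ∈ T ↔ ψ ∈ S := by
        rw [hT, mem_union, mem_image, mem_image]
        constructor
        · rintro (⟨ψ', k, e⟩ | ⟨ψ', k, e⟩) <;>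
          · have := congrArg (fun φ => update φ b none) e
            simp only [update_idem, upd_none, Subtype.val_inj] at this
            exact this ▸ k
        · intro k
          rcases hl with rfl | rfl
          · exact Or.inl ⟨ψ, k, rfl⟩
          · exact Or.inr ⟨ψ, k, rfl⟩
      have m2 : ψ ∈ S → rect (update A a ∅) ψ.1 ∧ insert b (sp ψ.1) = univ.erase a := fun k => by
        have := hS2 k
        rw [hΓ, mem_filter, hK, rect_upd] at this
        exact ⟨this.2.1.2, this.2.2⟩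
      simp only [at', fam, hK, rect_upd, rf, update_self, update_of_ne hab.symm, hb, mem_insert,
        mem_singleton, hl, true_and, sp_upd, m, mul_one]
      by_cases k : ψ ∈ S
      · simp [k, m2 k]
      · simp [k]
    rw [prod_pair hoo, e o (Or.inl rfl), e o' (Or.inr rfl), sq, hK]
    congr 1
    refine fr_congr _ _ (fun ψ => (rf ψ).symm) (fun ψ _ => funext fun u => ?_) y
    rw [if_neg fun k => not_mem_sp ψ (by rw [k.2]; simp [hab.symm])]
  simp only [mul_sum]
  rw [sum_comm]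
  refine (sum_le_sum (g := fun S => 2 * B * (τ ^ 2 * κ ^ 2) ^ S.card) fun S hS' => ?_).trans ?_
  · have := mul_le_mul_of_nonneg_left (k2 S hS') (show 0 ≤ B * (τ ^ 2) ^ S.card by positivity)
    rw [mul_sum] at this
    refine le_trans (le_of_eq (sum_congr rfl fun y _ => by ring)) (this.trans (le_of_eq ?_))
    rw [mul_pow]
    ring
  · rw [← mul_sum]
    refine mul_le_mul_of_nonneg_left ?_ (by positivity)
    have := prod_one_add (f := fun _ => τ ^ 2 * κ ^ 2) Γ
    simp only [prod_const] at this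
    rw [← this]
    exact pow_le_pow_right₀ (by nlinarith [sq_nonneg (τ * κ)]) cΓ

end

end Vale.Agent.P057RH
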