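import Vale.Agent.P057RH.Rec0

/-! The recursion for the rotated averages. -/

set_option linter.all false

open Finset Function
open scoped BigOperators

namespace Vale.Agent.P057RH

noncomputable section

open Classical

variable {C N V : Type} [Fintype C] [DecidableEq C] [Fintype N] [DecidableEq N] [Fintype V]
  [DecidableEq V]

theorem card_fs_le {Nq : Finset N} {o : N} (ho : o ∈ Nq) {A : C → Finset N} (hA : ∀ i, A i ⊆ Nq)
    (j : C) : (fs A j).card ≤ Nq.card ^ Fintype.card C := by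
  rw [← card_univ, ← prod_const, ← Fintype.card_piFinset]
  refine card_le_card_of_injOn (fun φ i => (φ i).getD o) (fun φ k => ?_) fun φ k φ' k' e => ?_
  · simp only [fs, coe_filter, mem_univ, true_and, Set.mem_setOf_eq] at k
    simp only [mem_coe, Fintype.mem_piFinset]
    intro i
    cases e : φ i with
    | none => exact ho
    | some l => exact hA i (k.1 i l e)
  · simp only [fs, coe_filter, mem_univ, true_and, Set.mem_setOf_eq] at k k'
    funext i
    have h1 := congrFun e i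
    have h2 : i ∈ sp φ ↔ i ∈ sp φ' := by rw [k.2, k'.2]
    rw [mem_sp, mem_sp] at h2
    cases e1 : φ i <;> cases e2 : φ' i <;> simp_all

theorem bs_dep {R : Type} [CommSemiring R] (ν : Finset C → Vw C V → R) (v0 : V) {a b : C} {l : N}
    {K : Fc C N → Prop} (h : Fc C N → Vw C V → R)
    (hK : ∀ ψ : Fm C N a, K (update ψ.1 a (some l)) → ψ.1 b = none) {x x' : Fm C N a → V}
    (hx : ∀ ψ : Fm C N a, ψ.1 b = none → x ψ = x' ψ) :
    bs a (at' a l (fam ν v0 K h)) x = bs a (at' a l (fam ν v0 K h)) x' := by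
  refine sum_congr rfl fun β _ => prod_congr rfl fun ψ _ => ?_
  unfold at' fam
  split_ifs with k
  · have : vb x β ψ = vb x' β ψ := funext fun T => by
      unfold vb
      rw [hx _ (res_none (hK ψ k) T)]
    rw [this]
  · simp [dl, vb]

theorem sp_res (φ : Fc C N) (T : Finset C) : sp (res φ T) ⊆ sp φ := fun i k => by
  rw [mem_sp] at k ⊢
  exact fun e => k (res_none e T)

variable {ν : Finset C → Vw C V → ℝ} {v0 : V} {δ : ℝ}

theorem rec_split (hν : ∀ S u, 0 ≤ ν S u) {o : N} {a b : C} (hab : a ≠ b) {A : C → Finset N}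
    (ha : A a = {o}) (hb : A b = {o}) (τ : ℝ) (f : C → Vw C V → ℝ) (s : Fc C N → Bool) :
    ‖La (cx ν) v0 (fun φ => rect A φ ∧ ¬ {a, b} ⊆ sp φ) (Hr τ a b ∅ f s)‖ ≤
      (∑ y, wt ν v0 (rect (update A a ∅)) b y *
        ‖bs b (at' b o (fam (cx ν) v0 (rect (update A a ∅)) (Rt τ a (f a) s))) y‖ ^ 2 +
      ∑ y, wt ν v0 (rect (update A b ∅)) a y *
        ‖bs a (at' a o (fam (cx ν) v0 (rect (update A b ∅)) (Rt τ b (f b) s))) y‖ ^ 2) / 2 := by
  obtain ⟨U, hU⟩ : ∃ U, U = bs b (at' b o (fam (cx ν) v0 (rect (update A a ∅)) (Rt τ a (f a) s))) :=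
    ⟨_, rfl⟩
  obtain ⟨W, hW⟩ : ∃ W, W = bs a (at' a o (fam (cx ν) v0 (rect (update A b ∅)) (Rt τ b (f b) s))) :=
    ⟨_, rfl⟩
  obtain ⟨W', hW'⟩ : ∃ W' : (Fm C N b → V) → ℂ, ∀ y, W' y =
    W (fun ψ => if k : ψ.1 b = none then y ⟨ψ.1, k⟩ else v0) := ⟨_, fun _ => rfl⟩
  have e0 : ∀ z : Fc C N → V, W (fun ψ => z ψ.1) = W' (fun ψ => z ψ.1) := fun z => by
    rw [hW', hW]
    refine bs_dep _ _ (b := b) _ (fun ψ k => ?_) fun ψ k => by simp [k]
    have := ((rect_empty _ _ _).1 k).2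
    rwa [update_of_ne hab.symm] at this
  rw [← hU, ← hW]
  have e1 : La (cx ν) v0 (fun φ => rect A φ ∧ ¬ {a, b} ⊆ sp φ) (Hr τ a b ∅ f s) =
      ∑ y, ((wt ν v0 (rect (update A a ∅)) b y : ℝ) : ℂ) * W' y * U y := by
    rw [la_fac_on _ _ _ (i := a) {o} fun φ l k k' => ha ▸ k.1 a l k']
    have k1 := la_fac' (cx ν) v0 (K := rect (update A a ∅)) (Rt τ a (f a) s) (i := a) ∅
      (fun φ l k k' => by simpa using k a l k') W
    have k2 := la_fac' (cx ν) v0 (K := rect (update A a ∅)) (Rt τ a (f a) s) (i := b) {o}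
      (fun φ l k k' => by simpa [update_of_ne hab.symm, hb] using k b l k') W'
    simp only [e0] at k1
    rw [k1] at k2
    refine Eq.trans (sum_congr rfl fun x _ => ?_) (k2.trans (sum_congr rfl fun y _ => ?_))
    · rw [prod_singleton, prod_empty, mul_one, hW]
      congr 1
      · refine fr_congr _ _ (fun ψ => ?_) (fun ψ _ => funext fun u => ?_) x
        · rw [rect_empty]
          simp [ψ.2, insert_subset_iff, not_mem_sp ψ]
        · have : sp ψ.1 ≠ univ.erase b := fun k => not_mem_sp ψ (by rw [k]; simp [hab])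
          simp [Hr, Pn, Rt, this]
      · refine bs_congr _ _ (fun ψ => ?_) (fun ψ _ => funext fun u => ?_) x
        · rw [rect_empty]
          simp [insert_subset_iff, mem_sp]
        · have : sp (update ψ.1 a (some o)) ≠ univ.erase a := fun k => by
            have : a ∈ sp (update ψ.1 a (some o)) := by simp [mem_sp]
            rw [k] at this
            simp at this
          simp [Hr, Pn, Rt, this]
    · rw [prod_singleton, hU, wt_cast]
      congr 2
      refine fr_congr _ _ (fun ψ => Iff.rfl) (fun ψ _ => funext fun u => ?_) y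
      have : sp ψ.1 ≠ univ.erase a := fun k => not_mem_sp ψ (by rw [k]; simp [hab.symm])
      simp [Rt, this]
  have e2 : ∑ y, wt ν v0 (rect (update A b ∅)) a y * ‖W y‖ ^ 2 =
      ∑ y, wt ν v0 (rect (update A a ∅)) b y * ‖W' y‖ ^ 2 := by
    have k1 := la_fac' ν v0 (K := fun φ => rect A φ ∧ φ a = none ∧ φ b = none) (fun _ _ => 1)
      (i := a) ∅ (fun φ l k k' => by rw [k.2.1] at k'; cases k') fun x => ‖W x‖ ^ 2
    have k2 := la_fac' ν v0 (K := fun φ => rect A φ ∧ φ a = none ∧ φ b = none) (fun _ _ => 1)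
      (i := b) ∅ (fun φ l k k' => by rw [k.2.2] at k'; cases k') fun x => ‖W' x‖ ^ 2
    simp only [e0] at k1
    rw [k1] at k2
    simp only [prod_empty, mul_one] at k2
    refine Eq.trans (sum_congr rfl fun x _ => ?_) (k2.trans (sum_congr rfl fun y _ => ?_))
    · congr 1
      exact wt_congr _ _ (fun ψ => by simp [rect_empty, ψ.2]) x
    · congr 1
      exact wt_congr _ _ (fun ψ => by simp [rect_empty, ψ.2]) y
  rw [e1, e2, ← sum_add_distrib, sum_div]
  refine (norm_sum_le _ _).trans (sum_le_sum fun y _ => ?_)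
  have w0 := wt_nonneg (v0 := v0) hν (rect (update A a ∅)) b y
  rw [norm_mul, norm_mul, Complex.norm_real, Real.norm_of_nonneg w0]
  nlinarith [mul_nonneg w0 (sq_nonneg (‖W' y‖ - ‖U y‖))]

/-- the standing assumptions of the recursion -/
structure Rh (ν : Finset C → Vw C V → ℝ) (v0 : V) (δ : ℝ) (Nq : Finset N) (o : N) (K κ μ τ : ℝ) :
    Prop where
  hν : ∀ S u, 0 ≤ ν S u
  hL : LFC N ν v0 δ
  ho : o ∈ Nq
  ev : Even Nq.card
  hκ : 1 ≤ κ
  hK : 1 ≤ K
  hμ : 0 ≤ μ
  hq : κ ^ Nq.card * K ≤ μ ^ Nq.card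
  hδ : ((1 + δ) * 2) ^ 4 * δ * (1 + |τ| * K) ^ (8 * Nq.card ^ Fintype.card C) ≤ 1

/-- the bound for the average with signs -/
def REC (ν : Finset C → Vw C V → ℝ) (v0 : V) (Nq : Finset N) (o : N) (κ μ τ : ℝ) (a b : C)
    (f : C → Vw C V → ℝ) (Pl : Finset C) : Prop :=
  ∀ (A : C → Finset N) (g : ℕ) (B : ℝ) (Xt : Type) [Fintype Xt] [Nonempty Xt]
    (sg : Xt → Fc C N → Bool) (ng : Xt ≃ Xt), (∀ i, (A i).Nonempty ∧ A i ⊆ Nq) → A a = {o} →
    A b = {o} → (∀ i ∈ Pl, A i = {o}) → (fs A a).card ≤ g → (fs A b).card ≤ g →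
    (∀ i ∈ Pl, (fs A i).card ≤ g) → 1 ≤ B → (∀ χ φ, sg (ng χ) φ = !(sg χ φ)) →
    Dom B (fs A a) sg → Dom B (fs A b) sg →
    ‖𝔼 χ, La (cx ν) v0 (rect A) (Hr τ a b Pl f (sg χ))‖ ≤
      3 * 2 ^ Pl.card * B * μ ^ (Pl.card * g) * (1 + τ ^ 2 * κ ^ 2) ^ g

theorem rec_base {Nq : Finset N} {o : N} {K κ μ τ : ℝ} (H : Rh ν v0 δ Nq o K κ μ τ) {a b : C}
    (hab : a ≠ b) {f : C → Vw C V → ℝ} (hf : ∀ i u, 0 ≤ f i u ∧ f i u ≤ K)
    (sa : SG ν v0 Nq a (f a) κ) (sb' : SG ν v0 Nq b (f b) κ) : REC ν v0 Nq o κ μ τ a b f ∅ := by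
  intro A g B Xt _ _ sg ng hA ha hb _ ga gb _ hB _ da db
  obtain ⟨o', ho', hoo⟩ : ∃ o' ∈ Nq, o ≠ o' := by
    have h1 : 1 < Nq.card := by
      have := card_pos.2 ⟨o, H.ho⟩
      obtain ⟨n, hn⟩ := H.ev
      omega
    obtain ⟨o', h2, h3⟩ := exists_mem_ne h1 o
    exact ⟨o', h2, h3.symm⟩
  have d0 := H.hL.nonneg
  obtain ⟨M, hM⟩ : ∃ M, M = 1 + |τ| * K := ⟨_, rfl⟩
  have M1 : 1 ≤ M := by have := H.hK; rw [hM]; nlinarith [abs_nonneg τ]
  obtain ⟨G, hG⟩ : ∃ G, G = Nq.card ^ Fintype.card C := ⟨_, rfl⟩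
  have k1 : ∀ s : Fc C N → Bool, ‖La (cx ν) v0 (rect A) (Hr τ a b ∅ f s) -
      La (cx ν) v0 (fun φ => rect A φ ∧ ¬ {a, b} ⊆ sp φ) (Hr τ a b ∅ f s)‖ ≤ 1 := by
    intro s
    have na : ∀ φ : Fc C N, {a, b} ⊆ sp φ → sp φ ≠ univ.erase a ∧ sp φ ≠ univ.erase b :=
      fun φ k => ⟨fun e => by simpa [e] using k (mem_insert_self _ _), fun e => by
        simpa [e] using k (mem_insert_of_mem (mem_singleton_self b))⟩
    refine (cut_bd H.hν H.hL hoo {a, b} (dc_rect A)
      (fun φ k T => ⟨dc_rect A φ k.1 T, fun k' => k.2 (k'.trans (sp_res φ T))⟩)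
      (fun φ k => by simp [k]) (fun φ l i hi k e => ?_) (fs A a ∪ fs A b) (fun φ k => ?_)
      (M := M) (ε := 1 / M ^ (2 * G)) (by linarith) (fun φ u k => ?_)
      (fun φ u k => by simp [Hr, Pn, Rt, na φ k]) (by positivity) ?_).trans ?_
    · have r : rect A φ := k.elim id And.left
      rcases mem_insert.1 hi with rfl | hi
      · simpa [ha] using r _ l e
      · rw [mem_singleton.1 hi] at e
        simpa [hb] using r _ l e
    · simp only [fs, mem_union, mem_filter, mem_univ, true_and] at k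
      exact k.elim (fun k => ⟨k.1, fun k' => (na φ k').1 k.2⟩)
        fun k => ⟨k.1, fun k' => (na φ k').2 k.2⟩
    · have ne : univ.erase a ≠ univ.erase b := fun e => by
        have : b ∈ univ.erase a := by simp [hab.symm]
        simp [e] at this
      simp only [Hr, Pn, Rt, fs, mem_union, mem_filter, mem_univ, true_and, k, prod_empty,
        Complex.ofReal_one, mul_one]
      by_cases e1 : sp φ = univ.erase a
      · simp only [e1, ne, if_true, if_false, true_or, mul_one, hM]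
        exact norm_rot _ (hf _ _).1 (hf _ _).2
      · by_cases e2 : sp φ = univ.erase b
        · simp only [e2, ne.symm, if_true, if_false, or_true, one_mul, hM]
          exact norm_rot _ (hf _ _).1 (hf _ _).2
        · simp [e1, e2]
    · rw [card_pair hab, div_pow, one_pow, le_div_iff₀ (by positivity), ← pow_mul, hM, hG]
      rw [show 2 * Nq.card ^ Fintype.card C * 2 ^ 2 = 8 * Nq.card ^ Fintype.card C by ring]
      exact H.hδ
    · rw [mul_one_div, div_le_one (by positivity), two_mul]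
      refine pow_le_pow_right₀ M1 ((card_union_le _ _).trans (add_le_add ?_ ?_)) <;>
        exact hG ▸ card_fs_le H.ho (fun i => (hA i).2) _
  have k2 := rec_one H.hν hoo H.ho ho' hab hA hb H.hκ (τ := τ) (by linarith) sa ga da
  have k3 := rec_one H.hν hoo H.ho ho' hab.symm hA ha H.hκ (τ := τ) (by linarith) sb' gb db
  have k4 : ∀ χ, ‖La (cx ν) v0 (rect A) (Hr τ a b ∅ f (sg χ))‖ ≤ 1 + _ := fun χ =>
    (norm_le_norm_sub_add _ _).trans (add_le_add (k1 (sg χ)) (rec_split H.hν hab ha hb τ f (sg χ)))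
  refine (RCLike.norm_expect_le (K := ℂ)).trans ((expect_le_expect fun χ _ => k4 χ).trans ?_)
  rw [expect_add_distrib, Fintype.expect_const, ← expect_div, expect_add_distrib]
  have p1 : 1 ≤ B * (1 + τ ^ 2 * κ ^ 2) ^ g := one_le_mul_of_one_le_of_one_le hB
    (one_le_pow₀ (by nlinarith [sq_nonneg (τ * κ)]))
  simp only [card_empty, pow_zero, zero_mul, mul_one]
  linarith

end

end Vale.Agent.P057RH
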