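import Vale.Agent.P057RH.Rec1

/-! The step of the recursion for the rotated averages. -/

set_option linter.all false

open Finset Function
open scoped BigOperators

namespace Vale.Agent.P057RH

noncomputable section

open Classical

variable {C N V : Type} [Fintype C] [DecidableEq C] [Fintype N] [DecidableEq N] [Fintype V]
  [DecidableEq V]

theorem mem_fs {A : C → Finset N} {j : C} {φ : Fc C N} :
    φ ∈ fs A j ↔ rect A φ ∧ sp φ = univ.erase j := by simp [fs]

theorem fs_up {A : C → Finset N} {i j : C} (hij : i ≠ j) {o : N} (hi : A i = {o}) {Nq : Finset N}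
    {ψ : Fc C N} (h : ψ ∈ fs A j) {l : N} (hl : l ∈ Nq) :
    update ψ i (some l) ∈ fs (update A i Nq) j ∧ ψ i = some o := by
  rw [mem_fs] at h ⊢
  have n : ψ i ≠ none := mem_sp.1 (by rw [h.2]; simp [hij])
  obtain ⟨m, hm⟩ := Option.ne_none_iff_exists'.1 n
  refine ⟨⟨fun k m e => ?_, by rw [sp_upd' n, h.2]⟩, by simpa [hm, hi] using h.1 i m hm⟩
  by_cases c : k = i
  · subst c
    rw [update_self] at e ⊢
    cases e
    exact hl
  · rw [update_of_ne c] at e ⊢
    exact h.1 k m e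

theorem fs_down {A : C → Finset N} {i j : C} (hij : i ≠ j) {o : N} (hi : A i = {o}) {Nq : Finset N}
    {φ : Fc C N} (h : φ ∈ fs (update A i Nq) j) :
    update φ i (some o) ∈ fs A j ∧ ∃ l ∈ Nq, φ i = some l := by
  rw [mem_fs] at h ⊢
  have n : φ i ≠ none := mem_sp.1 (by rw [h.2]; simp [hij])
  obtain ⟨m, hm⟩ := Option.ne_none_iff_exists'.1 n
  refine ⟨⟨fun k m e => ?_, by rw [sp_upd' n, h.2]⟩, m, by simpa using h.1 i m hm, hm⟩
  by_cases c : k = i
  · subst c
    rw [update_self] at e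
    cases e
    simp [hi]
  · rw [update_of_ne c] at e
    simpa [update_of_ne c] using h.1 k m e

theorem card_fs_up {A : C → Finset N} {i j : C} (hij : i ≠ j) {o : N} (hi : A i = {o})
    (Nq : Finset N) : (fs (update A i Nq) j).card ≤ Nq.card * (fs A j).card := by
  rw [← card_product]
  refine card_le_card_of_injOn (fun φ => ((φ i).getD o, update φ i (some o))) (fun φ k => ?_)
    fun φ k φ' k' e => ?_
  · obtain ⟨h1, l, h2, h3⟩ := fs_down hij hi (mem_coe.1 k)
    simp [h1, h2, h3]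
  · obtain ⟨-, l, -, h3⟩ := fs_down hij hi (mem_coe.1 k)
    obtain ⟨-, l', -, h3'⟩ := fs_down hij hi (mem_coe.1 k')
    obtain ⟨e1, e2⟩ := Prod.mk.inj e
    funext j
    by_cases c : j = i
    · subst c
      simp only [h3, h3', Option.getD_some] at e1
      rw [h3, h3', e1]
    · simpa [update_of_ne c] using congrFun e2 j

theorem dom_up {A : C → Finset N} {i j : C} (hij : i ≠ j) {o : N} (hi : A i = {o}) (Nq : Finset N)
    {Xt : Type} [Fintype Xt] {sg : Xt → Fc C N → Bool} {B : ℝ} (h : Dom B (fs A j) sg) :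
    Dom (B ^ Nq.card) (fs (update A i Nq) j)
      (fun (χ : N → Xt) φ => sg (χ ((φ i).getD o)) (update φ i (some o))) := by
  intro e
  have e1 : (univ.filter fun χ : N → Xt => ∀ φ ∈ fs (update A i Nq) j,
      sg (χ ((φ i).getD o)) (update φ i (some o)) = e φ) ⊆ Fintype.piFinset fun l =>
      if l ∈ Nq then univ.filter fun χ => ∀ ψ ∈ fs A j, sg χ ψ = e (update ψ i (some l))
      else univ := by
    intro χ k
    rw [mem_filter] at k
    rw [Fintype.mem_piFinset]
    intro l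
    split_ifs with hl
    · refine mem_filter.2 ⟨mem_univ _, fun ψ hψ => ?_⟩
      obtain ⟨h1, h2⟩ := fs_up hij hi hψ hl
      have := k.2 _ h1
      rwa [update_self, update_idem, ← h2, update_eq_self] at this
    · exact mem_univ _
  have e2 : ((2 : ℝ) ^ (fs (update A i Nq) j).card) ≤ ∏ l, if l ∈ Nq then 2 ^ (fs A j).card else 1 := by
    rw [Fintype.prod_ite_mem, prod_const, ← pow_mul, mul_comm]
    exact pow_le_pow_right₀ (by norm_num) (card_fs_up hij hi Nq)
  refine (mul_le_mul (Nat.cast_le.2 (card_le_card e1)) e2 (by positivity) (by positivity)).trans ?_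
  rw [Fintype.card_piFinset, Fintype.card_fun, ← prod_const B, ← Fintype.prod_ite_mem Nq,
    ← card_univ (α := N), ← prod_const (Fintype.card Xt)]
  push_cast
  rw [← prod_mul_distrib, ← prod_mul_distrib]
  refine prod_le_prod (fun l _ => by positivity) fun l _ => ?_
  split_ifs
  · exact h _
  · simp

theorem exp_prod_on {Xt : Type} [Fintype Xt] [Nonempty Xt] (s : Finset N) (G : Xt → ℂ) :
    𝔼 χ : N → Xt, ∏ l ∈ s, G (χ l) = (𝔼 χ, G χ) ^ s.card := by
  have e : 𝔼 χ : N → Xt, ∏ l, (if l ∈ s then G (χ l) else 1) =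
      ∏ l, 𝔼 χ, if l ∈ s then G χ else 1 := by
    have := prod_univ_sum (fun _ : N => (univ : Finset Xt)) fun l χ => if l ∈ s then G χ else 1
    simp only [expect_eq_sum_div_card, prod_div_distrib, this, Fintype.piFinset_univ]
    simp
  simp only [Fintype.prod_ite_mem] at e
  rw [e, ← prod_const, ← Fintype.prod_ite_mem s]
  exact prod_congr rfl fun l _ => by split_ifs <;> simp

variable {ν : Finset C → Vw C V → ℝ} {v0 : V} {δ : ℝ}

theorem pn_nonneg {Pl : Finset C} {f : C → Vw C V → ℝ} (hf : ∀ i u, 0 ≤ f i u) (φ : Fc C N)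
    (u : Vw C V) : 0 ≤ Pn Pl f φ u :=
  prod_nonneg fun j _ => by split_ifs; exacts [hf _ _, zero_le_one]

theorem erase_ne {φ : Fc C N} {i j : C} (hij : i ≠ j) (h : φ i = none) : sp φ ≠ univ.erase j :=
  fun k => (mem_sp.1 (by rw [k]; simp [hij])) h

theorem erase_ne' {φ : Fc C N} {i : C} (h : φ i ≠ none) : sp φ ≠ univ.erase i := fun k => by
  have := mem_sp.2 h
  rw [k] at this
  simp at this

theorem rec_step {Nq : Finset N} {o : N} {K κ μ τ : ℝ} (H : Rh ν v0 δ Nq o K κ μ τ) {a b i : C}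
    (hia : i ≠ a) (hib : i ≠ b) {f : C → Vw C V → ℝ} (hf : ∀ i u, 0 ≤ f i u ∧ f i u ≤ K)
    (si : SG ν v0 Nq i (f i) κ) {Pl : Finset C} (hi : i ∉ Pl)
    (ih : REC ν v0 Nq o κ μ τ a b f Pl) : REC ν v0 Nq o κ μ τ a b f (insert i Pl) := by
  intro A g B Xt _ _ sg ng hA ha hb hP ga gb gP hB hng da db
  have hAi : A i = {o} := hP i (mem_insert_self _ _)
  have ne : ∀ j ∈ Pl, j ≠ i := fun j hj e => hi (e ▸ hj)
  have q0 : Nq.card ≠ 0 := card_ne_zero.2 ⟨o, H.ho⟩
  have main := ih (update A i Nq) (Nq.card * g) (B ^ Nq.card) (N → Xt)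
    (fun χ φ => sg (χ ((φ i).getD o)) (update φ i (some o))) (Equiv.piCongrRight fun _ => ng)
    (fun j => by
      by_cases c : j = i
      · subst c; rw [update_self]; exact ⟨⟨o, H.ho⟩, subset_rfl⟩
      · rw [update_of_ne c]; exact hA j)
    (by rw [update_of_ne hia.symm, ha]) (by rw [update_of_ne hib.symm, hb])
    (fun j hj => by rw [update_of_ne (ne j hj), hP j (mem_insert_of_mem hj)])
    ((card_fs_up hia hAi Nq).trans (Nat.mul_le_mul_left _ ga))
    ((card_fs_up hib hAi Nq).trans (Nat.mul_le_mul_left _ gb))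
    (fun j hj => (card_fs_up (ne j hj).symm hAi Nq).trans
      (Nat.mul_le_mul_left _ (gP j (mem_insert_of_mem hj))))
    (one_le_pow₀ hB) (fun χ φ => hng _ _) (dom_up hia hAi Nq da) (dom_up hib hAi Nq db)
  obtain ⟨P, hP'⟩ : ∃ P : (Fc C N → Bool) → (Fm C N i → V) → ℂ, ∀ s x,
    P s x = bs i (at' i o (fam (cx ν) v0 (rect A) (Hr τ a b Pl f s))) x := ⟨_, fun _ _ => rfl⟩
  obtain ⟨h0, hh0⟩ : ∃ h0 : Fc C N → Vw C V → ℝ, h0 = fun φ u =>
    if φ ∈ fs (update A i ∅) i ∧ sp φ = univ.erase i then f i u else 1 := ⟨_, rfl⟩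
  have h00 : ∀ φ u, 0 ≤ h0 φ u := fun φ u => by
    rw [hh0]; dsimp only; split_ifs; exacts [(hf _ _).1, zero_le_one]
  obtain ⟨F, hF⟩ : ∃ F, F = fr i (fam ν v0 (rect A) h0) := ⟨_, rfl⟩
  obtain ⟨Q, hQ⟩ : ∃ Q : (Fm C N i → V) → ℝ, ∀ x, (Q x : ℂ) = 𝔼 χ, P (sg χ) x := by
    refine ⟨fun x => (𝔼 χ, P (sg χ) x).re, fun x => Complex.conj_eq_iff_re.1 ?_⟩
    rw [map_expect]
    refine Fintype.expect_equiv ng _ _ fun χ => ?_
    rw [hP', hP', conj_bs]
    congr 1
    funext ψ u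
    simp only [at', fam, Hr, Rt, hng, dl]
    split_ifs <;> simp [conj_rot]
  have e1 : 𝔼 χ, La (cx ν) v0 (rect A) (Hr τ a b (insert i Pl) f (sg χ)) =
      ((∑ x, F x * Q x : ℝ) : ℂ) := by
    simp only [Complex.ofReal_sum, Complex.ofReal_mul, hQ, mul_expect]
    rw [← expect_sum_comm]
    refine expect_congr rfl fun χ _ => ?_
    rw [la_fac_on _ _ _ (i := i) {o} fun φ l k k' => hAi ▸ k i l k']
    refine sum_congr rfl fun x _ => ?_
    rw [prod_singleton, hP', hF, fr_cast]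
    simp only [fam_cast]
    congr 1
    · refine fr_congr _ _ (fun _ => Iff.rfl) (fun ψ k => funext fun u => ?_) x
      simp only [Hr, Rt, Pn, erase_ne hia ψ.2, erase_ne hib ψ.2, if_false, one_mul, prod_insert hi,
        hh0, mem_fs, rect_empty, k, ψ.2, true_and, and_self]
      rw [prod_eq_one fun j hj => if_neg (erase_ne (ne j hj).symm ψ.2), mul_one]
    · refine bs_congr _ _ (fun _ => Iff.rfl) (fun ψ k => funext fun u => ?_) x
      simp only [Hr, Pn, prod_insert hi]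
      rw [if_neg (erase_ne' (by simp)), one_mul]
  have rf := rect_fm (A := update A i Nq) (A' := A) (i := i) fun j hj => by rw [update_of_ne hj]
  have e2 : ((∑ x, wt ν v0 (rect A) i x * Q x ^ Nq.card : ℝ) : ℂ) =
      𝔼 χ : N → Xt, La (cx ν) v0 (rect (update A i Nq)) (Hr τ a b Pl f
        fun φ => sg (χ ((φ i).getD o)) (update φ i (some o))) := by
    simp only [Complex.ofReal_sum, Complex.ofReal_mul, Complex.ofReal_pow, hQ, ← exp_prod_on,
      mul_expect]
    rw [← expect_sum_comm]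
    refine expect_congr rfl fun χ _ => ?_
    rw [la_fac_on _ _ _ (i := i) Nq fun φ l k k' => by simpa using k i l k']
    refine sum_congr rfl fun x _ => ?_
    rw [wt_cast]
    congr 1
    · refine fr_congr _ _ (fun ψ => (rf ψ).symm) (fun ψ k => funext fun u => ?_) x
      simp only [Hr, Rt, Pn, erase_ne hia ψ.2, erase_ne hib ψ.2, if_false, one_mul]
      rw [prod_eq_one fun j hj => if_neg (erase_ne (ne j hj).symm ψ.2), Complex.ofReal_one]
    · refine prod_congr rfl fun l hl => ?_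
      rw [hP']
      refine bs_congr _ _ (fun ψ => ?_) (fun ψ k => funext fun u => ?_) x
      · simp [rect_upd, rf, hl, hAi]
      · simp [Hr, Rt, Pn, sp_upd]
  have F0 : ∀ x, 0 ≤ F x := fun x => hF ▸ fr_nonneg i (fam_nonneg H.hν _ h00) x
  have cT : (fs (update A i ∅) i).card ≤ g :=
    (card_le_card fun φ k => by
      rw [mem_fs, rect_empty] at k
      exact mem_fs.2 ⟨k.1.1, k.2⟩).trans (gP i (mem_insert_self _ _))
  have F1 : ∀ x, F x ≤ K ^ g * wt ν v0 (rect A) i x := fun x => by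
    rw [hF]
    refine (fr_le H.hν _ (fs (update A i ∅) i) H.hK h00 (fun φ u _ => ?_) i x).trans
      (mul_le_mul_of_nonneg_right (pow_le_pow_right₀ H.hK cT) (wt_nonneg H.hν _ i x))
    rw [hh0]
    dsimp only
    by_cases k : φ ∈ fs (update A i ∅) i
    · simp only [k, true_and, if_true]
      split_ifs
      exacts [(hf _ _).2, H.hK]
    · simp [k]
  have e3 : ∑ x, F x ≤ 2 * κ ^ g := by
    rw [hF, sum_fr, la_congr ν v0 (fun φ => (rect_empty A i φ).symm) fun _ _ => rfl, hh0]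
    exact (si _ (update_self _ _ _) (fun j hj => by rw [update_of_ne hj]; exact hA j) _).trans
      (mul_le_mul_of_nonneg_left (pow_le_pow_right₀ H.hκ cT) (by norm_num))
  have Q0 : ∀ x, 0 ≤ Q x ^ Nq.card := fun x => H.ev.pow_nonneg _
  have Q1 : 0 ≤ ∑ x, wt ν v0 (rect A) i x * Q x ^ Nq.card :=
    sum_nonneg fun x _ => mul_nonneg (wt_nonneg H.hν _ i x) (Q0 x)
  have e4 : ∑ x, F x * Q x ^ Nq.card ≤ K ^ g * ∑ x, wt ν v0 (rect A) i x * Q x ^ Nq.card := by
    rw [mul_sum]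
    exact sum_le_sum fun x _ => (mul_le_mul_of_nonneg_right (F1 x) (Q0 x)).trans_eq (mul_assoc ..)
  rw [← e2, Complex.norm_real, Real.norm_of_nonneg Q1] at main
  have κ1 := H.hκ
  have K1 := H.hK
  have μ0 := H.hμ
  have p1 : 1 ≤ 2 * κ ^ g := by nlinarith [one_le_pow₀ (n := g) κ1]
  rw [e1, Complex.norm_real, Real.norm_eq_abs]
  refine le_of_pow_le_pow_left₀ q0 (by positivity) ((hol_even F Q F0 q0 H.ev).trans ?_)
  refine (mul_le_mul ((pow_le_pow_left₀ (sum_nonneg fun x _ => F0 x) e3 _).trans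
    (pow_le_pow_right₀ p1 (Nat.sub_le _ 1))) (e4.trans (mul_le_mul_of_nonneg_left main
      (by positivity))) (sum_nonneg fun x _ => mul_nonneg (F0 x) (Q0 x)) (by positivity)).trans ?_
  have k1 : (κ ^ Nq.card * K) ^ g ≤ (μ ^ Nq.card) ^ g := pow_le_pow_left₀ (by positivity) H.hq g
  have k2 : (3 * 2 ^ Pl.card : ℝ) ≤ (3 * 2 ^ Pl.card) ^ Nq.card :=
    le_self_pow₀ (by nlinarith [one_le_pow₀ (n := Pl.card) (show (1 : ℝ) ≤ 2 by norm_num)]) q0
  rw [card_insert_of_notMem hi]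
  calc _ = (κ ^ Nq.card * K) ^ g * (3 * 2 ^ Pl.card) * (2 ^ Nq.card * B ^ Nq.card *
        μ ^ (Pl.card * (Nq.card * g)) * (1 + τ ^ 2 * κ ^ 2) ^ (Nq.card * g)) := by ring
    _ ≤ (μ ^ Nq.card) ^ g * (3 * 2 ^ Pl.card) ^ Nq.card * (2 ^ Nq.card * B ^ Nq.card *
        μ ^ (Pl.card * (Nq.card * g)) * (1 + τ ^ 2 * κ ^ 2) ^ (Nq.card * g)) := by gcongr
    _ = _ := by
      simp only [mul_pow, ← pow_mul]
      rw [show (Pl.card + 1) * g * Nq.card = Nq.card * g + Pl.card * (Nq.card * g) by ring,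
        show (Pl.card + 1) * Nq.card = Pl.card * Nq.card + Nq.card by ring, pow_add, pow_add,
        mul_comm g Nq.card]
      generalize (2 : ℝ) ^ (Pl.card * Nq.card) = x1
      generalize (2 : ℝ) ^ Nq.card = x2
      generalize (3 : ℝ) ^ Nq.card = x3
      ring

theorem rec_all {Nq : Finset N} {o : N} {K κ μ τ : ℝ} (H : Rh ν v0 δ Nq o K κ μ τ) {a b : C}
    (hab : a ≠ b) {f : C → Vw C V → ℝ} (hf : ∀ i u, 0 ≤ f i u ∧ f i u ≤ K)
    (sa : SG ν v0 Nq a (f a) κ) (sb' : SG ν v0 Nq b (f b) κ) (Pl : Finset C) :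
    (∀ i ∈ Pl, i ≠ a ∧ i ≠ b ∧ SG ν v0 Nq i (f i) κ) → REC ν v0 Nq o κ μ τ a b f Pl := by
  induction Pl using Finset.induction_on with
  | empty => exact fun _ => rec_base H hab hf sa sb'
  | insert i Pl hi ih =>
    intro h
    obtain ⟨h1, h2, h3⟩ := h i (mem_insert_self _ _)
    exact rec_step H h1 h2 hf h3 hi (ih fun j hj => h j (mem_insert_of_mem hj))

end

end Vale.Agent.P057RH
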