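import Vale.Agent.P057RH.Cut

/-! Splitting with an extra factor, scaled removal of faces, subgrids. -/

set_option linter.all false

open Finset Function
open scoped BigOperators

namespace Vale.Agent.P057RH

noncomputable section

open Classical

variable {C N V : Type} [Fintype C] [DecidableEq C] [Fintype N] [DecidableEq N] [Fintype V]
  [DecidableEq V]

theorem lam_fac' {R : Type} [CommSemiring R] (i : C) (G : Fc C N → Vw C V → R)
    (Ψ : (Fm C N i → V) → R) :
    ∑ a : Fc C N → V, (∏ φ, G φ (vw a φ)) * Ψ (fun ψ => a ψ.1) =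
      ∑ x : Fm C N i → V, fr i G x * Ψ x * ∏ l : N, bs i (at' i l G) x := by
  have h := lam_fac i (fun φ u => G φ u)
  rw [← (csplit (V := V) (N := N) i).symm.sum_comp, Fintype.sum_prod_type]
  refine sum_congr rfl fun x _ => ?_
  have h1 := Finset.prod_univ_sum (fun _ : N => (univ : Finset (Fm C N i → V)))
    (fun l b => ∏ ψ : Fm C N i, at' i l G ψ (vb x b ψ))
  rw [Fintype.piFinset_univ] at h1
  unfold bs
  rw [h1, mul_sum]
  refine sum_congr rfl fun β _ => ?_
  rw [← (fsplit (N := N) i).symm.prod_comp, Fintype.prod_prod_type, Fintype.prod_option]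
  have e := (csplit (V := V) (N := N) i).apply_symm_apply (x, β)
  generalize (csplit (V := V) (N := N) i).symm (x, β) = a at e
  have e1 : ∀ ψ : Fm C N i, a ψ.1 = x ψ := fun ψ => congrFun (congrArg Prod.fst e) ψ
  have e2 : ∀ l (ψ : Fm C N i), a (update ψ.1 i (some l)) = β l ψ := fun l ψ =>
    congrFun (congrFun (congrArg Prod.snd e) l) ψ
  rw [funext e1, mul_right_comm]
  refine congrArg₂ (· * ·) (congrArg (· * Ψ x) ?_) ?_
  · refine prod_congr rfl fun ψ _ => ?_
    show G (update ψ.1 i none) (vw a (update ψ.1 i none)) = _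
    rw [upd_none]
    congr 1
    funext T
    exact e1 (rm ψ T)
  · refine prod_congr rfl fun l _ => prod_congr rfl fun ψ _ => ?_
    show G (update ψ.1 i (some l)) (vw a (update ψ.1 i (some l))) = _
    congr 1
    funext T
    simp only [vw, vb, res_upd]
    split_ifs
    · exact e2 l _
    · rw [upd_none]; exact e1 _

theorem la_fac' {R : Type} [CommSemiring R] (ν : Finset C → Vw C V → R) (v0 : V)
    {K : Fc C N → Prop} (h : Fc C N → Vw C V → R) {i : C} (s : Finset N)
    (hs : ∀ φ l, K φ → φ i = some l → l ∈ s) (Ψ : (Fm C N i → V) → R) :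
    ∑ a : Fc C N → V, (∏ φ, fam ν v0 K h φ (vw a φ)) * Ψ (fun ψ => a ψ.1) =
      ∑ x, fr i (fam ν v0 K h) x * Ψ x * ∏ l ∈ s, bs i (at' i l (fam ν v0 K h)) x := by
  rw [lam_fac' i]
  refine sum_congr rfl fun x _ => ?_
  rw [← prod_subset (subset_univ s) fun l _ hl =>
    bs_absent ν v0 h (fun ψ k => hl (hs _ l k (by simp))) x]

theorem fr_congr {R : Type} [CommSemiring R] (ν : Finset C → Vw C V → R) (v0 : V) {i : C}
    {K K' : Fc C N → Prop} {h h' : Fc C N → Vw C V → R} (k : ∀ ψ : Fm C N i, K ψ.1 ↔ K' ψ.1)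
    (k' : ∀ ψ : Fm C N i, K ψ.1 → h ψ.1 = h' ψ.1) (x : Fm C N i → V) :
    fr i (fam ν v0 K h) x = fr i (fam ν v0 K' h') x :=
  prod_congr rfl fun ψ _ => by
    simp only [fam, ← k ψ]
    split_ifs with e
    · rw [k' ψ e]
    · rfl

theorem bs_congr {R : Type} [CommSemiring R] (ν : Finset C → Vw C V → R) (v0 : V) {i : C} {l l' : N}
    {K K' : Fc C N → Prop} {h h' : Fc C N → Vw C V → R}
    (k : ∀ ψ : Fm C N i, K (update ψ.1 i (some l)) ↔ K' (update ψ.1 i (some l')))
    (k' : ∀ ψ : Fm C N i, K (update ψ.1 i (some l)) →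
      h (update ψ.1 i (some l)) = h' (update ψ.1 i (some l'))) (x : Fm C N i → V) :
    bs i (at' i l (fam ν v0 K h)) x = bs i (at' i l' (fam ν v0 K' h')) x := by
  congr 1
  funext ψ u
  simp only [at', fam, ← k ψ, sp_upd]
  split_ifs with e
  · rw [k' ψ e]
  · rfl

theorem la_congr {R : Type} [CommSemiring R] (ν : Finset C → Vw C V → R) (v0 : V)
    {K K' : Fc C N → Prop} {h h' : Fc C N → Vw C V → R} (k : ∀ φ, K φ ↔ K' φ)
    (k' : ∀ φ, K φ → h φ = h' φ) : La ν v0 K h = La ν v0 K' h' := by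
  unfold La
  congr 1
  funext φ u
  simp only [fam, ← k φ]
  split_ifs with e
  · rw [k' φ e]
  · rfl

theorem sum_fr {R : Type} [CommSemiring R] (ν : Finset C → Vw C V → R) (v0 : V)
    (K : Fc C N → Prop) (h : Fc C N → Vw C V → R) (i : C) :
    ∑ x, fr i (fam ν v0 K h) x = La ν v0 (fun φ => K φ ∧ φ i = none) h := by
  rw [la_fac_on ν v0 h (i := i) ∅ fun φ l k e => by rw [k.2] at e; cases e]
  refine sum_congr rfl fun x _ => ?_
  rw [prod_empty, mul_one]
  exact fr_congr ν v0 (fun ψ => by simp [ψ.2]) (fun _ _ => rfl) x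

theorem rect_empty (A : C → Finset N) (i : C) (φ : Fc C N) :
    rect (update A i ∅) φ ↔ rect A φ ∧ φ i = none := by
  constructor
  · intro h
    have e : φ i = none := by
      cases e : φ i with
      | none => rfl
      | some l => simpa using h i l e
    refine ⟨fun j l k => ?_, e⟩
    have := h j l k
    rwa [update_of_ne (by rintro rfl; rw [e] at k; cases k)] at this
  · rintro ⟨h, e⟩ j l k
    rw [update_of_ne (by rintro rfl; rw [e] at k; cases k)]
    exact h j l k

theorem la_scale {R : Type} [CommSemiring R] (ν : Finset C → Vw C V → R) (v0 : V)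
    {K : Fc C N → Prop} (h : Fc C N → Vw C V → R) (T : Finset (Fc C N)) (hT : ∀ φ ∈ T, K φ)
    (M : R) : La ν v0 K (fun φ u => (if φ ∈ T then M else 1) * h φ u) = M ^ T.card * La ν v0 K h := by
  unfold La Lam
  rw [mul_sum]
  refine sum_congr rfl fun a _ => ?_
  rw [← prod_const, ← Fintype.prod_ite_mem T, ← prod_mul_distrib]
  refine prod_congr rfl fun φ _ => ?_
  by_cases h2 : φ ∈ T
  · simp only [fam, h2, hT φ h2, if_true]
    ring
  · simp only [fam, h2, if_false, one_mul]

variable {ν : Finset C → Vw C V → ℝ} {v0 : V} {δ : ℝ}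

theorem fr_le (hν : ∀ S u, 0 ≤ ν S u) (K : Fc C N → Prop) {h : Fc C N → Vw C V → ℝ}
    (T : Finset (Fc C N)) {M : ℝ} (hM : 1 ≤ M) (h0 : ∀ φ u, 0 ≤ h φ u)
    (hh : ∀ φ u, K φ → h φ u ≤ if φ ∈ T then M else 1) (i : C) (x : Fm C N i → V) :
    fr i (fam ν v0 K h) x ≤ M ^ T.card * wt ν v0 K i x := by
  have e : ∏ ψ : Fm C N i, (if ψ.1 ∈ T then M else 1) ≤ M ^ T.card := by
    rw [prod_ite, prod_const_one, mul_one, prod_const]
    refine pow_le_pow_right₀ hM (card_le_card_of_injOn (fun ψ => ψ.1) (fun ψ k => by simpa using k)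
      fun _ _ _ _ k => Subtype.ext k)
  refine le_trans ?_ (mul_le_mul_of_nonneg_right e (wt_nonneg hν K i x))
  rw [wt, fr, fr, ← prod_mul_distrib]
  refine prod_le_prod (fun _ _ => fam_nonneg hν K h0 _ _) fun ψ _ => ?_
  unfold fam
  split_ifs with k k' k'
  · have := hh _ (vx x ψ) k
    rw [if_pos k'] at this
    nlinarith [hν (sp ψ.1) (vx x ψ)]
  · have := hh _ (vx x ψ) k
    rw [if_neg k'] at this
    nlinarith [hν (sp ψ.1) (vx x ψ)]
  · nlinarith [dl_nonneg v0 (vx x ψ)]
  · rw [one_mul]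

/-- removal of faces against factors bounded by M on a set of faces -/
theorem cut_bd (hν : ∀ S u, 0 ≤ ν S u) (hL : LFC N ν v0 δ) {o o' : N} (hoo : o ≠ o') (T : Finset C)
    {K K' : Fc C N → Prop} (hK : DC K) (hK' : DC K') (hT : ∀ φ, ¬ T ⊆ sp φ → (K φ ↔ K' φ))
    (ho : ∀ φ l, ∀ i ∈ T, K φ ∨ K' φ → φ i = some l → l = o) {h : Fc C N → Vw C V → ℂ}
    (J : Finset (Fc C N)) (hJ : ∀ φ ∈ J, K φ ∧ ¬ T ⊆ sp φ) {M ε : ℝ} (hM : 0 < M)
    (hh : ∀ φ u, K φ → ‖h φ u‖ ≤ if φ ∈ J then M else 1)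
    (h1 : ∀ φ u, T ⊆ sp φ → h φ u = 1) (hε : 0 ≤ ε)
    (hδ : ((1 + δ) * 2) ^ (2 ^ T.card) * δ ≤ ε ^ (2 ^ T.card)) :
    ‖La (cx ν) v0 K h - La (cx ν) v0 K' h‖ ≤ M ^ J.card * ε := by
  obtain ⟨g, hg⟩ : ∃ g : Fc C N → Vw C V → ℂ, ∀ φ u, g φ u =
    if φ ∈ J then h φ u / M else if K φ then h φ u else 1 := ⟨_, fun _ _ => rfl⟩
  have m0 : (M : ℂ) ≠ 0 := by exact_mod_cast hM.ne'
  have k1 := cut hν hL hoo T hK hK' hT ho (h := g) (fun φ u => by
    rw [hg]
    split_ifs with k k'
    · have := hh φ u (hJ φ k).1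
      rw [if_pos k] at this
      rwa [norm_div, Complex.norm_real, Real.norm_of_nonneg hM.le, div_le_one hM]
    · simpa [k] using hh φ u k'
    · simp) (fun φ u k => by
    rw [hg, if_neg fun k' => (hJ φ k').2 k, h1 φ u k, ite_self])
  have k2 := le_of_pow_le_pow_left₀ (by positivity) hε (k1.trans hδ)
  have e1 : La (cx ν) v0 K h = (M : ℂ) ^ J.card * La (cx ν) v0 K g := by
    rw [← la_scale _ _ _ J fun φ k => (hJ φ k).1]
    refine la_congr _ _ (fun _ => Iff.rfl) fun φ k => funext fun u => ?_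
    rw [hg]
    split_ifs
    · field_simp
    · rw [one_mul]
  have e2 : La (cx ν) v0 K' h = (M : ℂ) ^ J.card * La (cx ν) v0 K' g := by
    rw [← la_scale _ _ _ J fun φ k => (hT φ (hJ φ k).2).1 (hJ φ k).1]
    refine la_congr _ _ (fun _ => Iff.rfl) fun φ k => funext fun u => ?_
    rw [hg]
    split_ifs with k1 k2
    · field_simp
    · rw [one_mul]
    · rw [one_mul]
      exact h1 φ u (by_contra fun k3 => k2 ((hT φ k3).2 k))
  rw [e1, e2, ← mul_sub, norm_mul, norm_pow, Complex.norm_real, Real.norm_of_nonneg hM.le]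
  exact mul_le_mul_of_nonneg_left k2 (by positivity)

/-- bounds for all subgrids of the slot j -/
def SG (ν : Finset C → Vw C V → ℝ) (v0 : V) (Nq : Finset N) (j : C) (f : Vw C V → ℝ) (κ : ℝ) : Prop :=
  ∀ A : C → Finset N, A j = ∅ → (∀ i, i ≠ j → (A i).Nonempty ∧ A i ⊆ Nq) →
    ∀ T : Finset (Fc C N), La ν v0 (rect A)
      (fun φ u => if φ ∈ T ∧ sp φ = univ.erase j then f u else 1) ≤ 2 * κ ^ T.card

theorem sg_of_grid (hν : ∀ S u, 0 ≤ ν S u) (hL : LFC N ν v0 δ)
    (hδ : (1 + δ) ^ Fintype.card C ≤ 2) {Nq : Finset N} (o : N) {j : C} {f : Vw C V → ℝ}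
    (hf : ∀ u, 0 ≤ f u) {κ : ℝ} (hκ : 1 ≤ κ)
    (h : gr ν v0 (update (fun _ => Nq) j ∅) (univ.erase j) o (fun _ => f) ≤
      κ ^ (Nq.card ^ (Fintype.card C - 1))) : SG ν v0 Nq j f κ := by
  intro A hj hA T
  have d0 := hL.nonneg
  obtain ⟨S, hS⟩ : ∃ S, S = univ.erase j := ⟨_, rfl⟩
  have mS : ∀ i, i ∈ S ↔ i ≠ j := fun i => by simp [hS]
  have cS : S.card + 1 = Fintype.card C := by rw [hS, card_erase_add_one (mem_univ j), card_univ]
  rw [← hS] at h ⊢
  have k1 := mono hν hL (A' := update (fun _ => Nq) j ∅) (S := S) o hf le_rfl (by linarith : 0 ≤ κ)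
    (fun i hi => by
      rw [update_of_ne ((mS i).1 hi)]
      exact ((hA i ((mS i).1 hi)).1.mono (hA i ((mS i).1 hi)).2).card_ne_zero)
    (by
      rw [one_mul, card_cells, prod_congr rfl (g := fun _ => Nq.card) fun i hi => by
        rw [update_of_ne ((mS i).1 hi)], prod_const, show S.card = Fintype.card C - 1 by omega]
      exact h) S subset_rfl A
    (fun i hi => by
      have : i = j := by_contra fun k => hi ((mS i).2 k)
      rw [this, hj, update_self])
    (fun i hi => by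
      rw [update_of_ne ((mS i).1 hi)]
      exact card_le_card (hA i ((mS i).1 hi)).2)
  have d1 : (1 + δ) ^ S.card ≤ 2 := (pow_le_pow_right₀ (by linarith) (by omega)).trans hδ
  have d2 : 1 + δ ≤ 2 := (le_self_pow₀ (by linarith) (by omega)).trans hδ
  obtain ⟨fc, hfc⟩ : ∃ fc : (C → N) → Fc C N, ∀ c i, fc c i = if i ∈ S then some (c i) else none :=
    ⟨_, fun _ _ => rfl⟩
  have k2 := gh (v0 := v0) hν A (S := S) o (F := fun c u => if fc c ∈ T then f u else 1)
    (fun c u => by split_ifs; exacts [hf u, zero_le_one]) fun i hi => (hA i ((mS i).1 hi)).1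
  have n0 : (cells A S o).card ≠ 0 := by
    rw [card_cells]
    exact prod_ne_zero_iff.2 fun i hi => (hA i ((mS i).1 hi)).1.card_ne_zero
  have e : La ν v0 (rect A) (fun φ u => if φ ∈ T ∧ sp φ = S then f u else 1) =
      gr ν v0 A S o (fun c u => if fc c ∈ T then f u else 1) := by
    refine la_congr _ _ (fun _ => Iff.rfl) fun φ _ => funext fun u => ?_
    unfold cel
    by_cases k : sp φ = S
    · have : fc (fun i => (φ i).getD o) = φ := funext fun i => by
        rw [hfc, ← k]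
        cases e : φ i <;> simp [mem_sp, e]
      simp [k, this]
    · simp [k]
  rw [e]
  refine le_of_pow_le_pow_left₀ n0 (by positivity) (k2.trans ?_)
  have k3 : ∀ t ∈ cells A S o, gr ν v0 A S o (fun _ u => if fc t ∈ T then f u else 1) ≤
      2 * if fc t ∈ T then κ ^ (cells A S o).card else 1 := fun t _ => by
    split_ifs
    · exact k1.trans (mul_le_mul_of_nonneg_right (by linarith) (by positivity))
    · refine le_trans (le_of_eq ?_) ((hL.le (dc_rect A)).trans (by linarith))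
      exact la_congr _ _ (fun _ => Iff.rfl) fun φ _ => funext fun u => by simp [cel]
  refine (prod_le_prod (fun t _ => gr_nonneg hν A S o fun _ u => by
    split_ifs; exacts [hf u, zero_le_one]) k3).trans ?_
  rw [prod_mul_distrib, prod_const, prod_ite, prod_const_one, mul_one, prod_const, mul_pow,
    ← pow_mul, ← pow_mul, mul_comm T.card]
  refine mul_le_mul_of_nonneg_left (pow_le_pow_right₀ hκ (Nat.mul_le_mul_left _ ?_)) (by positivity)
  refine card_le_card_of_injOn fc (fun t k => (mem_filter.1 k).2) fun t k t' k' e => funext fun i => ?_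
  have m1 := Fintype.mem_piFinset.1 (mem_filter.1 k).1 i
  have m2 := Fintype.mem_piFinset.1 (mem_filter.1 k').1 i
  have := congrFun e i
  rw [hfc, hfc] at this
  by_cases k : i ∈ S
  · simpa [k] using this
  · simp only [k, if_false, mem_singleton] at m1 m2
    rw [m1, m2]

end

end Vale.Agent.P057RH
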